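import Vale.Agent.P354BK.Props
import Vale.Agent.P354BK.Lip
import Vale.Agent.P354YT.Fn

/-!
BACK: the steps CONE, ITP and ZERO.
-/

set_option maxSynthPendingDepth 3

open scoped ContDiff
open Set Filter Topology

noncomputable section

namespace Vale.Agent.P354XY

open Vale.Agent.P354n (R4)
open Vale.Agent.P354RC (bs)
open Vale.Agent.P354XE (Tw Bd gin rd xs)
open Vale.Agent.P354XA (rd_cont)
open Vale.Agent.P354XD (tb rp_tb)
open Vale.Agent.P354YT (Pm)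
open Vale.Agent.P354BK

theorem lip_on {f : ℝ → ℝ} {a b : ℝ} (h : ∀ x ∈ Icc a b, ContDiffAt ℝ ∞ f x) :
    ∃ L, 0 ≤ L ∧ ∀ x ∈ Icc a b, ∀ y ∈ Icc a b, |f y - f x| ≤ L * |y - x| := by
  obtain ⟨L, hL⟩ := isCompact_Icc.exists_bound_of_continuousOn (f := deriv f) fun x hx =>
    (((h x hx).derivWithin (m := 0) (by simp)).continuousAt).continuousWithinAt
  exact ⟨|L|, abs_nonneg L, fun x hx y hy => (convex_Icc a b).norm_image_sub_le_of_norm_deriv_le
    (fun x hx => (h x hx).differentiableAt (by simp)) (fun x hx => (hL x hx).trans (le_abs_self L))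
    hx hy⟩

/-- The radius along a segment which is almost radial. -/
theorem rd_seg {p w : R4} (r0 : 0 < rd p) (hw : ‖w‖ ≤ 1) {A σ s : ℝ} (s0 : 0 ≤ s)
    (h : 0 ≤ rd p + s * σ) : |rd (p + s • ((A, (σ / rd p) • p.2) + w)) - (rd p + s * σ)| ≤ 2 * s := by
  have e : xs (p + s • ((A, (σ / rd p) • p.2) + w)) =
      ((rd p + s * σ) / rd p) • xs p + s • xs w := by
    ext i
    fin_cases i <;> simp [xs] <;> field_simp <;> ring
  have n : ‖((rd p + s * σ) / rd p) • xs p‖ = rd p + s * σ := by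
    rw [norm_smul, Real.norm_of_nonneg (div_nonneg h r0.le)]
    exact div_mul_cancel₀ _ r0.ne'
  have w2 : ‖xs w‖ ≤ 2 := by
    have k : ∀ x : ℝ, ‖x‖ ≤ ‖w‖ → x * x ≤ 1 := fun x hx => by
      nlinarith [abs_le.1 (hx.trans hw)]
    have k1 := k _ ((norm_fst_le w.2).trans (norm_snd_le w))
    have k2 := k _ (((norm_fst_le w.2.2).trans (norm_snd_le w.2)).trans (norm_snd_le w))
    have k3 := k _ (((norm_snd_le w.2.2).trans (norm_snd_le w.2)).trans (norm_snd_le w))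
    exact le_of_sq_le_sq ((P354XA.rd_sq w).trans_le (by unfold P354XA.ip; linarith)) two_pos.le
  have := abs_norm_sub_norm_le (((rd p + s * σ) / rd p) • xs p + s • xs w)
    (((rd p + s * σ) / rd p) • xs p)
  rw [n, add_sub_cancel_left, norm_smul, Real.norm_of_nonneg s0, ← e] at this
  exact this.trans (by nlinarith)

/-- **CONE.** -/
theorem cone : CONE := by
  intro c ν h hν
  obtain ⟨L1, L10, hL1⟩ := lip_on (f := c.H) (a := c.r1) (b := c.Rs) fun _ _ => h.sm.contDiffAt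
  obtain ⟨L2, L20, hL2⟩ := lip_on (f := c.nu) (a := c.R1) (b := c.R1 + 1) fun x hx =>
    h.nu_cd (h.lt.trans_le hx.1)
  have hb : ∀ x y, |c.be y - c.be x| ≤ 1 / 4 * |y - x| := fun x y =>
    convex_univ.norm_image_sub_le_of_norm_deriv_le (fun x _ => (h.be_d x).differentiableAt)
      (fun x _ => by
        rw [(h.be_d x).deriv]
        exact abs_le.2 ⟨by linarith [(h.bi_mem x).1], (h.bi_mem x).2⟩) (mem_univ x) (mem_univ y)
  have r10 := h.r10
  obtain ⟨d0, d1⟩ := h.del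
  have z1 : c.nu c.R1 = 0 := Pm.nu_zero ⟨by linarith [h.rpR], le_rfl⟩
  obtain ⟨A, hA⟩ : ∃ A, A = 7 * (L1 + L2 + 1) + 1 := ⟨_, rfl⟩
  have A5 : 5 ≤ A := by linarith
  refine ⟨min (1 / 20) (c.del * c.r1 / (2 * (A + 4))), by positivity, A, fun V p hp h0 => ?_⟩
  obtain ⟨⟨p1, -⟩, -, p2, p3⟩ := hp
  have r0 : 0 < rd p := r10.trans p1
  have t0 : c.be (rd p) + 2 * (c.del * rd p) ≤ p.1 := by
    rw [Pm.psi, sub_nonneg, le_div_iff₀ (by positivity)] at h0
    linarith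
  have key : ∀ σ : ℝ, |σ| = 5 → (∀ s ∈ Icc 0 (1 / 20), ∀ r, |r - (rd p + s * σ)| ≤ 2 * s →
      c.r1 < r ∧ r < c.Rs ∧ c.nu r + ν r ≤ c.nu (rd p) + ν (rd p) + 7 * (L2 + 1) * s) →
      (∀ s ∈ Icc 0 (1 / 20), 0 ≤ rd p + s * σ) →
      Cn (Zo c ν V) (min (1 / 20) (c.del * c.r1 / (2 * (A + 4)))) A p := by
    intro σ hσ H H2
    refine ⟨(-A, (σ / rd p) • p.2), max_le (by rw [norm_neg, Real.norm_of_nonneg (by linarith)]) ?_,
      fun w hw s hs => ?_⟩
    · have : ‖p.2‖ ≤ rd (0, p.2) := by simpa using P354XA.norm_le (0, p.2)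
      replace this : ‖p.2‖ ≤ rd p := this
      rw [norm_smul, norm_div, Real.norm_eq_abs, hσ, Real.norm_of_nonneg r0.le, div_mul_eq_mul_div,
        div_le_iff₀ r0]
      nlinarith
    obtain ⟨s1, s2⟩ := le_min_iff.1 hs.2
    have s0 := hs.1
    have k := rd_seg r0 hw (A := -A) s0 (H2 s ⟨s0, s1⟩)
    have w1 := abs_le.1 (show |w.1| ≤ 1 from (norm_fst_le w).trans hw)
    have e : (p + s • ((-A, (σ / rd p) • p.2) + w)).1 = p.1 + s * (-A + w.1) := rfl
    generalize p + s • ((-A, (σ / rd p) • p.2) + w) = q at *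
    obtain ⟨a1, a2, a3⟩ := H s ⟨s0, s1⟩ _ k
    have a4 : |rd q - rd p| ≤ 7 * s := by
      have : |s * σ| = 5 * s := by rw [abs_mul, hσ, abs_of_nonneg s0, mul_comm]
      have k2 := abs_le.1 this.le
      rw [abs_le] at k ⊢
      constructor <;> linarith [k.1, k.2, k2.1, k2.2]
    have a5 : -1 < c.psi q := by
      rw [le_div_iff₀ (by positivity)] at s2
      rw [Pm.psi, lt_sub_iff_add_lt, lt_div_iff₀ (mul_pos d0 (r10.trans a1)), e]
      nlinarith [(abs_le.1 (hb (rd p) (rd q))).2, (abs_le.1 a4).2, mul_pos d0 (sub_pos.2 p1),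
        mul_le_mul_of_nonneg_left (abs_le.1 a4).2 d0.le, mul_le_mul_of_nonneg_left w1.1 s0,
        mul_le_mul_of_nonneg_right d1 s0, mul_pos d0 r10]
    refine ⟨⟨a1, by linarith⟩, a5, a2, lt_of_le_of_lt ?_ p3⟩
    have a6 := (abs_le.1 ((hL1 _ ⟨p1.le, p2.le⟩ _ ⟨a1.le, a2.le⟩).trans
      (mul_le_mul_of_nonneg_left a4 L10))).1
    simp only [Pm.tau, Pm.tq, Pm.G_zero a2.le, Pm.G_zero p2.le, e]
    linarith [mul_le_mul_of_nonneg_left w1.2 s0, congrArg (· * s) hA]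
  have R1 := h.rpR
  have R2 := h.Rs
  have R3 := h.r1.2
  rcases le_total (rd p) c.R1 with k | k
  · refine key 5 (by norm_num) (fun s hs r hr => ?_) fun s hs => by linarith [hs.1]
    obtain ⟨s0, s1⟩ := hs
    obtain ⟨b1, b2⟩ := abs_le.1 hr
    refine ⟨by linarith, by linarith, ?_⟩
    rw [hν.zero _ k]
    rcases le_total r c.R1 with k2 | k2
    · rw [hν.zero _ k2]
      linarith [h.nu_anti ⟨p1, k⟩ ⟨by linarith, k2⟩ (by linarith : rd p ≤ r),
        mul_nonneg (by linarith : 0 ≤ 7 * (L2 + 1)) s0]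
    · have b3 := (abs_le.1 (hL2 _ ⟨le_rfl, by linarith⟩ r ⟨k2, by linarith⟩)).2
      rw [z1, abs_of_nonneg (sub_nonneg.2 k2)] at b3
      linarith [hν.lip _ _ k2, hν.zero _ le_rfl, h.nu_nonneg p1,
        mul_le_mul_of_nonneg_left (by linarith : r - c.R1 ≤ 7 * s) L20]
  · refine key (-5) (by norm_num) (fun s hs r hr => ?_) fun s hs => by linarith [hs.2, h.R1, h.M0]
    obtain ⟨s0, s1⟩ := hs
    obtain ⟨b1, b2⟩ := abs_le.1 hr
    refine ⟨by linarith, by linarith, ?_⟩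
    have b3 := hν.mono (by linarith : r ≤ rd p)
    have b4 := mul_nonneg (by linarith : 0 ≤ 7 * (L2 + 1)) s0
    rcases le_total r c.R1 with k2 | k2
    · linarith [Pm.nu_zero (c := c) (r := r) ⟨by linarith, k2⟩, h.nu_nonneg p1]
    · linarith [h.nu_mono k2 k (by linarith : r ≤ rd p)]

/-- **ITP.** -/
theorem itp : ITP := by
  intro k t0 A C δ ht hδ
  suffices H : ∀ j ≤ k, ∀ δ > 0, ∃ ε > 0, ε ≤ δ ∧ ∀ (Z Y : Set R4) (h : Tw),
      (∀ p ∈ Z, (∀ v w, ContDiffAt ℝ ∞ (fun x => h x v w) p) ∧ (p ∉ Y → Cn Z t0 A p) ∧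
        Bd (k + 1) h p C ∧ Bd 0 h p ε ∧ (p ∈ Y → Bd k h p ε)) → ∀ p ∈ Z, Bd j h p δ by
    obtain ⟨ε, e0, -, H⟩ := H k le_rfl δ hδ
    exact ⟨ε, e0, H⟩
  have mono : ∀ {j h p a b}, a ≤ b → Bd j h p a → Bd j h p b := fun hab h i hi v w =>
    (h i hi v w).trans (mul_le_mul_of_nonneg_right hab (by positivity))
  intro j
  induction j with
  | zero => exact fun _ δ d0 => ⟨δ, d0, le_rfl, fun Z Y h H p hp => (H p hp).2.2.2.1⟩
  | succ j ih =>
    intro hj δ d0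
    obtain ⟨t, t1, t2, t3⟩ : ∃ t > 0, t ≤ t0 ∧ |C| * (|A| + 1) ^ 2 * t ≤ δ / 4 :=
      ⟨min t0 (δ / 4 / (|C| * (|A| + 1) ^ 2 + 1)), by positivity, min_le_left _ _, by
        have := min_le_right t0 (δ / 4 / (|C| * (|A| + 1) ^ 2 + 1))
        rw [le_div_iff₀ (by positivity)] at this
        linarith [(lt_min ht (by positivity) : 0 < min t0 (δ / 4 / (|C| * (|A| + 1) ^ 2 + 1)))]⟩
    obtain ⟨ε, e0, e1, ih⟩ := ih (by omega) (min δ (δ * t / 8)) (by positivity)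
    have e2 := e1.trans (min_le_left _ _)
    refine ⟨ε, e0, e2, fun Z Y h H p hp => ?_⟩
    by_cases y : p ∈ Y
    · exact mono e2 fun i hi => (H p hp).2.2.2.2 y i (hi.trans hj)
    intro i hi v w
    rcases hi.eq_or_lt with rfl | hi
    swap
    · exact mono (min_le_left _ _) (ih Z Y h H p hp) i (by omega) v w
    obtain ⟨v0, n0, hv⟩ := (H p hp).2.1 y
    have n1 : 0 ≤ ‖v‖ * ‖w‖ := by positivity
    have k1 : ∀ u : R4, ‖u‖ ≤ 1 → ‖fderiv ℝ (iteratedFDeriv ℝ j fun x => h x v w) p (v0 + u)‖ ≤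
        δ / 2 * (‖v‖ * ‖w‖) := fun u hu => by
      refine (interp (ε := δ * t / 8 * (‖v‖ * ‖w‖)) (C := |C| * (‖v‖ * ‖w‖)) t1 fun s hs => ?_).trans ?_
      · have m := hv u hu s ⟨hs.1, hs.2.trans t2⟩
        refine ⟨((H _ m).1 v w).iteratedFDeriv_right (m := 2) (i := j)
            (by exact_mod_cast P354YI.le_inf (2 + j)),
          mono (min_le_right _ _) (ih Z Y h H _ m) j le_rfl v w, ?_⟩
        rw [fderiv_iteratedFDeriv, ← norm_iteratedFDeriv_one,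
          LinearIsometryEquiv.norm_iteratedFDeriv_comp_left, norm_iteratedFDeriv_one,
          norm_fderiv_iteratedFDeriv]
        exact mono (le_abs_self C) (H _ m).2.2.1 _ (by omega) v w
      · have n2 : ‖v0 + u‖ ≤ |A| + 1 := (norm_add_le _ _).trans (by linarith [le_abs_self A])
        have n3 : |C| * (‖v‖ * ‖w‖) * ‖v0 + u‖ ^ 2 * t ≤ |C| * (‖v‖ * ‖w‖) * (|A| + 1) ^ 2 * t := by
          gcongr
        have n4 : 2 * (δ * t / 8 * (‖v‖ * ‖w‖)) / t = δ / 4 * (‖v‖ * ‖w‖) := by field_simp; ring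
        linarith [mul_le_mul_of_nonneg_right t3 n1]
    rw [← norm_fderiv_iteratedFDeriv]
    refine ContinuousLinearMap.opNorm_le_of_unit_norm (by positivity) fun u hu => ?_
    have := norm_sub_le (fderiv ℝ (iteratedFDeriv ℝ j fun x => h x v w) p (v0 + u))
      (fderiv ℝ (iteratedFDeriv ℝ j fun x => h x v w) p (v0 + 0))
    rw [← map_sub, add_zero, add_sub_cancel_left] at this
    have k2 := k1 0 (by simp)
    rw [add_zero] at k2
    linarith [k1 u hu.le]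

/-- **ZERO.** -/
theorem zero : ZERO := by
  intro c h δ d0
  obtain ⟨ρ, r0, L, l1, H⟩ := lip_near (isCompact_singleton (x := (c.M, c.a)).prod (K0_cpt c))
    (Φ := fun y : (ℝ × ℝ) × R4 => tb (gin y.1.1 y.1.2) y.2) (Q := fun y => 0 < rd y.2)
    fun z hz => have k := h.r10.trans_le hz.2.2.1
      ⟨ContDiffAt.sum fun i _ => ContDiffAt.sum fun j _ => ((P354YR.s_gin contDiffAt_snd
        (norm_pos_iff.1 k) (by fun_prop) (by fun_prop) _ _).of_le (by simp)).smul contDiffAt_const,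
        (rd_cont.comp continuous_snd).continuousAt.eventually (lt_mem_nhds k)⟩
  refine ⟨min (min ρ 1) (δ / (4 + 4 * L)), by positivity,
    fun p g gt a M' a' W Wt p1 p2 hP hp e1 e2 e3 e4 => ?_⟩
  obtain ⟨ε, hε⟩ : ∃ ε, ε = min (min ρ 1) (δ / (4 + 4 * L)) := ⟨_, rfl⟩
  rw [← hε] at e1 e2 e3 e4
  have e0 : 0 ≤ ε := (norm_nonneg _).trans e2
  obtain ⟨e5, e6⟩ := le_min_iff.1 (hε.le.trans (min_le_left _ _))
  have e7 := (le_div_iff₀ (by positivity)).1 (hε.le.trans (min_le_right _ _))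
  have n1 : ‖(((M', a'), (0, (a p).2)) : (ℝ × ℝ) × R4) - ((c.M, c.a), (0, p.2))‖ ≤ ε :=
    max_le (nrm2 e1) ((nrm p (a p)).trans_le e2)
  obtain ⟨k1, k2, k3⟩ := H ((c.M, c.a), (0, p.2)) ⟨rfl, rfl, p1, p2⟩ _ (n1.trans e5)
  have k4 := (k3 _ (self_le r0)).trans (mul_le_mul_of_nonneg_left n1 (by linarith))
  have ev : ∀ M a (q : R4), 0 < rd q → ∀ v w, gin M a q v w = tb (gin M a) (0, q.2) v w :=
    fun M a q hq => (rp_tb P354YJ.open_rd (P354YJ.gin_met M a)).eq (0, q.2) hq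
  intro k hk v w
  obtain rfl := Nat.le_zero.1 hk
  have b := e4 0 le_rfl (fderiv ℝ a p v) (fderiv ℝ a p w)
  rw [norm_iteratedFDeriv_zero] at b ⊢
  simp only [Pi.sub_apply] at b ⊢
  dsimp only at k2 k4
  rw [ev M' a' (a p) k1] at b
  rw [hP.eq p hp, ev _ _ p (h.r10.trans_le p1)]
  have d : ∀ v, ‖fderiv ℝ a p v - v‖ ≤ ε * ‖v‖ ∧ ‖fderiv ℝ a p v‖ ≤ 2 * ‖v‖ := fun v => by
    have := (fderiv ℝ a p - ContinuousLinearMap.id ℝ R4).le_of_opNorm_le e3 v
    exact ⟨this, by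
      linarith [norm_sub_norm_le (fderiv ℝ a p v) v, show ‖fderiv ℝ a p v - v‖ ≤ _ from this,
        mul_le_mul_of_nonneg_right e6 (norm_nonneg v)]⟩
  obtain ⟨v1, v2⟩ := d v
  obtain ⟨w1, w2⟩ := d w
  generalize fderiv ℝ a p v = v' at *
  generalize fderiv ℝ a p w = w' at *
  generalize tb (gin M' a') (0, (a p).2) = T' at *
  generalize tb (gin c.M c.a) (0, p.2) = T at *
  have c1 := T'.le_of_opNorm₂_le_of_le k2 v1 w2
  have c2 := T'.le_of_opNorm₂_le_of_le k2 (le_refl ‖v‖) w1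
  have c3 := (T' - T).le_of_opNorm₂_le_of_le k4 (le_refl ‖v‖) (le_refl ‖w‖)
  have c4 := mul_le_mul_of_nonneg_left (mul_le_mul v2 w2 (norm_nonneg _) (by positivity)) e0
  simp only [map_sub, _root_.sub_apply, Real.norm_eq_abs, abs_le] at b c1 c2 c3 ⊢
  have c5 := mul_le_mul_of_nonneg_right e7 (mul_nonneg (norm_nonneg v) (norm_nonneg w))
  constructor <;> linarith [b.1, b.2, c1.1, c1.2, c2.1, c2.2, c3.1, c3.2]

end Vale.Agent.P354XY
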