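import Vale.Agent.P354SC.Defs
import Vale.Agent.P354LF.Cur

/-!
The frame in the far chart and the bounds for its products.
-/

set_option linter.all false
set_option maxSynthPendingDepth 3

open scoped ContDiff
open Set Filter Topology

noncomputable section

namespace Vale.Agent.P354XY

open Vale.Agent.P354n (R4)
open Vale.Agent.P354R (Met)
open Vale.Agent.P354XD (tb rp_tb)
open Vale.Agent.P354XE (Tw)
open Vale.Agent.P354SA (e0 e1 ey dv gm)
open Vale.Agent.P354SC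
open Vale.Agent.P354YI (Oj at_comp)
open Vale.Agent.P354LF (Gr)
open VectorField (lieBracket)

/-- The almost null field N + k e1, and the frame; r is the radius of the base point. -/
def kN (g : Tw) (β : Fin 2 → R4 → ℝ) (x : R4) : ℝ :=
  -g x (Nv β x) (Nv β x) / (2 * g x e1 (Nv β x))
def Np (g : Tw) (β : Fin 2 → R4 → ℝ) (x : R4) : R4 := (-1, kN g β x, β 0 x, β 1 x)
def dl : Fin 4 → ℝ := ![0, 1, 0, 0]
def bb : Fin 4 → R4 := ![e1, 0, ey 0, ey 1]
def ca (r : ℝ) : Fin 4 → R4 := ![e1, 0, r⁻¹ • ey 0, r⁻¹ • ey 1]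
def Fo (g : Tw) (β : Fin 2 → R4 → ℝ) (r : ℝ) (a : Fin 4) (x : R4) : R4 := ca r a + dl a • Np g β x
def nu (g : Tw) (β : Fin 2 → R4 → ℝ) (r : ℝ) : Fin 4 → R4 → ℝ :=
  ![fun x => r⁻¹ * kN g β x, fun _ => 0, β 0, β 1]

/-- The products. -/
def g01 (g : Tw) (β : Fin 2 → R4 → ℝ) (x : R4) : ℝ := g x e1 (Nv β x) + kN g β x * g x e1 e1
def g11 (g : Tw) (β : Fin 2 → R4 → ℝ) (x : R4) : ℝ := kN g β x * (kN g β x * g x e1 e1)
def g0a (g : Tw) (r : ℝ) (a : Fin 2) (x : R4) : ℝ := r⁻¹ * g x e1 (ey a)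
def g1a (g : Tw) (β : Fin 2 → R4 → ℝ) (r : ℝ) (a : Fin 2) (x : R4) : ℝ :=
  r⁻¹ * g x (Nv β x) (ey a) + r⁻¹ * kN g β x * g x e1 (ey a)
def gab (g : Tw) (r : ℝ) (a b : Fin 2) (x : R4) : ℝ := r⁻¹ * r⁻¹ * gm g a b x
def Gx (g : Tw) (β : Fin 2 → R4 → ℝ) (r : ℝ) : Fin 4 → Fin 4 → R4 → ℝ :=
  ![![fun x => g x e1 e1, g01 g β, g0a g r 0, g0a g r 1],
    ![g01 g β, g11 g β, g1a g β r 0, g1a g β r 1],
    ![g0a g r 0, g1a g β r 0, gab g r 0 0, gab g r 0 1],
    ![g0a g r 1, g1a g β r 1, gab g r 1 0, gab g r 1 1]]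
def G0 (t : ℝ) : Fin 4 → Fin 4 → ℝ :=
  ![![0, -1, 0, 0], ![-1, 0, 0, 0], ![0, 0, t, 0], ![0, 0, 0, t]]

def Al (l r : ℝ) : R4 →L[ℝ] R4 := (l • ContinuousLinearMap.fst ℝ ℝ _).prod ((r • cR).prod cY)
theorem Al_ap (l r : ℝ) (v : R4) : Al l r v = (l * v.1, r * v.2.1, v.2.2) := rfl

section pt
variable {g : Tw} {D : Set R4} {β : Fin 2 → R4 → ℝ} {x z : R4} {l r : ℝ}

theorem d3_zero (l : ℝ) (z : R4) : d3 l z 0 = z := by simp [d3]
theorem d3_fd (l : ℝ) (z ξ : R4) : HasFDerivAt (d3 l z) (Al l z.2.1) ξ :=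
  (Al _ _).hasFDerivAt.const_add z
theorem d3_cd (l : ℝ) (z : R4) : ContDiff ℝ ∞ (d3 l z) := contDiff_const.add (Al _ _).contDiff

theorem d3_ev {p : R4 → Prop} (h : ∀ᶠ x in 𝓝 z, p x) : ∀ᶠ ξ in 𝓝 0, p (d3 l z ξ) :=
  (d3_cd l z).continuous.continuousAt.eventually (by rw [d3_zero]; exact h)

theorem fd_d3 {f : R4 → ℝ} (hf : ContDiffAt ℝ ∞ f z) : ∀ᶠ ξ in 𝓝 0, ∀ v,
    fderiv ℝ (fun ξ => f (d3 l z ξ)) ξ v = fderiv ℝ f (d3 l z ξ) (Al l z.2.1 v) :=
  (d3_ev (P354YI.ev_dif hf)).mono fun ξ h v =>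
    DFunLike.congr_fun (h.hasFDerivAt.comp ξ (d3_fd l z ξ)).fderiv v

theorem Np_eq : Np g β x = Nv β x + kN g β x • e1 := by simp [Np, Nv, e1]
theorem Fo0 : Fo g β r 0 x = e1 := by simp [Fo, ca, dl]
theorem Fo1 : Fo g β r 1 x = Np g β x := by simp [Fo, ca, dl]
theorem Fo2 : Fo g β r 2 x = r⁻¹ • ey 0 := by simp [Fo, ca, dl]
theorem Fo3 : Fo g β r 3 x = r⁻¹ • ey 1 := by simp [Fo, ca, dl]

theorem gr_eq (o : IsOpen D) (m : Met g D) (hx : x ∈ D) (h : g x e1 (Nv β x) ≠ 0) (a b : Fin 4) :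
    Gr g (Fo g β r) a b x = Gx g β r a b x := by
  have e := (rp_tb o m).eq x hx
  have s := (rp_tb o m).symm x hx
  have k : kN g β x * (2 * g x e1 (Nv β x)) = -g x (Nv β x) (Nv β x) :=
    div_mul_cancel₀ _ (mul_ne_zero two_ne_zero h)
  simp only [e] at k
  fin_cases a <;> fin_cases b <;>
    simp only [Gr, Gx, Fin.zero_eta, Fin.mk_one, Fin.reduceFinMk, Matrix.cons_val, Fo0, Fo1, Fo2,
      Fo3, Np_eq, g01, g11, g0a, g1a, gab, gm, e, map_add, map_smul, add_apply, smul_apply,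
      smul_eq_mul, s (Nv β x) e1, s (ey _) e1, s (ey _) (Nv β x)] <;>
    first | ring1 | linear_combination k

theorem br_eq (hk : DifferentiableAt ℝ (kN g β) x) (hβ : ∀ a, DifferentiableAt ℝ (β a) x)
    (hr : r ≠ 0) (a b : Fin 4) : lieBracket ℝ (Fo g β r a) (Fo g β r b) x =
      ∑ c, (dl b * fderiv ℝ (nu g β r c) x (r • ca r a) -
        dl a * fderiv ℝ (nu g β r c) x (r • ca r b)) • Fo g β r c x := by
  have hN : HasFDerivAt (Np g β) _ x := (hasFDerivAt_const (-1 : ℝ) x).prodMk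
    (hk.hasFDerivAt.prodMk ((hβ 0).hasFDerivAt.prodMk (hβ 1).hasFDerivAt))
  have hF : ∀ a, fderiv ℝ (Fo g β r a) x = _ := fun a =>
    ((hN.const_smul (dl a)).const_add (ca r a)).fderiv
  have h0 : fderiv ℝ (nu g β r 0) x = _ := (hk.hasFDerivAt.const_mul r⁻¹).fderiv
  have h1 : fderiv ℝ (nu g β r 1) x = 0 := (hasFDerivAt_const (0 : ℝ) x).fderiv
  rw [Fin.sum_univ_four, Fo0, Fo1, Fo2, Fo3, h0, h1, VectorField.lieBracket, hF, hF, Fo, Fo]
  simp only [map_add, map_smul]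
  simp [nu, e1, ey]
  refine ⟨?_, ?_, ?_⟩ <;> field_simp <;> ring

theorem G0_det (t : ℝ) : (Matrix.of (G0 t)).det = -t ^ 2 := by
  simp [G0, Matrix.det_succ_row_zero, Fin.sum_univ_succ, Fin.succAbove, Matrix.submatrix]
  ring

theorem det_nb {c : ℝ} (hc : 0 < c) : ∃ η > 0, ∀ t ∈ Icc c 4, ∀ A : Fin 4 → Fin 4 → ℝ,
    (∀ a b, |A a b - G0 t a b| ≤ η) → c ^ 2 / 2 ≤ |(Matrix.of A).det| := by
  have c1 : Continuous G0 := by
    refine continuous_pi fun a => continuous_pi fun b => ?_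
    fin_cases a <;> fin_cases b <;> first | exact continuous_const | exact continuous_id
  have c2 : Continuous fun A : Fin 4 → Fin 4 → ℝ => |(Matrix.of A).det| :=
    (Continuous.matrix_det (A := fun A : Fin 4 → Fin 4 → ℝ => Matrix.of A) continuous_id).abs
  obtain ⟨η, η0, h⟩ := ((isCompact_Icc (a := c) (b := 4)).image c1).exists_cthickening_subset_open
    (isOpen_lt (continuous_const (y := c ^ 2 / 2)) c2) (by
      rintro _ ⟨t, ht, rfl⟩
      rw [mem_setOf_eq, G0_det, abs_neg, abs_of_nonneg (sq_nonneg t)]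
      nlinarith [ht.1])
  exact ⟨η, η0, fun t ht A hA => (h (Metric.mem_cthickening_of_dist_le A (G0 t) η _ ⟨t, ht, rfl⟩
    ((dist_pi_le_iff η0.le).2 fun a => (dist_pi_le_iff η0.le).2 fun b => hA a b))).le⟩

end pt

section fam
variable {J : Type} {n : ℕ} {K : ℝ} {g : J → Tw} {D : J → Set R4} {β : J → Fin 2 → R4 → ℝ}
  {z : J → R4} {l e w d c : J → ℝ} {f f' : J → R4 → ℝ}

/-- Jets in the dilated chart. -/
abbrev O3 (n : ℕ) (l : J → ℝ) (z : J → R4) (f : J → R4 → ℝ) (c : J → ℝ) : Prop :=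
  Oj n (0 : J → R4) (fun j ξ => f j (d3 (l j) (z j) ξ)) c

theorem o_c3 (h : ∀ j, C3 n (l j) (f j) (z j) (K * c j)) (c0 : ∀ j, 0 ≤ c j) : O3 n l z f c :=
  ⟨fun j => at_comp (by rw [Pi.zero_apply, d3_zero]; exact (h j).1) (d3_cd _ _).contDiffAt, c0,
    |K|, abs_nonneg _, fun j => (h j).2.mono le_rfl
      (mul_le_mul_of_nonneg_right (le_abs_self _) (c0 j))⟩

/-- A family of points with the bounds. -/
structure Fq4 (n : ℕ) (K : ℝ) (g : J → Tw) (D : J → Set R4) (β : J → Fin 2 → R4 → ℝ) (z : J → R4)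
    (l e w d : J → ℝ) : Prop where
  op : ∀ j, IsOpen (D j)
  met : ∀ j, Met (g j) (D j)
  mem : ∀ j, z j ∈ D j
  r1 : ∀ j, 1 ≤ (z j).2.1
  l1 : ∀ j, 1 ≤ l j
  he : ∀ j, e j ∈ Icc (0 : ℝ) 1
  hw : ∀ j, w j ∈ Icc (0 : ℝ) 1
  hd : ∀ j, d j ∈ Icc (0 : ℝ) 3
  hy : ∀ j, Hy n K (e j) (w j) (d j) (l j) (g j) (β j) (z j)
  x0 : ∀ j, g j (z j) e1 (Nv (β j) (z j)) ≤ -(1 / 2)

/-- The weights. -/
def ri (z : J → R4) (j : J) : ℝ := (z j).2.1⁻¹
def mu (z : J → R4) (e w : J → ℝ) (j : J) : ℝ := (z j).2.1⁻¹ + e j * w j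
def mw (z : J → R4) (w : J → ℝ) (j : J) : ℝ := (z j).2.1⁻¹ + w j

namespace Fq4
variable (h : Fq4 n K g D β z l e w d)
include h

theorem r0 (j : J) : 0 < (z j).2.1 := one_pos.trans_le (h.r1 j)
theorem i0 (j : J) : 0 ≤ ri z j := inv_nonneg.2 (h.r0 j).le
theorem i1 (j : J) : (z j).2.1⁻¹ ≤ 1 := inv_le_one_of_one_le₀ (h.r1 j)
theorem ew (j : J) : 0 ≤ e j * w j := mul_nonneg (h.he j).1 (h.hw j).1
theorem m0 (j : J) : 0 ≤ mu z e w j := add_nonneg (h.i0 j) (h.ew j)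
theorem im (j : J) : ri z j ≤ mu z e w j := le_add_of_nonneg_right (h.ew j)
theorem mm (j : J) : mu z e w j ≤ mw z w j :=
  add_le_add le_rfl (mul_le_of_le_one_left (h.hw j).1 (h.he j).2)
theorem m2 (j : J) : mw z w j ≤ 2 := by unfold mw; linarith [h.i1 j, (h.hw j).2]
theorem ms (j : J) : mu z e w j ≤ mw z e j :=
  add_le_add le_rfl (mul_le_of_le_one_right (h.he j).1 (h.hw j).2)

theorem one {E V : Type} [NormedAddCommGroup E] [NormedSpace ℝ E] [NormedAddCommGroup V]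
    [NormedSpace ℝ V] {k : ℕ} {x : J → E} {F : J → E → V} (o : Oj k x F (mu z e w)) : Oj k x F 1 :=
  o.wt (c := 2) (fun _ => zero_le_one) fun j => by simpa using (h.mm j).trans (h.m2 j)

theorem o_i {k : ℕ} : Oj k (0 : J → R4) (fun j _ => (z j).2.1⁻¹) (ri z) := o_par h.i0

theorem o_A2 : O3 n l z (fun j x => (z j).2.1 * ((z j).2.1 * g j x e1 e1)) (mu z e w) :=
  (o_mul (o_par fun j => (h.r0 j).le) (o_mul (o_par fun j => (h.r0 j).le)
    (o_c3 (fun j => (h.hy j).A) fun j => pow_nonneg (h.i0 j) 3))).mono le_rfl fun j =>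
      le_trans (le_of_eq (by have := (h.r0 j).ne'; simp only [Pi.mul_apply, ri]; field_simp))
        (h.im j)

theorem o_A1 : O3 n l z (fun j x => (z j).2.1 * g j x e1 e1) (mu z e w) :=
  (o_mulr (h.one (h.o_i.mono le_rfl h.im)) h.o_A2).congr' fun j _ =>
    (inv_mul_cancel_left₀ (h.r0 j).ne' _).symm

theorem o_A : O3 n l z (fun j x => g j x e1 e1) (mu z e w) :=
  (o_mulr (h.one (h.o_i.mono le_rfl h.im)) h.o_A1).congr' fun j _ =>
    (inv_mul_cancel_left₀ (h.r0 j).ne' _).symm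

theorem o_x : O3 n l z (fun j x => g j x e1 (Nv (β j) x) + 1) (mu z e w) :=
  o_c3 (fun j => (h.hy j).x) h.m0

theorem o_Xi : O3 n l z (fun j x => (-g j x e1 (Nv (β j) x))⁻¹) 1 :=
  o_inv (((Oj.cst 1).sub (h.one h.o_x)).congr' fun _ _ => by ring) one_half_pos fun j => by
    rw [Pi.zero_apply, d3_zero]
    linarith [h.x0 j]

theorem o_P : O3 n l z (fun j x => (z j).2.1⁻¹ * g j x (Nv (β j) x) (Nv (β j) x)) (mu z e w) :=
  (((o_mul h.o_i (o_c3 (fun j => (h.hy j).ph) fun j => add_nonneg (h.i0 j) (mul_nonneg (h.he j).1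
    (add_nonneg zero_le_one (mul_nonneg (h.r0 j).le (h.hw j).1))))).wt (c := 2) h.m0 fun j => by
      have := mul_inv_cancel₀ (h.r0 j).ne'
      have a := mul_le_of_le_one_left (h.i0 j) (h.i1 j)
      have b := mul_le_of_le_one_left (h.i0 j) (h.he j).2
      have := h.ew j
      simp only [Pi.mul_apply, ri, mu] at *
      nlinarith).sub (h.o_i.mono le_rfl h.im)).congr' fun _ _ => by simp only [φN]; ring

theorem o_k : O3 n l z (fun j x => (z j).2.1⁻¹ * kN (g j) (β j) x) (mu z e w) :=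
  (o_sm 2⁻¹ (o_mull h.o_P h.o_Xi)).congr' fun _ _ => by
    simp only [kN, div_eq_mul_inv, mul_inv, inv_neg]
    ring

theorem o_β (a : Fin 2) : O3 n l z (fun j => β j a) (mu z e w) :=
  (o_c3 (fun j => (h.hy j).be a) h.ew).mono le_rfl fun j => le_add_of_nonneg_left (h.i0 j)

theorem o_nu (c : Fin 4) : O3 n l z (fun j => nu (g j) (β j) (z j).2.1 c) (mu z e w) := by
  fin_cases c
  exacts [h.o_k, Oj.const (v := fun _ => (0 : ℝ)) h.m0 ⟨0, by simp⟩, h.o_β 0, h.o_β 1]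

theorem o_Z (a : Fin 2) : O3 n l z (fun j x => g j x e1 (ey a)) 1 :=
  o_c3 (fun j => by simpa using (h.hy j).ze a) fun _ => zero_le_one

theorem o_01 : O3 n l z (fun j x => g01 (g j) (β j) x + 1) (mu z e w) :=
  (h.o_x.add (o_mull h.o_k (h.one h.o_A1))).congr' fun j _ => by
    have := (h.r0 j).ne'
    simp only [g01]
    field_simp
    ring

theorem o_11 : O3 n l z (fun j => g11 (g j) (β j)) (mu z e w) :=
  (o_mull h.o_k (o_mull (h.one h.o_k) (h.one h.o_A2))).congr' fun j _ => by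
    have := (h.r0 j).ne'
    simp only [g11]
    field_simp

theorem o_0a (a : Fin 2) : O3 n l z (fun j => g0a (g j) (z j).2.1 a) (mu z e w) :=
  (o_mull h.o_i (h.o_Z a)).mono le_rfl h.im

theorem o_1a (a : Fin 2) : O3 n l z (fun j => g1a (g j) (β j) (z j).2.1 a) (mw z e) :=
  ((o_mul h.o_i (o_c3 (fun j => (h.hy j).ta a) fun j => add_nonneg zero_le_one
    (mul_nonneg (mul_nonneg (h.he j).1 (h.hd j).1) (h.r0 j).le))).wt (c := 3)
      (fun j => (h.m0 j).trans (h.ms j)) fun j => by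
      have a := mul_le_mul_of_nonneg_left (h.hd j).2 (h.he j).1
      have := h.i0 j
      simp only [Pi.mul_apply, ri, mw] at *
      rw [mul_add, mul_comm _ (_ * (z j).2.1), mul_inv_cancel_right₀ (h.r0 j).ne']
      linarith).add ((o_mull h.o_k (h.o_Z a)).mono le_rfl h.ms)

theorem o_ab (a b : Fin 2) : O3 n l z (fun j => gab (g j) (z j).2.1 a b) 1 :=
  (o_mul (o_mul h.o_i h.o_i) (o_c3 (fun j => (h.hy j).ga a b) fun _ => sq_nonneg _)).mono le_rfl
    fun j => le_of_eq (by have := (h.r0 j).ne'; simp only [Pi.mul_apply, ri, Pi.one_apply]; field_simp)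

theorem k_cd (j : J) : ContDiffAt ℝ ∞ (kN (g j) (β j)) (z j) := by
  have a : ContDiffAt ℝ ∞ (fun x => g j x (Nv (β j) x) (Nv (β j) x)) (z j) := by
    simpa [φN] using (h.hy j).ph.1.sub (contDiffAt_const (c := 1))
  have b : ContDiffAt ℝ ∞ (fun x => g j x e1 (Nv (β j) x)) (z j) := by
    simpa using (h.hy j).x.1.sub (contDiffAt_const (c := 1))
  exact a.neg.div (contDiffAt_const.mul b) (by linarith [h.x0 j])

theorem F_cd (j : J) (a : Fin 4) : ContDiffAt ℝ ∞ (Fo (g j) (β j) (z j).2.1 a) (z j) :=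
  contDiffAt_const.add ((contDiffAt_const.prodMk ((h.k_cd j).prodMk
    (((h.hy j).be 0).1.prodMk ((h.hy j).be 1).1))).const_smul _)

theorem gr_ev (j : J) : ∀ᶠ x in 𝓝 (z j), ∀ a b,
    Gr (g j) (Fo (g j) (β j) (z j).2.1) a b x = Gx (g j) (β j) (z j).2.1 a b x := by
  filter_upwards [(h.op j).mem_nhds (h.mem j), (h.hy j).x.1.continuousAt.eventually_lt_const
    (u := 1) (by linarith [h.x0 j])] with x h1 h2
  exact gr_eq (h.op j) (h.met j) h1 (by linarith)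

/-- At the base point the products are close to the flat ones. -/
theorem near : ∃ C, ∀ j a b, |Gr (g j) (Fo (g j) (β j) (z j).2.1) a b (z j) -
    G0 (4 / qq (z j).2.2 ^ 2) a b| ≤ C * ((z j).2.1⁻¹ + e j) := by
  have s0 := fun j => (h.m0 j).trans (h.ms j)
  have v : ∀ {f : J → R4 → ℝ} {t : ℝ}, O3 n l z (fun j x => f j x + t) (mw z e) →
      ∃ C, ∀ j, |f j (z j) - -t| ≤ C * mw z e j := fun o =>
    o.val.imp fun _ k j => by simpa [d3_zero] using k.2 j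
  have v0 : ∀ {f : J → R4 → ℝ}, O3 n l z f (mw z e) → ∃ C, ∀ j, |f j (z j) - 0| ≤ C * mw z e j :=
    fun o => o.val.imp fun _ k j => by simpa [d3_zero] using k.2 j
  have v1 : ∀ a b, ∃ C, ∀ j, |gab (g j) (z j).2.1 a b (z j) - g0 a b (z j).2.2| ≤ C * mw z e j :=
    fun a b => ⟨K, fun j => by
      have := (h.r0 j).ne'
      have k := mul_le_mul_of_nonneg_left ((h.hy j).ga1 a b) (mul_self_nonneg (z j).2.1⁻¹)
      rw [← abs_of_nonneg (mul_self_nonneg (z j).2.1⁻¹), ← abs_mul,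
        abs_of_nonneg (mul_self_nonneg (z j).2.1⁻¹)] at k
      refine (le_of_eq (congrArg _ ?_)).trans (k.trans_eq ?_) <;> simp only [gab, mw] <;>
        field_simp⟩
  have t : ∀ a b, ∃ C, ∀ j, |Gx (g j) (β j) (z j).2.1 a b (z j) - G0 (4 / qq (z j).2.2 ^ 2) a b| ≤
      C * mw z e j := fun a b => by
    have a0 := fun a => v0 ((h.o_0a a).mono le_rfl h.ms)
    have a1 := fun a => v0 (h.o_1a a)
    have a2 := v (h.o_01.mono le_rfl h.ms)
    fin_cases a <;> fin_cases b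
    exacts [v0 (h.o_A.mono le_rfl h.ms), a2, a0 0, a0 1, a2, v0 (h.o_11.mono le_rfl h.ms), a1 0,
      a1 1, a0 0, a1 0, v1 0 0, v1 0 1, a0 1, a1 1, v1 1 0, v1 1 1]
  choose C hC using t
  refine ⟨∑ a, ∑ b, |C a b|, fun j a b => ?_⟩
  rw [(h.gr_ev j).self_of_nhds]
  refine (hC a b j).trans (mul_le_mul_of_nonneg_right ((le_abs_self _).trans ?_) (s0 j))
  exact (Finset.single_le_sum (f := fun b => |C a b|) (fun _ _ => abs_nonneg _)
    (Finset.mem_univ b)).trans (Finset.single_le_sum (f := fun a => ∑ b, |C a b|)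
      (fun _ _ => Finset.sum_nonneg fun _ _ => abs_nonneg _) (Finset.mem_univ a))

end Fq4

end fam

end Vale.Agent.P354XY
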