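import Vale.Agent.P354XA.Lid
import Vale.Agent.P354XA.Pac

/-!
The field lya of EndOK: exact statements of the pointwise pieces.
-/

open scoped ContDiff
open Set Filter Topology

noncomputable section

namespace Vale.Agent.P354XY

open Vale.Agent.P354n (R4)
open Vale.Agent.P354I (rm rp)
open Vale.Agent.P354XE
open Vale.Agent.P354XA (low ip lo1)

/-- Near p, g is a family of symmetric bilinear forms which is differentiable at p. -/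
def Gd (g : Tw) (p : R4) : Prop :=
  ∃ G : R4 → R4 →L[ℝ] R4 →L[ℝ] ℝ, DifferentiableAt ℝ G p ∧
    (∀ᶠ x in 𝓝 p, ∀ a b, g x a b = G x a b) ∧ ∀ᶠ x in 𝓝 p, ∀ a b, g x a b = g x b a

/-- NK: the part r0 ≤ r ≤ R, near Kerr. U is the rotation field, cut off in 3 M < r < 4 M, and V is
a multiple of the ingoing null field (red shift), cut off near the outer horizon. -/
def NK : Prop :=
  ∀ M a r0 R : ℝ, |a| < M → rm M a < r0 → ∃ (U V : R4 → R4) (K C η0 : ℝ), 0 < K ∧ 0 < C ∧ 0 < η0 ∧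
    (∀ p, rd p ≠ 0 → DifferentiableAt ℝ U p ∧ DifferentiableAt ℝ V p) ∧
    (∀ p, 5 * M ≤ rd p → U p = 0 ∧ V p = 0) ∧
    ∀ (g : Tw) (p w : R4) (η : ℝ), r0 ≤ rd p → rd p ≤ R → Gd g p → 0 ≤ η → η ≤ η0 →
      Bd 1 (g - gin M a) p η → -2 ≤ g p w w → g p w w ≤ 0 → 0 ≤ w.1 →
      ‖w‖ ≤ C * w.1 ∧ ‖w‖ ≤ C * (1 + |g p eT w| + |g p (U p) w| + max 0 (-g p (V p) w)) ∧
      g p eT eT ≤ C ∧ g p (U p) (U p) ≤ C ∧ g p (V p) (V p) ≤ C ∧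
      (K * (1 + |g p eT w|) ≤ |g p (U p) w| → |pi g U p w| ≤ C * η * ‖w‖ ^ 2) ∧
      (K * (1 + |g p eT w| + |g p (U p) w|) ≤ -g p (V p) w → 0 ≤ pi g V p w)

/-- MID: the second derivative of r along a curve, and metrics near Kerr for large r. -/
def MID : Prop :=
  (∀ (z : ℝ → R4) (s : ℝ), ContDiffAt ℝ 2 z s → rd (z s) ≠ 0 →
    HasDerivAt (fun t => dr (z t) (deriv z t))
      ((ip (deriv z s) (deriv z s) - dr (z s) (deriv z s) ^ 2) / rd (z s) +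
        dr (z s) (deriv (deriv z) s)) s) ∧
  ∀ M a η : ℝ, 0 < η → ∃ R0 c : ℝ, 0 < c ∧ ∀ (g : Tw) (p : R4) (ε : ℝ), R0 ≤ rd p → Gd g p →
    ε * rd p ≤ c → Bd 1 (g - gin M a) p ε →
    (∀ v w : R4, |g p v w + v.1 * w.1 - ip v w| ≤ η * (‖v‖ * ‖w‖)) ∧
    ∀ (w u : R4) (A : ℝ), 0 ≤ A → (∀ v, |low g p w u v| ≤ A * √(g p v v + 2 * g p v w ^ 2)) →
      |dr p u| ≤ η / rd p * ‖w‖ ^ 2 + 100 * A * (1 + ‖w‖)

/-- The numbers at a point far out, for w = B L + A N + W, where W is tangent to the sphere with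
length ξ; F = -g(N,N), b = -g(L,N), la = g(L,W), mu = g(N,W), ga = g(W,W), and pL, pN are half the
Lie derivatives of g along L and N on (w,w). -/
structure Fa (C ε r S Wt A B ξ F b la mu ga pL pN : ℝ) : Prop where
  hF : |F - 1| ≤ C * (1 / r + ε + ε * r * S)
  hb : |b - 1| ≤ C * ε
  hl : |la| ≤ C * ξ / r
  hm : |mu| ≤ C * ξ * (ε + 1 / r)
  hg : |ga - ξ ^ 2| ≤ C * ξ ^ 2 * (ε + 1 / r)
  hL : ξ ^ 2 / r - C * ((ε + 1 / r) * ξ ^ 2 / r + (1 / r ^ 2 + ε * Wt / r + ε * S) * A ^ 2 +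
    ε * S * |A| * |B| / r + |B| * ξ / r ^ 2 + (ε * Wt + ε * S + 1 / r) * |A| * ξ / r) ≤ pL
  hN : -(C * ε * (r * S * A ^ 2 + (S + 1 / r) * |A| * |B| + B ^ 2 / r ^ 2 + S * |A| * ξ +
    |B| * ξ / r + S * ξ ^ 2)) ≤ pN

/-- FA: the estimates Far give these numbers. -/
def FA : Prop :=
  ∀ m : ℝ, ∃ C ≥ 1, ∀ (M a s δ ε : ℝ) (g : Tw) (β : Fin 3 → R4 → ℝ) (p w : R4) (A B : ℝ),
    |a| < M → M ≤ m → 0 ≤ s → 0 ≤ δ → 0 ≤ ε → ε ≤ 1 → C ≤ rd p → Gd g p →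
    Far M a s δ ε 2 g β p → B = dr p w → A = w.1 - lo1 M a (rd p) * B →
    DifferentiableAt ℝ (Lo M a) p ∧ DifferentiableAt ℝ (Nf β) p ∧ ∃ (W : R4) (ξ : ℝ), 0 ≤ ξ ∧
      w = B • Lo M a p + A • Nf β p + W ∧
      Fa C ε (rd p) (uw M a p ^ (-s)) (wt M a δ p) A B ξ (-g p (Nf β p) (Nf β p))
        (-g p (Lo M a p) (Nf β p)) (g p (Lo M a p) W) (g p (Nf β p) W) (g p W W)
        (pi g (Lo M a) p w) (pi g (Nf β) p w) ∧
      |g p eT w - g p (Nf β p) w| ≤ C * ε * rd p * (|A| + |B| + ξ) ∧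
      ‖w‖ ≤ C * (1 + ε * rd p) * (|A| + |B| + ξ) ∧ |A| + |B| + ξ ≤ C * (1 + ε * rd p) * ‖w‖

end Vale.Agent.P354XY
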