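import Vale.Agent.P354XY.Bar

/-!
Curves with bounded acceleration: derivatives of energies, linear changes of the chart.
-/

set_option maxSynthPendingDepth 3

open scoped ContDiff
open Set Filter Topology Matrix

noncomputable section

namespace Vale.Agent.P354XY

open Vale.Agent.P354n (R4 mink)
open Vale.Agent.P354 (Bilin)
open Vale.Agent.P354R (Met)
open Vale.Agent.P354XE
open Vale.Agent.P354XA

variable {g : Tw} {p v w : R4} {z : ℝ → R4} {A s : ℝ} {q : Par}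

theorem Gd.bil (h : Gd g p) : Bilin (g p) := by
  obtain ⟨G, -, h2, -⟩ := h
  constructor <;> intros <;> simp [h2.self_of_nhds]

theorem Gd.symm (h : Gd g p) (a b : R4) : g p a b = g p b a := h.choose_spec.2.2.self_of_nhds a b

theorem gd_of_met {D : Set R4} (hD : IsOpen D) (h : Met g D) (hp : p ∈ D) : Gd g p := by
  obtain ⟨G, h1, h2⟩ := met_G h
  exact ⟨G, (h1.contDiffAt (hD.mem_nhds hp)).differentiableAt (by simp),
    eventually_of_mem (hD.mem_nhds hp) h2, eventually_of_mem (hD.mem_nhds hp) h.symm⟩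

/-- The curve z at the parameter s, with acceleration of size at most A. -/
structure Cv (g : Tw) (z : ℝ → R4) (A s : ℝ) : Prop where
  cd : ContDiffAt ℝ 2 z s
  gd : Gd g (z s)
  A0 : 0 ≤ A
  acc : ∀ v, |low g (z s) (deriv z s) (deriv (deriv z) s) v| ≤
    A * √(g (z s) v v + 2 * g (z s) v (deriv z s) ^ 2)

theorem sq_bd {x y c d : ℝ} (c0 : 0 ≤ c) (hx : x ≤ c ^ 2) (hy : |y| ≤ d) :
    √(x + 2 * y ^ 2) ≤ c + 2 * d := by
  have d0 := (abs_nonneg y).trans hy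
  have := sq_le_sq' (abs_le.1 hy).1 (abs_le.1 hy).2
  exact Real.sqrt_le_iff.2 ⟨by positivity, by nlinarith [mul_nonneg c0 d0]⟩

/-- The derivative of an energy. -/
theorem Cv.field (h : Cv g z A s) {V : R4 → R4} (hV : DifferentiableAt ℝ V (z s)) :
    ∃ E, HasDerivAt (fun t => g (z t) (V (z t)) (deriv z t)) (P354XE.pi g V (z s) (deriv z s) + E) s ∧
      ∀ k c d, 0 ≤ k → 0 ≤ c → k ^ 2 * g (z s) (V (z s)) (V (z s)) ≤ c ^ 2 →
        |k * g (z s) (V (z s)) (deriv z s)| ≤ d → |k * E| ≤ A * (c + 2 * d) := by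
  obtain ⟨G, h1, h2, -⟩ := h.gd
  refine ⟨low g (z s) (deriv z s) (deriv (deriv z) s) (V (z s)),
    (field_deriv h1 h2 h.cd hV).congr_deriv ?_, fun k c d k0 c0 hc hd => ?_⟩
  · rw [P354XE.pi, DifferentiableAt.lineDeriv_eq_fderiv]
    exact (((h1.clm_apply (differentiableAt_const _)).clm_apply
      (differentiableAt_const _))).congr_of_eventuallyEq (h2.mono fun x hx => hx _ _)
  · have := sq_bd c0 hc hd
    rw [mul_pow, show ∀ x y : ℝ, k ^ 2 * x + 2 * (k ^ 2 * y) = k ^ 2 * (x + 2 * y) from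
      fun _ _ => by ring, Real.sqrt_mul (sq_nonneg k), Real.sqrt_sq k0] at this
    rw [abs_mul, abs_of_nonneg k0]
    nlinarith [mul_le_mul_of_nonneg_left (h.acc (V (z s))) k0,
      mul_le_mul_of_nonneg_left this h.A0]

/-- The inverse of the linear map. -/
def iv (q : Par) : Par := ⟨0, 0, q.l⁻¹, q.Rᵀ⟩

theorem lin_iv (h : q.Rᵀ * q.R = 1) (hl : q.l ≠ 0) (p : R4) : q.lin ((iv q).lin p) = p := by
  rw [Par.lin, lin_fst, Par.lin, xs_pt]
  simp only [iv, mulVec_mulVec, mul_eq_one_comm.1 h, one_mulVec, mul_inv_cancel_left₀ hl]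
  rfl

theorem lin_T (q : Par) : q.lin eT = q.l • eT := by simp [lin_eq, eT]

theorem Gd.lin (h : Gd g (q.lin p)) : Gd (pb q.lin g) p := by
  obtain ⟨G, h1, h2, h3⟩ := h
  have c : ContinuousAt q.lin p := (linL q).continuous.continuousAt
  refine ⟨fun x => (G (q.lin x)).bilinearComp (linL q) (linL q), ?_,
    (c.eventually h2).mono fun x hx a b => by rw [pb_lin, hx]; rfl,
    (c.eventually h3).mono fun x hx a b => by rw [pb_lin, pb_lin, hx]⟩
  have d : DifferentiableAt ℝ (fun x => G (q.lin x)) p := h1.comp p (linL q).differentiableAt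
  exact ((ContinuousLinearMap.compL ℝ R4 (R4 →L[ℝ] ℝ) (R4 →L[ℝ] ℝ)
    ((ContinuousLinearMap.compL ℝ R4 R4 ℝ).flip (linL q))).differentiableAt.comp p
      (d.clm_comp (differentiableAt_const (linL q)))).congr_of_eventuallyEq
    (Eventually.of_forall fun x => by ext <;> rfl)

/-- The curve in the chart q. -/
theorem Cv.lin (h : Cv g z A s) (hq : q.Rᵀ * q.R = 1) (hl : q.l ≠ 0) {y : ℝ → R4}
    (hy : y = fun t => (iv q).lin (z t)) :
    Cv (pb q.lin g) y A s ∧ q.lin (deriv y s) = deriv z s := by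
  have e : q.lin ∘ y = z := funext fun t => by rw [hy]; exact lin_iv hq hl _
  have c : ContDiffAt ℝ 2 y s := hy ▸ (linL (iv q)).contDiff.contDiffAt.comp s h.cd
  have e' : q.lin (y s) = z s := congrFun e s
  obtain ⟨G, h1, h2, h3⟩ := h.gd
  obtain ⟨e1, e2⟩ := low_comp (g := g) (g' := pb q.lin g) (G := G) (f := q.lin) (z := y) (s := s)
    (linL q).contDiff.contDiffAt (e' ▸ h1)
    (fun a b => by rw [e', ← h2.self_of_nhds, ← h2.self_of_nhds, h3.self_of_nhds]) (e' ▸ h2)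
    (((linL q).continuous.continuousAt.eventually (e' ▸ h2)).mono fun x hx a b => hx _ _) c
  rw [e, lin_fd] at e1
  refine ⟨⟨c, Gd.lin (e' ▸ h.gd), h.A0, fun v => ?_⟩, e1.symm⟩
  rw [e2, e, pb_lin, pb_lin, e', ← e1, lin_fd]
  exact h.acc _

theorem ip_le (v : R4) : v.1 ^ 2 ≤ ‖v‖ ^ 2 ∧ ip v v ≤ 3 * ‖v‖ ^ 2 := by
  have k : ∀ x : ℝ, ‖x‖ ≤ ‖v‖ → x ^ 2 ≤ ‖v‖ ^ 2 := fun x hx => by
    rw [← sq_abs]; exact pow_le_pow_left₀ (abs_nonneg x) hx 2
  have k1 := k _ ((norm_fst_le v.2).trans (norm_snd_le v))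
  have k2 := k _ (((norm_fst_le v.2.2).trans (norm_snd_le v.2)).trans (norm_snd_le v))
  have k3 := k _ (((norm_snd_le v.2.2).trans (norm_snd_le v.2)).trans (norm_snd_le v))
  exact ⟨k _ (norm_fst_le v), by unfold ip; linarith⟩

theorem norm_lin (hq : q.Rᵀ * q.R = 1) (l1 : 1 / 2 ≤ q.l) (l2 : q.l ≤ 2) (v : R4) :
    ‖q.lin v‖ ≤ 3 * ‖v‖ ∧ ‖v‖ ≤ 3 * ‖q.lin v‖ := by
  have a1 := norm_sq_le v
  have a2 := norm_sq_le (q.lin v)
  obtain ⟨b1, b2⟩ := ip_le v
  obtain ⟨b3, b4⟩ := ip_le (q.lin v)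
  rw [ip_lin hq, lin_fst, mul_pow] at *
  have l3 : q.l ^ 2 ≤ 4 := by nlinarith
  have l4 : 1 / 4 ≤ q.l ^ 2 := by nlinarith
  constructor <;> refine le_of_sq_le_sq ?_ (by positivity)
  · nlinarith [mul_le_mul_of_nonneg_right l3 (sq_nonneg v.1)]
  · nlinarith [mul_le_mul_of_nonneg_right l4 (sq_nonneg v.1)]

theorem dr_le (h : rd p ≠ 0) (v : R4) : dr p v ^ 2 ≤ ip v v ∧ |dr p v| ≤ 2 * ‖v‖ := by
  have k : dr p v ^ 2 ≤ ip v v := by
    rw [ip_split h]; exact le_add_of_nonneg_right (mul_nonneg (sq_nonneg _) (rnd_nonneg h v).1)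
  exact ⟨k, abs_le_of_sq_le_sq' (by nlinarith [(ip_le v).2]) (by positivity) |> abs_le.2⟩

theorem mink_pos {y w : R4} (h1 : mink y y ≤ 0) (h2 : mink w w ≤ 0) :
    |ip y w| ≤ |y.1 * w.1| ∧ mink y w = ip y w - y.1 * w.1 := by
  have e : ∀ a b : R4, mink a b = ip a b - a.1 * b.1 := fun a b => by
    simp only [mink, ip, P354n.cu, P354n.cv, P354n.c1, P354n.c2]; ring
  refine ⟨sq_le_sq.1 ?_, e _ _⟩
  rw [e] at h1 h2
  have c : ip y w ^ 2 ≤ ip y y * ip w w := by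
    rw [← inn, ← inn, ← inn, sq]
    exact real_inner_mul_inner_self_le _ _
  have y0 : 0 ≤ ip y y := rd_sq y ▸ sq_nonneg _
  have w0 : 0 ≤ ip w w := rd_sq w ▸ sq_nonneg _
  nlinarith [mul_le_mul (sub_nonpos.1 h1) (sub_nonpos.1 h2) w0 (mul_self_nonneg _)]

/-- Two causal vectors in the same cone. -/
theorem ori {B : R4 → R4 → ℝ} {L : R4 → R4} (h : ∀ v w, B v w = mink (L v) (L w)) {y w n : R4}
    (hy : B y y ≤ 0) (hw : B w w ≤ 0) (hn : B n n ≤ 0) (h1 : B w y < 0) (h2 : B y n < 0) :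
    B n w ≤ 0 := by
  simp only [h] at *
  obtain ⟨a1, a2⟩ := mink_pos hw hy
  obtain ⟨b1, b2⟩ := mink_pos hy hn
  obtain ⟨c1, c2⟩ := mink_pos hn hw
  have k : ∀ x y : ℝ, |x| ≤ |y| → x - y < 0 → 0 < y := fun x y k1 k2 => by
    by_contra! k3
    rw [abs_of_nonpos k3] at k1
    linarith [neg_abs_le x]
  have a3 := k _ _ a1 (a2 ▸ h1)
  have b3 := k _ _ b1 (b2 ▸ h2)
  have c3 : 0 ≤ (L n).1 * (L w).1 := by
    by_contra! k3
    nlinarith [mul_pos a3 b3, sq_nonneg (L y).1]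
  rw [abs_of_nonneg c3] at c1
  linarith [le_abs_self (ip (L n) (L w))]

end Vale.Agent.P354XY
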