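import Vale.Agent.P354XY.Sh

/-!
The barrier inequality in the part r ≥ R.
-/

open scoped ContDiff
open Set Filter Topology Matrix

noncomputable section

namespace Vale.Agent.P354XY

open Vale.Agent.P354n (R4)
open Vale.Agent.P354I (rm rp)
open Vale.Agent.P354XE
open Vale.Agent.P354XA

theorem par_near {M a r0 : ℝ} (h : |a| < M) (h1 : rm M a < r0) : ∀ᶠ ε in 𝓝[>] (0 : ℝ), ∀ q : Par,
    q.Near M a ε → |q.a| < q.M ∧ q.M ≤ M + 1 ∧ 9 / 10 ≤ q.l ∧ q.l ≤ 11 / 10 ∧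
      (ka q.M q.a)⁻¹ ≤ (ka M a)⁻¹ + 1 ∧ rm q.M q.a < r0 := by
  obtain ⟨h0, k1, k2, -, k4, -⟩ := hor h
  have c1 : ContinuousAt (fun x : ℝ × ℝ => (ka x.1 x.2)⁻¹) (M, a) := by
    refine ContinuousAt.inv₀ ?_ k4.ne'
    unfold ka rp
    exact ContinuousAt.div (by fun_prop) (by fun_prop) (mul_pos (by positivity) (k1.trans_lt k2)).ne'
  have c2 : ContinuousAt (fun x : ℝ × ℝ => rm x.1 x.2) (M, a) := by unfold rm; fun_prop
  have c3 : ContinuousAt (fun x : ℝ × ℝ => |x.2| - x.1) (M, a) := by fun_prop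
  obtain ⟨d, d0, hd⟩ := Metric.eventually_nhds_iff.1 ((c1.eventually (ge_mem_nhds (lt_add_one _))).and
    ((c2.eventually (gt_mem_nhds h1)).and (c3.eventually (gt_mem_nhds (sub_neg.2 h)))))
  filter_upwards [small 1 d0, small 10 one_pos] with ε e1 e2 q hq
  obtain ⟨q1, q2, q3, -⟩ := hq
  obtain ⟨a1, a2, a3⟩ := @hd (q.M, q.a) (max_lt (q1.trans (by linarith)) (q2.trans (by linarith)))
  rw [abs_lt] at q1 q3
  exact ⟨sub_neg.1 a3, by linarith [q1.2, q3.1, q3.2], by linarith [q3.1], by linarith [q3.2], a1, a2⟩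

/-- The conclusion at the parameter s. -/
def Ok (E u γ : ℝ → ℝ) (z : ℝ → R4) (A s C : ℝ) : Prop :=
  DifferentiableAt ℝ E s ∧ DifferentiableAt ℝ u s ∧ 0 ≤ E s ∧ ∀ B ≥ 1, E s ≤ B →
    dr (z s) (deriv z s) ≤ C * B * rd (z s) ∧ (deriv z s).1 ≤ C * B * rd (z s) ∧
      (E s = B → deriv E s ≤ B * (γ (u s) * deriv u s + C * A + C))

variable {g : Tw} {z : ℝ → R4} {A s R k : ℝ} {q : Par} {χ χ' : ℝ → ℝ} {β : Fin 3 → R4 → ℝ}

/-- For r < R + 1 the cut off function vanishes. -/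
theorem inner_eq (h : Cv g z A s) (hq : q.Rᵀ * q.R = 1) (hl : q.l ≠ 0) (hχ : Cf χ χ')
    (hr : rd (z s) < R + 1) : E0 g q β R k χ z =ᶠ[𝓝 s] E2 g q.l R z ∧ uh q R χ z s = (cq q z s).1 ∧
      HasDerivAt (uh q R χ z) (deriv (cq q z) s).1 s ∧ q.l * (deriv (cq q z) s).1 = (deriv z s).1 ∧
      q.l * (cq q z s).1 = (z s).1 := by
  have e : ∀ᶠ t in 𝓝 s, χ (rd (z t) - (R + 1)) = 0 :=
    ((rd_cont.continuousAt.comp h.cd.continuousAt).eventually (gt_mem_nhds hr)).mono fun t ht =>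
      ((hχ _).2.2.2.2.2.1 (sub_nonpos.2 (le_of_lt ht))).1
  obtain ⟨a1, a2, a3, -⟩ := cq_spec h hq hl
  exact ⟨e.mono fun t ht => by simp [E0, ht], by simp [uh, e.self_of_nhds],
    a1.fst.congr_of_eventuallyEq (e.mono fun t ht => by simp [uh, ht]), by rw [← a3, lin_fst],
    by rw [← a2, lin_fst]⟩

theorem mid_ok {W t u B r E d c γ A l C : ℝ} (W0 : 0 ≤ W) (a1 : W ≤ 2 * t) (a2 : W ≤ 4 * E)
    (a3 : d ≤ c * W ^ 2 + 1 + 30 * A * (1 + W)) (a4 : t ≤ W) (a5 : |B| ≤ 2 * W) (r1 : 1 ≤ r)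
    (l1 : l ≤ 2) (hl : l * u = t) (u0 : 0 ≤ u) (c0 : 0 ≤ c) (c1 : 16 * c ≤ γ) (A0 : 0 ≤ A)
    (C1 : 150 ≤ C) {b : ℝ} (b1 : 1 ≤ b) (hb : E ≤ b) :
    B ≤ C * b * r ∧ t ≤ C * b * r ∧ d ≤ b * (γ * u + C * A + C) := by
  have k1 : 150 * b ≤ C * b * r :=
    (mul_le_mul_of_nonneg_right C1 (by linarith)).trans (le_mul_of_one_le_right (by nlinarith) r1)
  have k2 : W ≤ 4 * b := by linarith
  have k3 : W ≤ 4 * u := by nlinarith
  have k4 : W ^ 2 ≤ 16 * (b * u) := by nlinarith [mul_le_mul k2 k3 W0 (by linarith)]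
  have k5 : 0 ≤ b * u := mul_nonneg (by linarith) u0
  refine ⟨by linarith [le_abs_self B], by linarith, ?_⟩
  linarith [mul_le_mul_of_nonneg_left k4 c0, mul_le_mul_of_nonneg_right c1 k5,
    mul_le_mul_of_nonneg_left k2 A0, mul_le_mul_of_nonneg_left b1 A0,
    mul_le_mul_of_nonneg_right C1 (mul_nonneg A0 (zero_le_one.trans b1)),
    mul_le_mul_of_nonneg_right C1 (zero_le_one.trans b1)]

theorem far_ok {K C k η R ε r c A A' B W e E d n γ l lo t : ℝ}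
    (h : Out K C k η R ε r c A A' B W e E d n) (K1 : 1 ≤ K) (C1 : 1 ≤ C) (A0 : 0 ≤ A) (r1 : 1 ≤ r)
    (g1 : K * (C * ε * R) * c ≤ γ) (g2 : γ ≤ η) (l0 : 0 ≤ l) (l1 : l ≤ 2) (o0 : 0 ≤ lo) (o1 : lo ≤ 2)
    (ht : t = l * (A' + lo * B)) {b : ℝ} (b1 : 1 ≤ b) (hb : E ≤ b) :
    B ≤ 15000 * K ^ 2 * C ^ 2 * b * r ∧ t ≤ 15000 * K ^ 2 * C ^ 2 * b * r ∧
      (E = b → d ≤ b * (γ * A' + 15000 * K ^ 2 * C ^ 2 * A + 15000 * K ^ 2 * C ^ 2)) := by
  have K0 : 0 ≤ K := zero_le_one.trans K1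
  have k0 : K ≤ K ^ 2 * C ^ 2 := by nlinarith [one_le_pow₀ (n := 2) C1]
  have k1 : K * E ≤ K * b := mul_le_mul_of_nonneg_left hb K0
  have k2 : |B| ≤ 2 * (K * b * r) := h.hB.trans (by nlinarith)
  have k3 : |A'| ≤ K * b * r := (h.hA.trans k1).trans (le_mul_of_one_le_right (by nlinarith) r1)
  have k4 : K * b * r ≤ K ^ 2 * C ^ 2 * b * r := by gcongr
  have k5 : |lo * B| ≤ 2 * |B| := by rw [abs_mul, abs_of_nonneg o0]; gcongr
  have k6 : |l * (A' + lo * B)| ≤ 2 * (|A'| + |lo * B|) := by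
    rw [abs_mul, abs_of_nonneg l0]
    exact mul_le_mul l1 (abs_add_le _ _) (abs_nonneg _) two_pos.le
  refine ⟨by linarith [le_abs_self B, abs_nonneg B], by
    linarith [le_abs_self (l * (A' + lo * B)), abs_nonneg B], fun e => ?_⟩
  have k7 : 1 ≤ K * b := one_le_mul_of_one_le_of_one_le K1 b1
  have k8 : K * b ≤ K ^ 2 * C ^ 2 * b := by gcongr
  have := h.der γ g1 g2
  rw [e] at this
  linarith [mul_le_mul_of_nonneg_left k7 A0, mul_le_mul_of_nonneg_left k8 A0]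

theorem num {K C k : ℝ} (K1 : 1 ≤ K) (C1 : 1 ≤ C) (k0 : 0 < k) : ∀ᶠ R in atTop, ∀ U > 0, ∀ η > 0,
    ∃ c0 > 0, c0 ≤ η ∧ ∀ᶠ ε in 𝓝[>] (0 : ℝ), ε + 360 * (K * (C * ε * R)) * C ^ 2 +
      72 * K * (C / R + C * ε * R) ^ 2 * C ^ 2 + 60 * C * (c0 * U) ≤
        k / (432 * K * C ^ 2 * (R + 2)) := by
  filter_upwards [eventually_ge_atTop 2, eventually_gt_atTop (200000 * K ^ 2 * C ^ 6 / k)]
    with R R2 R3 U U0 η η0
  obtain ⟨b, hb⟩ : ∃ b, b = k / (432 * K * C ^ 2 * (R + 2)) := ⟨_, rfl⟩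
  have b0 : 0 < b := by rw [hb]; positivity
  have b1 : 72 * K * (C / R) ^ 2 * C ^ 2 < b / 2 := by
    rw [div_lt_iff₀ k0] at R3
    rw [hb, div_pow, div_div, mul_right_comm, ← mul_div_assoc,
      div_lt_div_iff₀ (by positivity) (by positivity)]
    have : 0 < K ^ 2 * C ^ 6 := by positivity
    nlinarith [mul_lt_mul_of_pos_right R3 (show 0 < R by linarith),
      mul_le_mul_of_nonneg_left R2 this.le]
  have b2 : 60 * C * (min η (b / (120 * C * U)) * U) ≤ b / 2 := by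
    have := min_le_right η (b / (120 * C * U))
    rw [le_div_iff₀ (by positivity)] at this
    linarith
  refine ⟨min η (b / (120 * C * U)), by positivity, min_le_left _ _, ?_⟩
  rw [← hb]
  refine ((show ContinuousAt (fun ε : ℝ => ε + 360 * (K * (C * ε * R)) * C ^ 2 +
    72 * K * (C / R + C * ε * R) ^ 2 * C ^ 2 + 60 * C * (min η (b / (120 * C * U)) * U)) 0 by
      fun_prop).eventually (ge_mem_nhds ?_)).filter_mono nhdsWithin_le_nhds
  simp only [mul_zero, zero_mul, add_zero, zero_add]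
  linarith

/-- **The part r ≥ R.** -/
theorem outer (hM : MID) (hA : FA) (hB : FB) {M a s' δ : ℝ} (ha : |a| < M) (hs : 1 < s')
    (hδ : 0 < δ) : ∃ k σ C2 : ℝ, 1 < σ ∧ σ ≤ s' ∧ 0 ≤ C2 ∧ ∀ᶠ R in atTop, ∃ c0 > 0,
      ∀ᶠ ε in 𝓝[>] (0 : ℝ), ∀ (g : Tw) (q : Par) (β : Fin 3 → R4 → ℝ) (χ χ' : ℝ → ℝ) (z : ℝ → R4)
        (A s C1 c : ℝ) (w : R4), 1 ≤ C1 → Cf χ χ' → q.Near M a ε → Cv g z A s → w = deriv z s →
        R ≤ rd (z s) → -2 ≤ g (z s) w w → g (z s) w w < 0 → 0 ≤ c → c ≤ ε →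
        (rd (z s) ≤ R + 2 → Bd 1 (g - gin M a) (z s) ε ∧
          |fderiv ℝ (fun x => g x w w) (z s) eT| ≤ c * (‖w‖ * ‖w‖) ∧ 0 ≤ w.1) →
        (R + 1 ≤ rd (z s) → Far q.M q.a s' δ ε 2 (pb q.lin g) β (cq q z s) ∧
          g (z s) (q.lin (Lo q.M q.a (cq q z s))) w ≤ 0) →
        (rd (z s) < R + 1 → 16 * c ≤ min c0 (C1 * √(1 + (cq q z s).1 ^ 2) ^ (-σ))) →
        Ok (E0 g q β R k χ z) (uh q R χ z) (fun x => min c0 (C1 * √(1 + x ^ 2) ^ (-σ))) z A s C2 := by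
  have k0 : 0 < min δ (1 / 4) := by positivity
  have k1 := min_le_right δ (1 / 4)
  obtain ⟨K, K1, C, C1', η, η0, H⟩ := e3 hA hB (M + 1) k0 k1
  obtain ⟨R0, cM, cM0, hM2⟩ := hM.2 M a (1 / 1000) (by norm_num)
  obtain ⟨M0, -, m1, -, m2, -⟩ := hor ha
  have KC : 150 ≤ 15000 * K ^ 2 * C ^ 2 := by
    nlinarith [one_le_mul_of_one_le_of_one_le (one_le_pow₀ (n := 2) K1) (one_le_pow₀ (n := 2) C1')]
  refine ⟨min δ (1 / 4), min s' (1 + min δ (1 / 4)), 15000 * K ^ 2 * C ^ 2,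
    lt_min hs (by linarith), min_le_left _ _, by positivity, ?_⟩
  filter_upwards [num K1 C1' k0, eventually_ge_atTop R0, eventually_ge_atTop (C / η),
    eventually_ge_atTop (82 * (M + 1))] with R n1 R1 R2 R3
  have R4 : 1 ≤ R := by linarith
  obtain ⟨c0, c00, c01, n2⟩ := n1 (7 + 4 * ((R + 2) * (2 + (ka M a)⁻¹))) (by positivity) η η0
  refine ⟨c0, c00, ?_⟩
  filter_upwards [n2, par_near ha m1, small (R + 2) cM0, small (C * R) η0, small (K * (C * R)) c00,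
    small (K * (C * R)) one_pos, self_mem_nhdsWithin] with ε e1 e2 e3 e4 e5 e6 e7
  intro g q β χ χ' z A s C1 c w C10 hχ hq h hw r1 g1 g2 c1 c2 hn hf hl
  have e0 : 0 ≤ ε := le_of_lt e7
  obtain ⟨q1, q2, q3, q4, q5, -⟩ := e2 q hq
  have q6 := hq.2.2.2.1
  have l0 : 0 < q.l := by linarith
  have r0 : 1 ≤ rd (z s) := R4.trans r1
  have w1 : w.1 ≤ ‖w‖ := (le_abs_self _).trans (norm_fst_le w)
  have w2 := (dr_le (p := z s) (by linarith) w).2
  have mid := fun r2 : rd (z s) ≤ R + 2 => (hM2 g (z s) ε (R1.trans r1) h.gd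
    ((mul_le_mul_of_nonneg_left r2 e0).trans e3.le) (hn r2).1).elim fun k1 k2 =>
      e2_mid hM h hw R4 r1 r2 q3 q4 (hn r2).2.1 k1 (k2 w _ A h.A0 (hw ▸ h.acc)) g1 g2.le (hn r2).2.2
  rcases lt_or_ge (rd (z s)) (R + 1) with r2 | r2
  · obtain ⟨i1, i2, i3, i4, -⟩ := inner_eq (β := β) (k := min δ (1 / 4)) h q6 l0.ne' hχ r2
    obtain ⟨a1, a2, -, a4⟩ := mid (by linarith)
    obtain ⟨E, d2, -⟩ := e2_deriv hM h (by linarith) q.l R rfl
    rw [← hw] at i4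
    refine ⟨d2.differentiableAt.congr_of_eventuallyEq i1, i3.differentiableAt, by
      rw [i1.self_of_nhds]; linarith [norm_nonneg w], fun B B1 hB => ?_⟩
    rw [i1.self_of_nhds] at hB
    rw [i1.deriv_eq, i3.deriv, i2, ← hw]
    have := mid_ok (norm_nonneg w) a1 a2 (a4.trans (sub_le_self _ (by positivity))) w1 w2 r0
      (by linarith) i4 (nonneg_of_mul_nonneg_right (i4 ▸ (hn (by linarith)).2.2) l0) c1 (hl r2) h.A0
      KC B1 hB
    exact ⟨this.1, this.2.1, fun _ => this.2.2⟩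
  obtain ⟨y1, y2, y3, y4, y5, y6⟩ := cq_spec h q6 l0.ne'
  rw [← hw] at y3 y5 y6
  obtain ⟨f1, f2⟩ := hf r2
  obtain ⟨d3, n, o⟩ := H q.M q.a s' δ (min s' (1 + min δ (1 / 4))) ε R _ β _ A s _ _ q1 q2
    (min_le_left _ _) (le_min (by linarith) (by linarith)) (min_le_left _ _) (min_le_right _ _) e0
    (by rwa [div_le_iff₀' η0] at R2) (by linarith) rfl rfl (by linarith) y1 f1
    (by rwa [y6, y3]) (by rwa [y6, y3]) (by rwa [y6])
  obtain ⟨-, -, -, p1, -⟩ := hor q1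
  obtain ⟨d0, du⟩ := glue hM h q6 l0.ne' hχ q1 (by linarith) d3 rfl (hw ▸ rfl : dr (z s) w = _)
  obtain ⟨o1, o2⟩ := lo1_mem q1 (r := rd (z s)) (by linarith)
  obtain ⟨-, x0, x1, x2, x3, -, x4⟩ := hχ (rd (z s) - (R + 1))
  obtain ⟨u0, u1⟩ := uw_le (s := min s' (1 + min δ (1 / 4))) (le_min (by linarith) (by linarith))
    q.M q.a (cq q z s)
  rw [y4, y5, y6, lin_T, h.gd.bil.smul_left] at o
  refine ⟨d0.differentiableAt, du.differentiableAt, ?_⟩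
  rw [d0.deriv, du.deriv, ← hw]
  rcases le_total (rd (z s)) (R + 2) with r3 | r3
  · obtain ⟨-, a2, a3, a4⟩ := mid r3
    obtain ⟨v1, v2⟩ := norm_lin q6 (by linarith) (by linarith) (deriv (cq q z) s)
    rw [y3] at v1 v2
    have ps : |psi q.M q.a (rd (z s))| ≤ (R + 2) * (2 + (ka M a)⁻¹) :=
      (psi_le q1 (by linarith)).trans (mul_le_mul r3 (by linarith)
        (by have := (hor q1).2.2.2.2.1; positivity) (by linarith))
    have ab : ∀ x y c d : ℝ, |x| ≤ c → |y| ≤ d → |x * y| ≤ c * d := fun x y c d h1 h2 => by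
      rw [abs_mul]; exact mul_le_mul h1 h2 (abs_nonneg _) ((abs_nonneg _).trans h1)
    have z1 := abs_le.1 (ab _ _ _ _ (ab _ _ _ _ ((abs_of_nonneg x2).trans_le x3) w2) ps)
    have z2 := abs_le.1 (ab _ _ _ _ ((abs_of_nonneg x0).trans_le x1) (ab _ _ 2 _
      (abs_le.2 ⟨by linarith only [o1], by linarith only [o2]⟩) w2))
    have z3 := abs_le.1 (show |(deriv (cq q z) s).1| ≤ _ from (norm_fst_le _).trans v2)
    obtain ⟨s1, s2⟩ := sh_alg (u := (deriv (cq q z) s).1 - (χ' (rd (z s) - (R + 1)) * dr (z s) w *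
      psi q.M q.a (rd (z s)) + χ (rd (z s) - (R + 1)) * (lo1 q.M q.a (rd (z s)) * dr (z s) w)))
      (E := E0 g q β R (min δ (1 / 4)) χ z s) o K1 C1' k0 (by linarith only [k1]) R4 e0 h.A0 u1 r2
      r3 (norm_nonneg w) v1 v2 (by
        rw [E2, P354V.sq, max_eq_left (sub_nonneg.2 r1), hw]) a2 a3 c2 a4 x0 x1 x2 x3
      (le_min c00.le (mul_nonneg (zero_le_one.trans C10) (Real.rpow_nonneg (Real.sqrt_nonneg
        (1 + uh q R χ z s ^ 2)) _))) (min_le_left _ _) (abs_le.2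
          ⟨by linarith only [z1.2, z2.2, z3.1], by linarith only [z1.1, z2.1, z3.2]⟩)
      (by linarith only [e5, c01]) e1 rfl
    have KC1 : 1 ≤ K * C := one_le_mul_of_one_le_of_one_le K1 C1'
    refine ⟨nonneg_of_mul_nonneg_right ((norm_nonneg w).trans s1) (by positivity),
      fun B B1 hB => ?_⟩
    have t1 : 2 * ‖w‖ ≤ 15000 * K ^ 2 * C ^ 2 * B * rd (z s) := by
      refine le_trans ?_ (le_mul_of_one_le_right (by positivity) r0)
      have := mul_le_mul_of_nonneg_left hB (zero_le_one.trans KC1)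
      have := mul_le_mul_of_nonneg_left KC1 (mul_nonneg (zero_le_one.trans KC1) (by linarith : 0 ≤ B))
      have : 0 ≤ K * C * B := by positivity
      linarith
    exact ⟨((le_abs_self _).trans w2).trans t1, by linarith only [w1, t1, norm_nonneg w],
      fun e => e ▸ s2 (e ▸ B1)⟩
  obtain ⟨x5, x6⟩ := x4 (by linarith)
  have i1 : E0 g q β R (min δ (1 / 4)) χ z s =
      E3 (pb q.lin g) β q.M q.a R (min δ (1 / 4)) (cq q z) s := by simp [E0, x5]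
  have i2 : uh q R χ z s = ur q.M q.a (cq q z s) := by rw [uh, ur_eq, x5, y4, one_mul]
  rw [i1, i2, x5, x6]
  simp only [sub_self, zero_mul, zero_add, add_zero, one_mul]
  refine ⟨o.E0, fun B B1 hB => far_ok o K1 C1' h.A0 r0 (le_min ?_ ?_)
    ((min_le_left _ _).trans c01) l0.le (by linarith only [q4]) (by linarith only [o1])
    (by linarith only [o2]) (by rw [sub_add_cancel, ← y3, lin_fst]) B1 hB⟩
  · exact (mul_le_of_le_one_right (by positivity) u1).trans (by linarith only [e5])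
  · exact mul_le_mul_of_nonneg_right (by linarith only [e6, C10]) u0.le

end Vale.Agent.P354XY
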