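import Vale.Agent.P354XY.Cur

/-!
CURV: the curvature clause of the far structure.
-/

set_option linter.all false
set_option maxSynthPendingDepth 3

open scoped ContDiff
open Set Filter Topology

noncomputable section

namespace Vale.Agent.P354XY

open Vale.Agent.P354n (R4)
open Vale.Agent.P354R (Met)
open Vale.Agent.P354RC (Rm)
open Vale.Agent.P354XD (tb rp_tb)
open Vale.Agent.P354XE (Tw)
open Vale.Agent.P354SA (e0 e1 ey dv gm Q6 dq fq tv Ug Cs Hm qb qd)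
open Vale.Agent.P354SC hiding kN
open Vale.Agent.P354YI (Oj at_comp)
open Vale.Agent.P354YQ (SA)
open Vale.Agent.P354LF (Gr cur_ext o_minv wv_cd ug_open)

variable {J : Type} {n : ℕ} {K c0 : ℝ} {g : J → Tw} {D : J → Set R4} {β : J → Fin 2 → R4 → ℝ}
  {z : J → R4} {l e w d c : J → ℝ} {f : J → R4 → ℝ} {q : J → Q6}

def sc (r : ℝ) (x : R4) : Fin 4 → ℝ := ![1, 1, r * x.2.1⁻¹, r * x.2.1⁻¹]

theorem Fr_eq {g : Tw} {β : Fin 2 → R4 → ℝ} {r : ℝ} (hr : r ≠ 0) (b : Fin 4) (x : R4) :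
    Fr g β b x = sc r x b • Fo g β r b x := by
  fin_cases b
  · exact (one_smul _ _).symm.trans (congrArg _ Fo0.symm)
  · exact (one_smul _ _).symm.trans (congrArg _ (Fo1.trans Np_eq).symm)
  · show _ • _ = (_ * _) • Fo g β r 2 x
    rw [Fo2, smul_smul, mul_right_comm, mul_inv_cancel₀ hr, one_mul]
  · show _ • _ = (_ * _) • Fo g β r 3 x
    rw [Fo3, smul_smul, mul_right_comm, mul_inv_cancel₀ hr, one_mul]

theorem sc_self {x : R4} (hr : x.2.1 ≠ 0) (b : Fin 4) : sc x.2.1 x b = 1 := by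
  fin_cases b <;> simp [sc, hr]

/-- The determinant of the products at the base point. -/
def dt (g : Tw) (β : Fin 2 → R4 → ℝ) (z : R4) : ℝ :=
  |(Matrix.of fun a b => Gr g (Fo g β z.2.1) a b z).det|

namespace Fq4
variable (h : Fq4 n K g D β z l e w d)
include h

theorem o_sc {k : ℕ} (b : Fin 4) : O3 k l z (fun j x => sc (z j).2.1 x b) 1 := by
  have : O3 k l z (fun j x => (z j).2.1 * x.2.1⁻¹) 1 := Adm.o_xi.congr' fun j ξ => by
    show _ * ((z j).2.1 + (z j).2.1 * ξ.2.1)⁻¹ = _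
    rw [← mul_one_add, mul_inv, mul_inv_cancel_left₀ (h.r0 j).ne']
  fin_cases b
  exacts [Oj.cst 1, Oj.cst 1, this, this]

theorem o_gx (a b : Fin 4) : O3 n l z (fun j => Gx (g j) (β j) (z j).2.1 a b) 1 := by
  have a0 := fun a => h.one (h.o_0a a)
  have a1 : ∀ a, O3 n l z _ 1 := fun a => (h.o_1a a).wt (c := 2) (fun _ => zero_le_one) fun j => by
    simp only [mw, Pi.one_apply]
    linarith [h.i1 j, (h.he j).2]
  have a2 : O3 n l z (fun j => g01 (g j) (β j)) 1 :=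
    ((h.one h.o_01).sub (Oj.cst 1)).congr' fun _ _ => by simp
  fin_cases a <;> fin_cases b
  exacts [h.one h.o_A, a2, a0 0, a0 1, a2, h.one h.o_11, a1 0, a1 1, a0 0, a1 0, h.o_ab 0 0,
    h.o_ab 0 1, a0 1, a1 1, h.o_ab 1 0, h.o_ab 1 1]

theorem GG_eq (j : J) {x : R4} (hx : x ∈ D j) (a b : Fin 4) : GG (g j) (β j) a b x =
    sc (z j).2.1 x a * (sc (z j).2.1 x b * Gr (g j) (Fo (g j) (β j) (z j).2.1) a b x) := by
  simp only [GG, Gr, Fr_eq (h.r0 j).ne', map_smul, smul_apply, smul_eq_mul,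
    (rp_tb (h.op j) (h.met j)).eq x hx]
  ring

theorem GG_z (j : J) (a b : Fin 4) :
    GG (g j) (β j) a b (z j) = Gr (g j) (Fo (g j) (β j) (z j).2.1) a b (z j) := by
  rw [h.GG_eq j (h.mem j), sc_self (h.r0 j).ne', sc_self (h.r0 j).ne', one_mul, one_mul]

theorem ev_r (j : J) : ∀ᶠ x in 𝓝 (z j), x ∈ D j ∧ x.2.1 ≠ 0 :=
  ((h.op j).eventually_mem (h.mem j)).and
    (continuous_snd.fst.continuousAt.eventually_ne (h.r0 j).ne')

theorem o_Gi (p0 : 0 < c0) (hd : ∀ j, c0 ≤ dt (g j) (β j) (z j)) (a b : Fin 4) :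
    O3 n l z (fun j => Gi (g j) (β j) a b) 1 := by
  have o : ∀ a b, O3 n l z (fun j => GG (g j) (β j) a b) 1 := fun a b =>
    (o_mull (h.o_sc a) (o_mull (h.o_sc b) (h.o_gx a b))).congr fun j => by
      filter_upwards [d3_ev (l := l j) (h.ev_r j), d3_ev (l := l j) (h.gr_ev j)] with ξ h1 h2
      rw [h.GG_eq j h1.1, h2]
  refine ((o_minv (A := fun j ξ => Matrix.of fun a b => GG (g j) (β j) a b (d3 (l j) (z j) ξ)) o p0
    fun j => by simpa only [Pi.zero_apply, d3_zero, h.GG_z, dt] using hd j).1 a b).congr fun j => ?_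
  filter_upwards [d3_ev (l := l j) (h.ev_r j)] with ξ h1
  rw [Matrix.inv_eq_right_inv (B := Matrix.of fun a b => Gi (g j) (β j) a b (d3 (l j) (z j) ξ))
    (Matrix.ext fun a b => row (rp_tb (h.op j) (h.met j)) h1.1 h1.2 a b)]
  rfl

end Fq4

/-- Jets on the phase space. -/
abbrev O6 (n : ℕ) (l : J → ℝ) (q : J → Q6) (f : J → Q6 → ℝ) (c : J → ℝ) : Prop :=
  Oj n (0 : J → Q6) (fun j ξ => f j (dq (l j) (q j) ξ)) c

theorem o_6 (h : O3 n l (fun j => (q j).1) f c) : O6 n l q (fun j x => f j x.1) c :=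
  Oj.comp (x := (0 : J → Q6)) (f := fun _ ξ => ξ.1) (fun _ => contDiffAt_fst) n
    ((Oj.cst (ContinuousLinearMap.fst ℝ R4 (ℝ × ℝ))).congr' fun _ _ => fderiv_fst) h

theorem dq_zero (l : ℝ) (q : Q6) : dq l q 0 = q := by simp [dq]
theorem dq_cd (l : ℝ) (q : Q6) : ContDiff ℝ ∞ (dq l q) := by unfold dq; fun_prop
theorem dq_ev {p : Q6 → Prop} {l : ℝ} {q : Q6} (h : ∀ᶠ x in 𝓝 q, p x) :
    ∀ᶠ ξ in 𝓝 0, p (dq l q ξ) :=
  (dq_cd l q).continuous.continuousAt.eventually (by rw [dq_zero]; exact h)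

theorem sa_cur {g : Tw} {D : Set R4} {q : Q6} {l : ℝ} (o : IsOpen D) (m : Met g D)
    (hq : q ∈ Ug g D) (hr : q.1.2.1 ≠ 0) (a b c s : Fin 4) : SA (fun ξ => (fun x : Q6 =>
      Rm (tb g) x.1 (fq g x a) (fq g x b) (fq g x c) (fq g x s)) (dq l q ξ)) 0 := by
  refine SA.comp (u := fun x : Q6 => Rm (tb g) x.1 (fq g x a) (fq g x b) (fq g x c) (fq g x s))
    ?_ (.of (dq_cd l q))
  rw [dq_zero]
  filter_upwards [(ug_open o m).mem_nhds hq,
    (continuous_fst.snd.fst.continuousAt (x := q)).eventually_ne hr] with x h1 h2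
  have i : ContDiffAt ℝ ∞ (fun x : Q6 => x.1.2.1⁻¹) x := contDiffAt_fst.snd.fst.inv h2
  have k : ∀ a, ContDiffAt ℝ ∞ (fun x => fq g x a) x := fun a => by
    fin_cases a
    exacts [contDiffAt_const, wv_cd o m h1,
      i.smul (contDiffAt_const.add (contDiffAt_snd.fst.smul contDiffAt_const)),
      i.smul (contDiffAt_const.add (contDiffAt_snd.snd.smul contDiffAt_const))]
  exact rm_sm (rp_tb o m) h1.1 contDiffAt_fst (k a) (k b) (k c) (k s)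

theorem Fq4.cur (h : Fq4 (n + 2) K g D β (fun j => (q j).1) l e w d) (p0' : 0 < c0)
    (hd : ∀ j, c0 ≤ dt (g j) (β j) (q j).1) (hU : ∀ j, q j ∈ Ug (g j) (D j))
    (hp : ∀ j, ‖(q j).2‖ ≤ (q j).1.2.1) (h1 : ∀ j, 1 / 2 ≤ qp (g j) (β j) (q j))
    (h2 : ∀ j, 1 / 8 ≤ qe (g j) (β j) (q j)) (a b c s : Fin 4) :
    O6 n l q (fun j x => Rm (tb (g j)) x.1 (fq (g j) x a) (fq (g j) x b) (fq (g j) x c)
      (fq (g j) x s)) (mw (fun j => (q j).1) w) := by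
  have G := fun a b => o_6 ((h.o_Gi p0' hd a b).pred.pred)
  have P : ∀ L : ℝ × ℝ →L[ℝ] ℝ, (∀ v, |L v| ≤ ‖v‖) → O6 n l q (fun _ x => L x.2 * x.1.2.1⁻¹) 1 :=
    fun L hL => (o_mull ((o_bd (r := fun j => L (q j).2 * (q j).1.2.1⁻¹) (C := 1) fun j => by
      rw [abs_mul, abs_inv, abs_of_pos (h.r0 j), mul_inv_le_iff₀ (h.r0 j), one_mul]
      exact (hL _).trans (hp j)).add (o_lin (L.comp (.snd ℝ R4 _)))) (o_6 (h.o_sc 2))).congr'
      fun j ξ => by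
        have := (h.r0 j).ne'
        simp only [dq, sc, Prod.snd_add, map_add, map_smul, smul_eq_mul, Matrix.cons_val,
          ContinuousLinearMap.comp_apply, ContinuousLinearMap.coe_snd']
        field_simp
  have a0 : O6 n l q (fun _ => p0) 1 := P (.fst ℝ ℝ ℝ) fun v => norm_fst_le v
  have a1 : O6 n l q (fun _ => p1) 1 := P (.snd ℝ ℝ ℝ) fun v => norm_snd_le v
  have o1 : O6 n l q (fun j => qp (g j) (β j)) 1 :=
    (G 1 0).neg.add ((o_mull a0 (G 1 2)).add (o_mull a1 (G 1 3)))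
  have o2 : O6 n l q (fun j => Ip (g j) (β j)) 1 :=
    ((G 0 0).sub (o_sm 2 ((o_mull a0 (G 0 2)).add (o_mull a1 (G 0 3))))).add
      (((o_mull (o_mull a0 a0) (G 2 2)).add (o_sm 2 (o_mull (o_mull a0 a1) (G 2 3)))).add
        (o_mull (o_mull a1 a1) (G 3 3)))
  have o3 : O6 n l q (fun j => qe (g j) (β j)) 1 := (o_mull o1 o1).sub (o_mull (G 1 1) o2)
  have t : ∀ F : ℝ → ℝ, (∀ y, 0 < y → ContDiffAt ℝ ∞ F y) →
      O6 n l q (fun j x => F (qe (g j) (β j) x)) 1 := fun F hF =>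
    o_pos o3 (c := 1 / 8) (by norm_num) (fun j => by rw [Pi.zero_apply, dq_zero]; exact h2 j) hF
  have o4 := t (fun y => √y) fun y hy => Real.contDiffAt_sqrt hy.ne'
  have o5 := t (fun y => (√y)⁻¹) fun y hy =>
    (Real.contDiffAt_sqrt hy.ne').inv (Real.sqrt_pos.2 hy).ne'
  have o6 : O6 n l q (fun j => Hp (g j) (β j)) 1 := o_mull o2 (o_inv (o1.add o4) one_half_pos
    fun j => by rw [Pi.zero_apply, dq_zero]; exact (h1 j).trans (le_add_of_nonneg_right (by positivity)))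
  have oc : ∀ i b, O6 n l q (fun j x => cq (g j) (β j) x i b) 1 := fun i b => by
    fin_cases i
    · exact Oj.cst _
    · exact o_mull o5 ((((G 0 b).add (o_mull o6 (G 1 b))).sub (o_mull a0 (G 2 b))).sub
        (o_mull a1 (G 3 b)))
    · fin_cases b
      exacts [a0, Oj.cst 0, Oj.cst 1, Oj.cst 0]
    · fin_cases b
      exacts [a1, Oj.cst 0, Oj.cst 0, Oj.cst 1]
  refine cur_ext (v := fun a j ξ => Fo (g j) (β j) (q j).1.2.1 a (dq (l j) (q j) ξ).1)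
    (V := fun i j ξ => fq (g j) (dq (l j) (q j) ξ) i) (fun a b c s => o_6 (h.rm p0' hd a b c s))
    (fun i b => o_mull (oc i b) (o_6 (h.o_sc b))) (fun j i => ?_) a b c s
  filter_upwards [dq_ev (l := l j) ((ug_open (h.op j) (h.met j)).mem_nhds (hU j)),
    dq_ev (l := l j) (continuous_fst.continuousAt.eventually (h.ev_r j)),
    (o1.sm j).continuousAt.eventually_const_lt (u := 0) (by
      simp only [Pi.zero_apply, dq_zero]; linarith [h1 j])] with ξ k1 k2 k3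
  have r := rp_tb (h.op j) (h.met j)
  rw [fq_eq r k2.1 k2.2 (Hm_eq r k2.1 k2.2 k1.2.1 k1.2.2 k3)]
  simp only [Fr_eq (h.r0 j).ne', smul_smul]

/-- The data at one point. -/
structure Dt where
  g : Tw
  D : Set R4
  β : Fin 2 → R4 → ℝ
  q : Q6
  l : ℝ
  e : ℝ
  w : ℝ
  d : ℝ

def Dt.Ok (x : Dt) (n : ℕ) (K : ℝ) : Prop :=
  IsOpen x.D ∧ Met x.g x.D ∧ x.q.1 ∈ x.D ∧ 1 ≤ x.q.1.2.1 ∧ 1 ≤ x.l ∧ x.e ∈ Icc (0 : ℝ) 1 ∧
    x.w ∈ Icc (0 : ℝ) 1 ∧ x.d ∈ Icc (0 : ℝ) 3 ∧ Hy n K x.e x.w x.d x.l x.g x.β x.q.1 ∧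
    x.g x.q.1 e1 (Nv x.β x.q.1) ≤ -(1 / 2)

theorem fa_of (p : Dt → Prop) : Fq4 n K (fun j : {x : Dt // x.Ok n K ∧ p x} => j.1.g)
    (fun j => j.1.D) (fun j => j.1.β) (fun j => j.1.q.1) (fun j => j.1.l) (fun j => j.1.e)
    (fun j => j.1.w) fun j => j.1.d :=
  ⟨fun j => j.2.1.1, fun j => j.2.1.2.1, fun j => j.2.1.2.2.1, fun j => j.2.1.2.2.2.1,
    fun j => j.2.1.2.2.2.2.1, fun j => j.2.1.2.2.2.2.2.1, fun j => j.2.1.2.2.2.2.2.2.1,
    fun j => j.2.1.2.2.2.2.2.2.2.1, fun j => j.2.1.2.2.2.2.2.2.2.2.1,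
    fun j => j.2.1.2.2.2.2.2.2.2.2.2⟩

theorem qq_mem {y : ℝ × ℝ} {E : ℝ} (h : ‖y‖ ≤ E) : 4 / qq y ^ 2 ∈ Icc (4 / (1 + 2 * E ^ 2) ^ 2) 4 := by
  have a := pow_le_pow_left₀ (abs_nonneg _) ((norm_fst_le y).trans h) 2
  have b := pow_le_pow_left₀ (abs_nonneg _) ((norm_snd_le y).trans h) 2
  rw [Real.norm_eq_abs, sq_abs] at a b
  have := qq_pos y
  refine ⟨div_le_div_of_nonneg_left zero_le_four (by positivity)
    (pow_le_pow_left₀ this.le (by unfold qq; linarith) 2), div_le_self zero_le_four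
    (one_le_pow₀ (by unfold qq; nlinarith [sq_nonneg y.1, sq_nonneg y.2]))⟩

/-- Lower bounds at the base point. -/
theorem lo (K E : ℝ) : ∃ c0 > 0, ∃ A ≥ 1, ∀ x : Dt, x.Ok 0 K → ‖x.q.1.2.2‖ ≤ E →
    ‖x.q.2‖ ≤ x.q.1.2.1 → A * (x.q.1.2.1⁻¹ + x.e) ≤ 1 → c0 ≤ dt x.g x.β x.q.1 ∧
      1 / 2 ≤ qp x.g x.β x.q ∧ 1 / 8 ≤ qe x.g x.β x.q := by
  obtain ⟨C, hC⟩ := (fa_of (n := 0) (K := K) fun _ => True).near
  have c1 : 0 < 4 / (1 + 2 * E ^ 2) ^ 2 := by positivity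
  obtain ⟨η, η0, hη⟩ := det_nb c1
  have c2 := half_pos (pow_pos c1 2)
  have f := fa_of (n := 0) (K := K) fun x => (4 / (1 + 2 * E ^ 2) ^ 2) ^ 2 / 2 ≤ dt x.g x.β x.q.1
  choose B B0 hB using fun i : Fin 4 × Fin 4 => (f.o_Gi c2 (fun j => j.2.2) i.1 i.2).val
  obtain ⟨M, hM⟩ := Finite.exists_le B
  have M0 := (B0 (0, 0)).trans (hM _)
  refine ⟨_, c2, 1 + (|C| / η + 24 * (|C| * M) + 288 * (|C| * M * M)),
    le_add_of_nonneg_right (by positivity), fun x hx h1 h2 h3 => ?_⟩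
  have r0 := one_pos.trans_le hx.2.2.2.1
  have s0 : 0 ≤ x.q.1.2.1⁻¹ + x.e := add_nonneg (inv_nonneg.2 r0.le) hx.2.2.2.2.2.1.1
  have k := fun a b => (hC ⟨x, hx, trivial⟩ a b).trans
    (mul_le_mul_of_nonneg_right (le_abs_self C) s0)
  have t1 : 0 ≤ |C| / η * (x.q.1.2.1⁻¹ + x.e) := by positivity
  have t2 : 0 ≤ |C| * M * (x.q.1.2.1⁻¹ + x.e) := by positivity
  have t3 : 0 ≤ |C| * M * M * (x.q.1.2.1⁻¹ + x.e) := by positivity
  have d : _ ≤ dt x.g x.β x.q.1 := hη _ (qq_mem h1) _ fun a b => (k a b).trans (by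
    rw [← div_le_one η0, mul_div_right_comm]
    linarith)
  have G : ∀ a b, |Gi x.g x.β a b x.q.1| ≤ M := fun a b => by
    simpa [d3_zero] using (hB (a, b) ⟨x, hx, d⟩).trans (by simpa using hM (a, b))
  have m : ∀ {u v s t : ℝ}, |u| ≤ s → |v| ≤ t → |u * v| ≤ s * t := fun a b =>
    (abs_mul _ _).trans_le (mul_le_mul a b (abs_nonneg _) ((abs_nonneg _).trans a))
  have R : ∀ b, |Gi x.g x.β 1 b x.q.1 + if 0 = b then 1 else 0| ≤
      4 * (|C| * M * (x.q.1.2.1⁻¹ + x.e)) := fun b => by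
    have e := row (β := x.β) (rp_tb hx.1 hx.2.1) hx.2.2.1 r0.ne' 0 b
    simp only [Fin.sum_univ_four, f.GG_z ⟨x, hx, d⟩] at e
    have u := fun a => abs_le.1 (m (k 0 a) (G a b))
    have u0 := u 0
    have u1 := u 1
    have u2 := u 2
    have u3 := u 3
    simp only [G0, Matrix.cons_val, sub_zero] at u0 u1 u2 u3
    rw [← e, abs_le]
    constructor <;> linarith [u0.1, u0.2, u1.1, u1.2, u2.1, u2.2, u3.1, u3.2]
  have P : ∀ {t : ℝ}, |t| ≤ ‖x.q.2‖ → |t * x.q.1.2.1⁻¹| ≤ 1 := fun a => by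
    rw [abs_mul, abs_inv, abs_of_pos r0, mul_inv_le_iff₀ r0, one_mul]
    exact a.trans h2
  have a0 : |p0 x.q| ≤ 1 := P (norm_fst_le x.q.2)
  have a1 : |p1 x.q| ≤ 1 := P (norm_snd_le x.q.2)
  have R0 := abs_le.1 (R 0)
  have R1 := R 1
  have R2 := R 2
  have R3 := R 3
  simp only [Fin.reduceEq, if_false, if_true, add_zero] at R0 R1 R2 R3
  have b1 : 1 / 2 ≤ qp x.g x.β x.q := by
    have := (abs_le.1 (m a0 R2)).1
    have := (abs_le.1 (m a1 R3)).1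
    unfold qp
    linarith [R0.2]
  have b2 : |Ip x.g x.β x.q| ≤ 9 * M := by
    have v0 := abs_le.1 (G 0 0)
    have v1 := abs_le.1 (m a0 (G 0 2))
    have v2 := abs_le.1 (m a1 (G 0 3))
    have v3 := abs_le.1 (m (m a0 a0) (G 2 2))
    have v4 := abs_le.1 (m (m a0 a1) (G 2 3))
    have v5 := abs_le.1 (m (m a1 a1) (G 3 3))
    rw [Ip, abs_le]
    constructor <;>
      linarith [v0.1, v0.2, v1.1, v1.2, v2.1, v2.2, v3.1, v3.2, v4.1, v4.2, v5.1, v5.2]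
  refine ⟨d, b1, ?_⟩
  have := (abs_le.1 (m R1 b2)).2
  unfold qe
  nlinarith

theorem curv (ham : HAM) : CURV := by
  intro K0 E
  obtain ⟨b, b1, r0, ε0, ε1, H⟩ := ham K0 E
  obtain ⟨c0, c1, A, A1, hA⟩ := lo K0 E
  have A2 : 1 ≤ A + 2 * |K0| := by linarith [abs_nonneg K0]
  refine ⟨b, b1, max r0 (2 * (A + 2 * |K0|)), min ε0 (2 * (A + 2 * |K0|))⁻¹, by positivity,
    fun n K => ?_⟩
  obtain ⟨_, -, H⟩ := H n K
  choose C C0 hC using fun i : Fin 4 × Fin 4 × Fin 4 × Fin 4 => ((fa_of (n := n + 2) (K := K)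
    fun x => c0 ≤ dt x.g x.β x.q.1 ∧ x.q ∈ Ug x.g x.D ∧ ‖x.q.2‖ ≤ x.q.1.2.1 ∧
      1 / 2 ≤ qp x.g x.β x.q ∧ 1 / 8 ≤ qe x.g x.β x.q).cur c1 (fun j => j.2.2.1)
    (fun j => j.2.2.2.1) (fun j => j.2.2.2.2.1) (fun j => j.2.2.2.2.2.1) (fun j => j.2.2.2.2.2.2)
    i.1 i.2.1 i.2.2.1 i.2.2.2).bd
  obtain ⟨M, hM⟩ := Finite.exists_le C
  refine ⟨max M 1, le_max_right _ _, fun g D β q l e w d o m hq hr hE hp hl he hw hd y0 y1 i j k s =>
    ?_⟩
  have U := (H g D β q l e w d o m hq ((le_max_left _ _).trans hr) hE hp hl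
    ⟨he.1, he.2.trans (min_le_left _ _)⟩ hw hd y0 y1).1
  have r1 := (le_max_right _ _).trans hr
  have r2 : 0 < q.1.2.1 := by linarith
  have p : 0 < 2 * (A + 2 * |K0|) := by linarith
  have i1 : 2 * (A + 2 * |K0|) * q.1.2.1⁻¹ ≤ 1 := by rwa [mul_inv_le_iff₀ r2, one_mul]
  have i2 : 2 * (A + 2 * |K0|) * e ≤ 1 := by
    rw [← le_div_iff₀' p, one_div]
    exact he.2.trans (min_le_right _ _)
  have i0 := inv_nonneg.2 r2.le
  have k0 := mul_nonneg (abs_nonneg K0) (add_nonneg i0 he.1)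
  have a0 := mul_nonneg (zero_le_one.trans A1) (add_nonneg i0 he.1)
  have x0 : g q.1 e1 (Nv β q.1) ≤ -(1 / 2) := by
    have u := (le_abs_self _).trans y0.x.2.zero
    have := mul_le_mul (le_abs_self K0) (add_le_add (le_refl q.1.2.1⁻¹)
      (mul_le_of_le_one_right he.1 hw.2)) (add_nonneg i0 (mul_nonneg he.1 hw.1)) (abs_nonneg _)
    rw [d3_zero] at u
    linarith
  have e1 : e ∈ Icc (0 : ℝ) 1 := ⟨he.1, by nlinarith [he.1]⟩
  have pp : ‖q.2‖ ≤ q.1.2.1 := hp.trans (div_le_self r2.le b1)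
  obtain ⟨l1, l2, l3⟩ := hA ⟨g, D, β, q, l, e, w, d⟩ ⟨o, m, hq, by linarith, hl, e1, hw, hd, y0, x0⟩
    hE pp (by linarith)
  exact ⟨sa_cur o m U r2.ne' i j k s, (hC (i, j, k, s) ⟨⟨g, D, β, q, l, e, w, d⟩,
    ⟨o, m, hq, by linarith, hl, e1, hw, hd, y1, x0⟩, l1, U, pp, l2, l3⟩).mono le_rfl
    (mul_le_mul_of_nonneg_right ((hM _).trans (le_max_left _ _)) (add_nonneg i0 hw.1))⟩

end Vale.Agent.P354XY
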