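import Vale.Agent.P354XY.Near
import Vale.Agent.P354NK.Main
import Vale.Agent.P354FB.Fa
import Vale.Agent.P354YR.Fb
import Vale.Agent.P354MD.Mid

/-!
The field lya of EndOK, and END.
-/

open scoped ContDiff
open Set Filter Topology Matrix

noncomputable section

namespace Vale.Agent.P354XY

open Vale.Agent.P354n (R4 mink)
open Vale.Agent.P354I (rm rp)
open Vale.Agent.P354R (Met)
open Vale.Agent.P354XE
open Vale.Agent.P354XA

/-- The five functions at one parameter. -/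
theorem five {E J N u γ : ℝ → ℝ} {K1 K2 C A s x y r : ℝ} (K10 : 0 < K1) (K20 : 0 < K2)
    (dE : DifferentiableAt ℝ E s) (dJ : DifferentiableAt ℝ J s) (dN : DifferentiableAt ℝ N s)
    (H : ∀ B ≥ 1, |E s| ≤ B → |J s| ≤ K1 * B → -N s ≤ K2 * B → x ≤ C * B * r ∧ y ≤ C * B * r ∧
      (E s = B → deriv E s ≤ B * (γ (u s) * deriv u s + C * A + C)) ∧
      (-E s = B → -deriv E s ≤ B * (γ (u s) * deriv u s + C * A + C)) ∧
      (|J s| = K1 * B → |deriv J s| ≤ K1 * (B * (γ (u s) * deriv u s + C * A + C))) ∧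
      (-N s = K2 * B → -deriv N s ≤ K2 * (B * (γ (u s) * deriv u s + C * A + C))))
    {h : Fin 5 → ℝ → ℝ} (hh : h = ![E, fun t => -E t, fun t => J t / K1, fun t => -J t / K1,
      fun t => -N t / K2]) : (∀ i, DifferentiableAt ℝ (h i) s) ∧ ∀ B ≥ 1, (∀ j, h j s ≤ B) →
        x ≤ C * B * r ∧ y ≤ C * B * r ∧
          ∀ i, h i s = B → deriv (h i) s ≤ B * (γ (u s) * deriv u s + C * A + C) := by
  subst hh
  simp only [Fin.forall_fin_succ, IsEmpty.forall_iff, and_true, cons_val_zero, cons_val_succ]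
  refine ⟨⟨dE, dE.neg, dJ.div_const _, dJ.neg.div_const _, dN.neg.div_const _⟩,
    fun B B1 ⟨b1, b2, b3, b4, b5⟩ => ?_⟩
  rw [div_le_iff₀' K10] at b3 b4
  rw [div_le_iff₀' K20] at b5
  have p : 0 ≤ K1 * B := by positivity
  obtain ⟨a1, a2, a3, a4, a5, a6⟩ := H B B1 (abs_le.2 ⟨by linarith, b1⟩)
    (abs_le.2 ⟨by linarith, b3⟩) b5
  simp only [deriv_div_const, deriv.fun_neg, div_le_iff₀' K10, div_le_iff₀' K20,
    div_eq_iff K10.ne', div_eq_iff K20.ne', mul_comm B K1, mul_comm B K2]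
  exact ⟨a1, a2, a3, a4, fun e => (le_abs_self _).trans (a5 (by rw [e, abs_of_nonneg p])),
    fun e => (neg_le_abs _).trans (a5 (by rw [← abs_neg, e, abs_of_nonneg p])), a6⟩

/-- **The field lya.** -/
theorem lya {M a s' δ r1 r0 θ : ℝ} (ha : |a| < M) (hs : 1 < s') (hδ : 0 < δ) (h1 : rm M a < r1)
    (h2 : r1 < r0) (hθ : 0 < θ) : ∀ᶠ R in atTop, ∀ᶠ ε in 𝓝[>] (0 : ℝ), ∀ g D Y q q' β, IsOpen D →
      Met g D → En M a r1 θ ⊆ D → (∀ p ∈ En M a r1 θ, g p (Y p) (Y p) < 0 ∧ ∃ L : R4 → R4,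
        IsLinearMap ℝ L ∧ L.Injective ∧ ∀ v w, g p v w = mink (L v) (L w)) →
      IsEnd M a r1 θ R s' δ ε 2 g Y q q' β →
      (∀ p ∈ En M a r1 θ, rd p ≤ R + 2 → Tm g Y (fun x => x.1) p) →
      ∀ L z A I, Ac g Y (Er M a r1 r0 θ) L z A I →
        ∃ K ⊆ Er M a r1 r0 θ, IsCompact K ∧ ∃ᶠ s in 𝓝[<] L, z s ∈ K := by
  obtain ⟨k, σ, C2, σ1, σ2, C20, H⟩ := outer P354MD.mid P354FB.fa P354YR.fb ha hs hδ
  have M0 := (hor ha).1
  filter_upwards [H, eventually_ge_atTop (5 * (M + 1))] with R ⟨c0, c00, H⟩ R1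
  filter_upwards [H, par_near ha (h1.trans h2), small 1 one_pos, self_mem_nhdsWithin]
    with ε H hp e1 e0 g D Y q q' β hD hg hD' hY h tm L z A I hz
  replace e0 : 0 < ε := e0
  obtain ⟨q1, q2, q3, q4, -, q5⟩ := hp q h.par.1
  obtain ⟨-, -, p3, p4, -, -⟩ := hp q' h.par.2
  have q6 := h.par.1.2.2.2.1
  have p6 := h.par.2.2.2.2.1
  obtain ⟨U, V, K1, K2, η0, Cs, C3, K10, K20, η1, Cs0, C30, hN⟩ :=
    near P354MD.mid P354NK.nk q R q1 q5 q6 q3 q4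
  obtain ⟨C1, C10, hl⟩ := late (C := Cs + 16) (one_pos.trans hs) (zero_le_one.trans σ1.le) σ2
    (by positivity) c00 η1
  obtain ⟨Γ, G, hΓ⟩ := exists_Gam σ1 c00.le (zero_le_one.trans C10)
  obtain ⟨χ, χ', hχ⟩ := exists_cut
  have mem : ∀ᶠ s in 𝓝[<] L, s ∈ Ioo 0 L := Ioo_mem_nhdsLT hz.pos
  suffices hk : ∃ c, ∃ᶠ s in 𝓝[<] L, (z s).1 ≤ c by
    obtain ⟨c, hc⟩ := hk
    exact ⟨Er M a r1 r0 θ ∩ {p | p.1 ≤ c}, inter_subset_left, Er_compact ha h1.le hθ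
      ((Er_closed ha h1.le h2).inter (isClosed_le continuous_fst continuous_const))
      fun p hp => ⟨hp.1.1, hp.2⟩, (hc.and_eventually mem).mono fun s hs => ⟨(hz.mem s hs.2).1, hs.1⟩⟩
  by_contra! hk
  obtain ⟨T0, hT⟩ := eventually_atTop.1 hl
  obtain ⟨b, hb, hb'⟩ := mem_nhdsLT_iff_exists_Ioo_subset.1 ((hk T0).and mem)
  obtain ⟨b', b1, b2⟩ := exists_between (show b < L from hb)
  have a0 := (hb' ⟨b1, b2⟩).2.1
  refine (abs_bd (ι := Fin 5) (h := ![E0 g q' β R k χ z, fun t => -E0 g q' β R k χ z t,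
    fun t => Eg g q U z t / K1, fun t => -Eg g q U z t / K1, fun t => -Eg g q V z t / K2])
    (u := uh q' R χ z) (r := fun t => rd (z t)) (t := fun s => (z s).1) (A := A) (I := I)
    (C := C2 + C3) (a := b') (L := L) hΓ (hz.prim.1.mono (Icc_subset_Icc_left a0.le)) a0.le
    (add_nonneg C20 C30) fun s hs => ?_).elim fun c hc =>
      ((hk c).and (Ico_mem_nhdsLT b2)).exists.elim fun s k => k.1.not_ge (hc s k.2)
  obtain ⟨t1, ms⟩ := hb' ⟨b1.trans_le hs.1, hs.2⟩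
  obtain ⟨⟨m, r1'⟩, cd, ⟨f1, f2⟩, -, f3, acc⟩ := hz.mem s ms
  obtain ⟨dI, A0⟩ := hz.prim.2 s ms
  have cv : Cv g z (A s) s := ⟨cd.of_le two_le, gd_of_met hD hg (hD' m), A0, acc⟩
  have r2 : 0 < rd (z s) := (((hor ha).2.1.trans_lt h1).trans h2).trans_le r1'
  obtain ⟨t0, hT'⟩ := hT _ (le_of_lt t1)
  obtain ⟨y1, y2, y3, y4, -, y6⟩ := cq_spec cv p6 (by linarith)
  obtain ⟨x1, x2, -, x4, -⟩ := cq_spec cv q6 (by linarith)
  have y7 : q'.l * (cq q' z s).1 = (z s).1 := by rw [← y2, lin_fst]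
  have x7 : q.l * (cq q z s).1 = (z s).1 := by rw [← x2, lin_fst]
  have y8 : 0 ≤ (cq q' z s).1 := nonneg_of_mul_nonneg_right (y7 ▸ t0) (by linarith)
  have x8 : 0 ≤ (cq q z s).1 := nonneg_of_mul_nonneg_right (x7 ▸ t0) (by linarith)
  have y9 : (cq q' z s).1 ≤ 2 * (z s).1 := by nlinarith only [y7, y8, p3]
  have sm : ∀ x, (z s).1 / 2 ≤ x → 0 ≤ ε * (1 + |x|) ^ (-s') ∧ ε * (1 + |x|) ^ (-s') ≤ ε ∧
      ε * (1 + |x|) ^ (-s') ≤ η0 ∧ ∀ C, C ≤ Cs + 16 → C * (ε * (1 + |x|) ^ (-s')) ≤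
        min c0 (C1 * √(1 + (cq q' z s).1 ^ 2) ^ (-σ)) := fun x hx => by
    obtain ⟨k1, k2⟩ := hT' x _ hx y8 y9
    have k3 : 0 ≤ (1 + |x|) ^ (-s') := by positivity
    have k4 : ε * (1 + |x|) ^ (-s') ≤ (1 + |x|) ^ (-s') := mul_le_of_le_one_left k3 (by linarith)
    exact ⟨by positivity, mul_le_of_le_one_right e0.le (Real.rpow_le_one_of_one_le_of_nonpos
      (by linarith [abs_nonneg x]) (by linarith)), k4.trans k1, fun C hC =>
        (mul_le_mul hC k4 (by positivity) (by positivity)).trans k2⟩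
  obtain ⟨c1, c2, -, c3⟩ := sm (z s).1 (by linarith only [t0])
  obtain ⟨c4, -, c5, c6⟩ := sm (cq q z s).1 (by nlinarith only [x7, x8, q4])
  have nr : rd (z s) ≤ R + 2 → Bd 1 (g - gin M a) (z s) ε ∧
      |fderiv ℝ (fun x => g x (deriv z s) (deriv z s)) (z s) eT| ≤
        ε * (1 + |(z s).1|) ^ (-s') * (‖deriv z s‖ * ‖deriv z s‖) ∧ 0 ≤ (deriv z s).1 := fun r3 => by
    obtain ⟨-, k1, k2⟩ := h.near _ m r3
    obtain ⟨-, k3, k4⟩ := tm _ m r3
    have k5 := k2 0 (Nat.zero_le _) (deriv z s) (deriv z s)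
    have k6 := pos_of_ker cv.gd.bil cv.gd.symm _ k4 k3 (hY _ m).1.le f1.le f2
    rw [norm_iteratedFDeriv_zero] at k5
    rw [fderiv_fst] at k6
    exact ⟨fun j hj => k1 j (hj.trans one_le_two), k5, k6.le⟩
  obtain ⟨dJ, dN, zJ, hN'⟩ := hN g z (A s) s cv r1'
  have fin := fun dE H => five (E := E0 g q' β R k χ z) (u := uh q' R χ z) (C := C2 + C3) (A := A s)
    (γ := fun x => min c0 (C1 * √(1 + x ^ 2) ^ (-σ))) (x := dr (z s) (deriv z s))
    (y := (deriv z s).1) (r := rd (z s)) K10 K20 dE dJ dN H rfl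
  rw [(cv.rd r2.ne').deriv, cv.fst.deriv]
  refine ⟨dI, ?_⟩
  rcases le_total R (rd (z s)) with r3 | r3
  · obtain ⟨o1, o2, o3, o4⟩ := H g q' β χ χ' z (A s) s C1 _ _ C10 hχ h.par.2 cv rfl r3
      (by linarith only [f3]) f1 c1 c2 nr (fun r4 => by
        obtain ⟨k1, k2⟩ := h.far (cq q' z s) (y2 ▸ m) (y4 ▸ r4)
        obtain ⟨y, Lm, -, -, k3⟩ := hY _ m
        rw [y2] at k1
        exact ⟨k2, ori k3 y.le f1.le (by
          rw [← y2, ← pb_lin q' g]; exact k2.gauge.self_of_nhds.1.le) f2 k1⟩)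
      fun _ => c3 16 (by linarith only [Cs0])
    obtain ⟨z1, z2⟩ := zJ (by linarith only [q2, R1, r3])
    refine ⟨o2, (cv.rd r2.ne').differentiableAt, cv.fst.differentiableAt, r2,
      fin o1 fun B B1 b3 _ _ => ?_⟩
    obtain ⟨k1, k2, k3⟩ := o4 B B1 ((le_abs_self _).trans b3)
    have B0 : 0 < B := one_pos.trans_le B1
    have u1 := mul_nonneg (mul_nonneg C30 B0.le) r2.le
    rw [z1, z2, abs_zero, neg_zero]
    exact ⟨by linarith only [k1, u1], by linarith only [k2, u1], fun e => by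
      linarith only [k3 e, mul_nonneg (mul_nonneg C30 B0.le) A0, mul_nonneg C30 B0.le],
      fun e => absurd e (by linarith only [o3, B0] : -_ < B).ne,
      fun e => absurd e (mul_pos K10 B0).ne, fun e => absurd e (mul_pos K20 B0).ne⟩
  obtain ⟨i1, i2, i3, i4, -⟩ := inner_eq (β := β) (k := k) (R := R) cv p6 (by linarith) hχ
    (by linarith only [r3])
  obtain ⟨E, d2, -⟩ := e2_deriv P354MD.mid cv r2.ne' q'.l R rfl
  obtain ⟨-, n1, n2⟩ := nr (by linarith only [r3])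
  refine ⟨i3.differentiableAt, (cv.rd r2.ne').differentiableAt, cv.fst.differentiableAt, r2,
    fin (d2.differentiableAt.congr_of_eventuallyEq i1) fun B B1 b3 b4 b5 => ?_⟩
  rw [i1.self_of_nhds] at b3
  obtain ⟨k1, k2, k3, k4, k5⟩ := hN' _ _ _ _ _ _ B rfl r3 p3 p4 i4 n2 (by linarith only [f3]) f1.le n1
    c4 c5 (fun j hj => h.conv _ (x2 ▸ m) (x4 ▸ r3) j (hj.trans one_le_two)) c1
    (c3 Cs (by linarith only)) (c6 Cs (by linarith only)) B1 b3 b4 b5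
  have B0 : 0 ≤ B := zero_le_one.trans B1
  have u1 := mul_nonneg (mul_nonneg C20 B0) r2.le
  have u2 : 0 ≤ B * (C2 * A s + (C2 + C3)) := by positivity
  rw [i1.deriv_eq, i3.deriv, i2]
  exact ⟨by linarith only [k1, u1], by linarith only [k2, u1],
    fun _ => by linarith only [(abs_le.1 k3).2, u2], fun _ => by linarith only [(abs_le.1 k3).1, u2],
    fun e => by linarith only [k4 e, mul_nonneg K10.le u2],
    fun e => by linarith only [k5 e, mul_nonneg K20.le u2]⟩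

/-- **END.** -/
theorem end_ok : END := by
  intro M a s δ r1 r0 θ _ ha hs hδ h1 h2 h3 hθ
  obtain ⟨R0, H⟩ := lid M a s δ r1 r0 θ ha hs hδ h1 h2 h3 hθ
  obtain ⟨R1, H1⟩ := eventually_atTop.1 (lya ha hs hδ h1 h2 hθ)
  refine ⟨max R0 R1, fun R hR => ?_⟩
  obtain ⟨ε0, e0, H⟩ := H R ((le_max_left _ _).trans hR)
  obtain ⟨ε, e1, e2⟩ := ((H1 R ((le_max_right _ _).trans hR)).and (Ioc_mem_nhdsGT e0)).exists
  refine ⟨ε, e2.1, fun g D Y q q' β hD hg hD' hY h => ?_⟩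
  obtain ⟨a1, a2, a3, a4⟩ := H ε e2 2 g D Y q q' β hg hD' (fun p hp => (hY p hp).1) h
  exact ⟨a2, a3, a4, e1 g D Y q q' β hD hg hD' hY h a1⟩

end Vale.Agent.P354XY
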