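import Vale.Agent.P354XY.Defs2

/-!
The barrier argument for real functions, and the cut off functions.
-/

open MeasureTheory Set Filter Topology

noncomputable section

namespace Vale.Agent.P354XY

/-- The first touch. -/
theorem barrier {ι : Type} [Finite ι] {h : ι → ℝ → ℝ} {B : ℝ → ℝ} {a b : ℝ}
    (hc : ∀ s ∈ Ico a b, DifferentiableAt ℝ B s ∧ ∀ i, DifferentiableAt ℝ (h i) s)
    (h0 : ∀ i, h i a < B a)
    (ht : ∀ s ∈ Ico a b, (∀ j, h j s ≤ B s) → ∀ i, h i s = B s → deriv (h i) s < deriv B s) :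
    ∀ s ∈ Ico a b, ∀ i, h i s < B s := by
  intro s1 hs1
  by_contra! k
  have sub : Icc a s1 ⊆ Ico a b := fun s hs => ⟨hs.1, hs.2.trans_lt hs1.2⟩
  have cl : IsClosed (⋃ i, Icc a s1 ∩ (fun s => h i s - B s) ⁻¹' Ici 0) :=
    isClosed_iUnion_of_finite fun i => ContinuousOn.preimage_isClosed_of_isClosed
      (fun s hs => (((hc s (sub hs)).2 i).sub (hc s (sub hs)).1).continuousAt.continuousWithinAt)
      isClosed_Icc isClosed_Ici
  obtain ⟨i1, hi1⟩ := k
  obtain ⟨s, hs, hm⟩ := (isCompact_Icc.of_isClosed_subset cl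
    (iUnion_subset fun i => inter_subset_left)).exists_isLeast
      ⟨s1, mem_iUnion.2 ⟨i1, ⟨hs1.1, le_rfl⟩, sub_nonneg.2 hi1⟩⟩
  obtain ⟨i, m, hi⟩ := mem_iUnion.1 hs
  have hi' : B s ≤ h i s := sub_nonneg.1 hi
  have as : a < s := m.1.lt_of_ne fun e => (h0 i).not_ge (e ▸ hi')
  have lt : ∀ j, ∀ᶠ x in 𝓝[<] s, h j x < B x := fun j => by
    filter_upwards [Ioo_mem_nhdsLT as] with x hx
    by_contra! k
    exact hx.2.not_ge (hm (mem_iUnion.2 ⟨j, ⟨hx.1.le, hx.2.le.trans m.2⟩, sub_nonneg.2 k⟩))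
  obtain ⟨d1, d2⟩ := hc s (sub m)
  have le : ∀ j, h j s ≤ B s := fun j => le_of_tendsto_of_tendsto
    ((d2 j).continuousAt.tendsto.mono_left nhdsWithin_le_nhds)
    (d1.continuousAt.tendsto.mono_left nhdsWithin_le_nhds) ((lt j).mono fun x hx => hx.le)
  have e := (le i).antisymm hi'
  have d := (d1.hasDerivAt.sub (d2 i).hasDerivAt).tendsto_slope.mono_left (nhdsLT_le_nhdsNE s)
  refine (sub_pos.2 (ht s (sub m) le i e)).not_ge (le_of_tendsto d ?_)
  filter_upwards [lt i, self_mem_nhdsWithin] with x h1 h2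
  rw [slope_def_field]
  exact div_nonpos_of_nonneg_of_nonpos (by simp only [Pi.sub_apply]; linarith)
    (sub_nonpos.2 (le_of_lt h2))

/-- A function with bounded derivative is bounded above. -/
theorem bdd {f : ℝ → ℝ} {a b c : ℝ}
    (h : ∀ s ∈ Ico a b, DifferentiableAt ℝ f s ∧ deriv f s ≤ c) :
    ∀ s ∈ Ico a b, f s ≤ f a + 1 + (|c| + 1) * (b - a) := by
  intro s hs
  have d : ∀ x, HasDerivAt (fun x => f a + 1 + (|c| + 1) * (x - a)) (|c| + 1) x := fun x => by
    simpa using (((hasDerivAt_id x).sub_const a).const_mul (|c| + 1)).const_add (f a + 1)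
  have := barrier (ι := Unit) (h := fun _ => f) (fun x hx => ⟨(d x).differentiableAt,
    fun _ => (h x hx).1⟩) (fun _ => by simp) (fun x hx _ _ _ => by
      rw [(d x).deriv]; linarith [(h x hx).2, le_abs_self c]) s hs ()
  nlinarith [abs_nonneg c, hs.2]

/-- The abstract form of the argument. -/
theorem abs_bd {ι : Type} [Finite ι] {h : ι → ℝ → ℝ} {u r t γ Γ A I : ℝ → ℝ} {C a L G : ℝ}
    (hΓ : ∀ x, HasDerivAt Γ (γ x) x ∧ 0 ≤ Γ x ∧ Γ x ≤ G) (hI : ContinuousOn I (Icc a L))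
    (a0 : 0 ≤ a) (C0 : 0 ≤ C)
    (H : ∀ s ∈ Ico a L, HasDerivAt I (A s) s ∧ DifferentiableAt ℝ u s ∧ DifferentiableAt ℝ r s ∧
      DifferentiableAt ℝ t s ∧ 0 < r s ∧ (∀ i, DifferentiableAt ℝ (h i) s) ∧ ∀ B ≥ 1,
        (∀ j, h j s ≤ B) → deriv r s ≤ C * B * r s ∧ deriv t s ≤ C * B * r s ∧
          ∀ i, h i s = B → deriv (h i) s ≤ B * (γ (u s) * deriv u s + C * A s + C)) :
    ∃ c, ∀ s ∈ Ico a L, t s ≤ c := by
  obtain ⟨I0, hI0⟩ := isCompact_Icc.exists_bound_of_continuousOn hI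
  obtain ⟨B0, hB0⟩ := (finite_range fun i => h i a).bddAbove
  set B : ℝ → ℝ := fun s => (|B0| + 1) * Real.exp (Γ (u s) + C * (I s + I0) + (C + 1) * s) with hB
  have dB : ∀ s ∈ Ico a L, HasDerivAt B (B s * (γ (u s) * deriv u s + C * A s + (C + 1))) s :=
    fun s hs => by
      obtain ⟨d1, d2, -⟩ := H s hs
      refine ((((((hΓ _).1.comp s d2.hasDerivAt).add ((d1.add_const I0).const_mul C)).add
        ((hasDerivAt_id s).const_mul (C + 1))).exp).const_mul (|B0| + 1)).congr_deriv ?_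
      simp only [hB, Pi.add_apply, Function.comp, id]
      ring
  have bI : ∀ s ∈ Ico a L, |I s| ≤ I0 := fun s hs => hI0 s ⟨hs.1, hs.2.le⟩
  have B1 : ∀ s ∈ Ico a L, |B0| + 1 ≤ B s := fun s hs =>
    le_mul_of_one_le_right (by positivity) (Real.one_le_exp (add_nonneg (add_nonneg (hΓ _).2.1
      (mul_nonneg C0 (by linarith [(abs_le.1 (bI s hs)).1])))
        (mul_nonneg (by linarith) (a0.trans hs.1))))
  have B1' : ∀ s ∈ Ico a L, 1 ≤ B s := fun s hs => by linarith [B1 s hs, abs_nonneg B0]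
  set B2 := (|B0| + 1) * Real.exp (G + C * (I0 + I0) + (C + 1) * L) with hB2
  have B3 : ∀ s ∈ Ico a L, B s ≤ B2 := fun s hs => by
    have := (hΓ (u s)).2.2
    have := (abs_le.1 (bI s hs)).2
    have := hs.2.le
    simp only [hB, hB2]
    gcongr
  rcases le_or_gt L a with k | k
  · exact ⟨0, fun s hs => absurd (hs.1.trans_lt hs.2) k.not_gt⟩
  have key := barrier (h := h) (B := B) (a := a) (b := L)
    (fun s hs => ⟨(dB s hs).differentiableAt, (H s hs).2.2.2.2.2.1⟩)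
    (fun i => by linarith [hB0 ⟨i, rfl⟩, le_abs_self B0, B1 a ⟨le_rfl, k⟩])
    (fun s hs hj i hi => by
      rw [(dB s hs).deriv]
      linarith [((H s hs).2.2.2.2.2.2 _ (B1' s hs) hj).2.2 i hi, B1' s hs])
  have o := fun s hs => (H s hs).2.2.2.2.2.2 _ (B1' s hs) fun j => (key s hs j).le
  have r1 := bdd (f := fun s => Real.log (r s)) (a := a) (b := L) (c := C * B2) fun s hs => by
    obtain ⟨-, -, d, -, r0, -⟩ := H s hs
    refine ⟨d.log r0.ne', ?_⟩
    rw [deriv.log d r0.ne', div_le_iff₀ r0]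
    exact (o s hs).1.trans (by have := B3 s hs; gcongr)
  exact ⟨_, bdd (c := C * B2 * Real.exp (Real.log (r a) + 1 + (|C * B2| + 1) * (L - a)))
    fun s hs => by
      obtain ⟨-, -, -, d, r0, -⟩ := H s hs
      have := (Real.log_le_iff_le_exp r0).1 (r1 s hs)
      have := B3 s hs
      have := B1' s hs
      exact ⟨d, (o s hs).2.1.trans (by gcongr)⟩⟩

/-- A bounded primitive of the cut weight. -/
theorem exists_Gam {σ c C : ℝ} (hσ : 1 < σ) (c0 : 0 ≤ c) (C0 : 0 ≤ C) : ∃ (Γ : ℝ → ℝ) (G : ℝ),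
    ∀ x, HasDerivAt Γ (min c (C * √(1 + x ^ 2) ^ (-σ))) x ∧ 0 ≤ Γ x ∧ Γ x ≤ G := by
  have k : Continuous fun u : ℝ => min c (C * √(1 + u ^ 2) ^ (-σ)) := continuous_const.min
    (continuous_const.mul (Continuous.rpow_const (by fun_prop) fun u => Or.inl (by positivity)))
  have p : ∀ u : ℝ, 0 ≤ min c (C * √(1 + u ^ 2) ^ (-σ)) := fun u => le_min c0 (by positivity)
  have i : Integrable fun u : ℝ => min c (C * √(1 + u ^ 2) ^ (-σ)) :=
    ((integrable_rpow_neg_one_add_norm_sq (E := ℝ) (μ := volume) (r := σ)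
      (by simpa using hσ)).const_mul C).mono' k.aestronglyMeasurable
      (Eventually.of_forall fun u => by
        rw [Real.norm_eq_abs, abs_of_nonneg (p u), Real.norm_eq_abs, sq_abs]
        refine (min_le_right _ _).trans_eq ?_
        rw [Real.sqrt_eq_rpow, ← Real.rpow_mul (by positivity)]
        congr 2
        ring)
  refine ⟨fun u => ∫ x in Iic u, min c (C * √(1 + x ^ 2) ^ (-σ)), _, fun u => ⟨?_,
    integral_nonneg p, setIntegral_le_integral i (Eventually.of_forall p)⟩⟩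
  exact ((k.integral_hasStrictDerivAt 0 u).hasDerivAt.const_add
    (∫ x in Iic 0, min c (C * √(1 + x ^ 2) ^ (-σ)))).congr_of_eventuallyEq
      (Eventually.of_forall fun b => by
        simp only [← intervalIntegral.integral_Iic_sub_Iic i.integrableOn i.integrableOn]
        ring)

/-- A cut off function. -/
theorem exists_cut : ∃ χ χ' : ℝ → ℝ, ∀ x, HasDerivAt χ (χ' x) x ∧ 0 ≤ χ x ∧ χ x ≤ 1 ∧ 0 ≤ χ' x ∧
    χ' x ≤ 2 ∧ (x ≤ 0 → χ x = 0 ∧ χ' x = 0) ∧ (1 ≤ x → χ x = 1 ∧ χ' x = 0) := by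
  refine ⟨fun x => 2 * P354V.sq x - 4 * P354V.sq (x - 1 / 2) + 2 * P354V.sq (x - 1),
    fun x => 4 * max x 0 - 8 * max (x - 1 / 2) 0 + 4 * max (x - 1) 0, fun x => ⟨?_, ?_⟩⟩
  · refine (((((P354V.sq_deriv x).const_mul 2).sub
      (((P354V.sq_deriv (x - 1 / 2)).comp_sub_const x (1 / 2)).const_mul 4))).add
      (((P354V.sq_deriv (x - 1)).comp_sub_const x 1).const_mul 2)).congr_deriv (by ring)
  simp only [P354V.sq]
  rcases le_total x 0 with h | h
  · rw [max_eq_right h, max_eq_right (by linarith : x - 1 / 2 ≤ 0),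
      max_eq_right (by linarith : x - 1 ≤ 0)]
    exact ⟨by norm_num, by norm_num, by norm_num, by norm_num, fun _ => by norm_num,
      fun _ => by linarith⟩
  rw [max_eq_left h]
  rcases le_total x (1 / 2) with h1 | h1
  · rw [max_eq_right (by linarith : x - 1 / 2 ≤ 0), max_eq_right (by linarith : x - 1 ≤ 0)]
    exact ⟨by nlinarith, by nlinarith, by linarith, by linarith,
      fun k => by rw [k.antisymm h]; norm_num, fun _ => by linarith⟩
  rw [max_eq_left (by linarith : 0 ≤ x - 1 / 2)]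
  rcases le_total x 1 with h2 | h2
  · rw [max_eq_right (by linarith : x - 1 ≤ 0)]
    exact ⟨by nlinarith, by nlinarith [sq_nonneg (x - 1)], by linarith, by linarith,
      fun _ => by linarith, fun k => by rw [h2.antisymm k]; norm_num⟩
  rw [max_eq_left (by linarith : 0 ≤ x - 1)]
  exact ⟨by nlinarith, by nlinarith, by linarith, by linarith, fun _ => by linarith,
    fun _ => ⟨by ring, by ring⟩⟩

end Vale.Agent.P354XY
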