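import Vale.Agent.P354YI.Defs2
import Vale.Agent.P354YT.Main
import Vale.Agent.P354BK.Lip

/-!
The conditions on the collar follow from smallness and the gauge.
-/

open scoped ContDiff
open Set Filter Topology

noncomputable section

namespace Vale.Agent.P354XY

open Vale.Agent.P354n (R4)
open Vale.Agent.P354XE (Tw rd Bd gin ka)
open Vale.Agent.P354XV (Lv jet)
open Vale.Agent.P354XA (rd_cont)
open Vale.Agent.P354YT (Pm)
open Vale.Agent.P354YI

theorem clr : CLR := by
  intro c N k U W h n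
  have t := h.tauI
  obtain ⟨c0, c00, tp⟩ := t.top
  have r0 : 0 < c.r1 := h.r10
  set A := c.be 0
  set B := c.be (c.R1 + 2) + 3 * (c.del * (c.R1 + 2))
  set K : Set R4 := {p | p.1 ∈ Icc A B ∧ rd p ∈ Icc c.r1 (c.R1 + 2)} with hK
  have cK : IsCompact K := by
    refine Metric.isCompact_of_isClosed_isBounded ((isClosed_Icc.preimage continuous_fst).inter
      (isClosed_Icc.preimage rd_cont)) (isBounded_iff_forall_norm_le.2
        ⟨|A| + |B| + (c.R1 + 2), fun p hp => (P354XA.norm_le p).trans ?_⟩)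
    have := abs_le_max_abs_abs hp.1.1 hp.1.2
    have := max_le_add_of_nonneg (abs_nonneg A) (abs_nonneg B)
    linarith [hp.2.2]
  have cF : ContinuousOn (fun p => (p, jet N.m (gin c.M c.a) p, c.X p)) K := fun p hp => by
    have p0 : 0 < rd p := r0.trans_le hp.2.1
    refine (continuousAt_id.prodMk (ContinuousAt.prodMk ?_ ?_)).continuousWithinAt
    · exact (P354BK.jet_par N.m (z := ((c.M, c.a), p)) p0).continuousAt.comp
        (f := fun q : R4 => ((c.M, c.a), q)) (by fun_prop)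
    · exact (h.X_cd p0).continuousAt
  obtain ⟨δ, δ0, hδ⟩ := (cK.image_of_continuousOn cF).exists_cthickening_subset_open
    (isOpen_interior (s := N.Mg)) (by
      rintro _ ⟨p, hp, rfl⟩
      exact (n.ker p (h.r1.1.trans_le hp.2.1)).2)
  refine ⟨N.m, min c0 δ, lt_min c00 δ0, fun θ gc W0 hθ l s b g => ?_⟩
  have ab : ∀ p ∈ c.O, c.psi p ≤ 1 → p ∈ Ab c θ := fun p hp j =>
    have e := h.mem_En hp.1 hp.2.le
    ⟨⟨e.1, hθ.trans e.2.1, e.2.2⟩, j⟩
  have op : IsOpen (c.sc.Cl 1) :=
    h.is.smp.continuousOn.isOpen_inter_preimage h.is.opn (isOpen_Iio (a := 1))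
  refine ⟨P354YA.lv_mono l op fun p hp => s (ab p hp.1 (le_of_lt hp.2)), g, fun p hp a0 a1 => ?_⟩
  have a0' : -1 ≤ c.psi p := a0
  have a1' : c.psi p ≤ 0 := a1
  have hA := ab p hp (a1'.trans zero_le_one)
  have p0 : 0 < rd p := r0.trans hp.1
  obtain ⟨s1, -, s2⟩ := tp gc p hp.1 ⟨by linarith, by linarith⟩ fun v => by
    have := b p hA 0 (Nat.zero_le _) v v
    rw [norm_iteratedFDeriv_zero, Real.norm_eq_abs, ← sq] at this
    exact this.trans (mul_le_mul_of_nonneg_right (min_le_left _ _) (sq_nonneg _))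
  refine ⟨s1, ?_, s2⟩
  rcases le_total (c.R1 + 2) (rd p) with f | f
  · exact (n.far (p, jet N.m gc p, c.X p) f).1
  have hp' : p ∈ K := by
    refine ⟨⟨(t.be_ge.1 p0.le).trans (h.be_le hp.1 (by linarith)), ?_⟩, le_of_lt hp.1, f⟩
    have j := (t.psi_lt p hp.1 1).1 (by linarith)
    have := t.be_ge.1 f
    have := mul_le_mul_of_nonneg_left f h.del.1.le
    simp only [B]
    linarith
  refine interior_subset (hδ (Metric.mem_cthickening_of_dist_le _ _ δ _ ⟨p, hp', rfl⟩ ?_))
  have := P354BK.jet_sub (fun v w => (l.met.smooth v w).contDiffAt (l.isOpen.mem_nhds (s hA)))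
    (P354YJ.gin_cd p0 _ _) (b p hA)
  exact max_le ((dist_self _).le.trans δ0.le) (max_le (((dist_eq_norm _ _).le.trans this).trans
    (min_le_right _ _)) ((dist_self _).le.trans δ0.le))

end Vale.Agent.P354XY
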