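import Vale.Agent.P354XY.Fr
import Vale.Agent.P354SC.Defs2
import Vale.Agent.P354LF.Hj

/-!
The curvature on the frame of the far chart.
-/

set_option linter.all false
set_option maxSynthPendingDepth 3

open scoped ContDiff
open Set Filter Topology

noncomputable section

namespace Vale.Agent.P354XY

open Vale.Agent.P354n (R4)
open Vale.Agent.P354R (Met)
open Vale.Agent.P354RC (Rm)
open Vale.Agent.P354XD (tb rp_tb)
open Vale.Agent.P354XE (Tw)
open Vale.Agent.P354SA (e0 e1 ey dv gm Q6 dq fq Ug Cs Hm qb qd)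
open Vale.Agent.P354SC hiding kN
open Vale.Agent.P354YI (Oj at_comp)
open Vale.Agent.P354LF (Gr kos cur_ext o_minv)

variable {J : Type} {n : ℕ} {K : ℝ} {g : J → Tw} {D : J → Set R4} {β : J → Fin 2 → R4 → ℝ}
  {z : J → R4} {l e w d c : J → ℝ} {f f' : J → R4 → ℝ}

/-- The frame in the dilated chart. -/
def n1 (g : Tw) (β : Fin 2 → R4 → ℝ) (r : ℝ) (a : Fin 4) (x : R4) : R4 :=
  r⁻¹ • bb a + dl a • ∑ c, nu g β r c x • bb c

theorem Al_bb (l r : ℝ) (hr : r ≠ 0) (a : Fin 4) : Al l r (bb a) = r • ca r a := by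
  fin_cases a <;> simp [Al_ap, bb, ca, e1, ey, hr]

theorem Al_n1 {g : Tw} {β : Fin 2 → R4 → ℝ} {l r : ℝ} (hl : l ≠ 0) (hr : r ≠ 0) (a : Fin 4)
    (x : R4) : Al l r (n1 g β r a x - (dl a * l⁻¹) • e0) = Fo g β r a x := by
  fin_cases a <;>
    simp [Al_ap, n1, Fo, Np, nu, dl, bb, ca, e0, e1, ey, hr, hl, Fin.sum_univ_four]

/-- Bounded, with a gain for the derivative in s. -/
def Gq4 (n : ℕ) (l : J → ℝ) (z : J → R4) (w : J → ℝ) (f : J → R4 → ℝ) : Prop :=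
  O3 (n + 1) l z f 1 ∧ Oj n (0 : J → R4)
    (fun j ξ => (l j)⁻¹ * fderiv ℝ (fun ξ => f j (d3 (l j) (z j) ξ)) ξ e0) (mw z w)

theorem Gq4.add (h : Gq4 n l z w f) (k : Gq4 n l z w f') : Gq4 n l z w fun j x => f j x + f' j x :=
  ⟨h.1.add k.1, (h.2.add k.2).congr fun j => by
    filter_upwards [P354YI.ev_dif (h.1.sm j), P354YI.ev_dif (k.1.sm j)] with ξ a b
    rw [fderiv_fun_add a b, ContinuousLinearMap.add_apply, mul_add]⟩

namespace Fq4

theorem pred (h : Fq4 (n + 1) K g D β z l e w d) (j : J) : (l j)⁻¹ ≤ 1 ∧ l j ≠ 0 :=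
  ⟨inv_le_one_of_one_le₀ (h.l1 j), (one_pos.trans_le (h.l1 j)).ne'⟩

variable (h : Fq4 (n + 1) K g D β z l e w d)
include h

theorem o_l {k : ℕ} : Oj k (0 : J → R4) (fun j _ => (l j)⁻¹) 1 := o_bd (C := 1) fun j => by
  rw [abs_of_nonneg (inv_nonneg.2 (zero_le_one.trans (h.l1 j)))]
  exact (h.pred j).1

theorem gd_mu (t : ℝ) (o : O3 (n + 1) l z (fun j x => f j x + t) (mu z e w)) : Gq4 n l z w f :=
  ⟨((h.one o).sub (Oj.cst t)).congr' fun _ _ => by simp, ((o_mulr h.o_l (o.fd.apl (Oj.cst e0))).mono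
    le_rfl h.mm).congr' fun _ _ => by rw [fderiv_add_const]⟩

theorem gd_0 (o : O3 (n + 1) l z f (mu z e w)) : Gq4 n l z w f :=
  h.gd_mu 0 (o.congr' fun _ _ => add_zero _)

theorem gd_s {t : J → ℝ} (s : ∀ j, ContDiffAt ℝ ∞ (f j) (z j))
    (o : O3 (n + 1) l z (fun j x => t j * f j x) 1)
    (o' : O3 (n + 1) l z (fun j x => t j * dv e0 (f j) x) (mw z w)) :
    Gq4 n l z w fun j x => t j * f j x :=
  ⟨o, o'.pred.congr fun j => by
    filter_upwards [fd_d3 (l := l j) (contDiffAt_const.mul (s j)),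
      d3_ev (l := l j) (P354YI.ev_dif (s j))] with ξ a b
    rw [a, fderiv_const_mul b, show Al (l j) (z j).2.1 e0 = l j • e0 by simp [Al_ap, e0]]
    simp [dv, (h.pred j).2]⟩

theorem gd_1a (a : Fin 2) : Gq4 n l z w fun j => g1a (g j) (β j) (z j).2.1 a := by
  have k := o_mull h.o_k (h.o_Z a)
  refine (h.gd_s (t := ri z) (fun j => ((h.hy j).ta a).1) ((((h.o_1a a).wt (c := 2)
    (fun _ => zero_le_one) fun j => ?_).sub (h.one k)).congr' fun _ _ => by simp [g1a, ri])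
    ((o_mul h.o_i (o_c3 (fun j => (h.hy j).ta0 a) fun j => add_nonneg zero_le_one
      (mul_nonneg (h.r0 j).le (h.hw j).1))).mono le_rfl fun j => le_of_eq ?_)).add (h.gd_0 k)
  · simp only [mw, Pi.one_apply]
    linarith [h.i1 j, (h.he j).2]
  · have := (h.r0 j).ne'
    simp only [Pi.mul_apply, ri, mw]
    field_simp

theorem gd_ab (a b : Fin 2) : Gq4 n l z w fun j => gab (g j) (z j).2.1 a b :=
  h.gd_s (t := fun j => (z j).2.1⁻¹ * (z j).2.1⁻¹) (fun j => ((h.hy j).ga a b).1) (h.o_ab a b)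
    ((o_mul (o_mul h.o_i h.o_i) (o_c3 (fun j => (h.hy j).ga0 a b) fun j => mul_nonneg (sq_nonneg _)
      (add_nonneg (h.i0 j) (h.hw j).1))).mono le_rfl fun j => le_of_eq (by
        have := (h.r0 j).ne'
        simp only [Pi.mul_apply, ri, mw]
        field_simp))

theorem gd_x (a b : Fin 4) : Gq4 n l z w fun j => Gx (g j) (β j) (z j).2.1 a b := by
  have a0 := fun a => h.gd_0 (h.o_0a a)
  have a2 := h.gd_mu 1 h.o_01
  fin_cases a <;> fin_cases b
  exacts [h.gd_0 h.o_A, a2, a0 0, a0 1, a2, h.gd_0 h.o_11, h.gd_1a 0, h.gd_1a 1, a0 0, h.gd_1a 0,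
    h.gd_ab 0 0, h.gd_ab 0 1, a0 1, h.gd_1a 1, h.gd_ab 1 0, h.gd_ab 1 1]

theorem gd_r (a b : Fin 4) : Gq4 n l z w fun j => Gr (g j) (Fo (g j) (β j) (z j).2.1) a b :=
  have e := fun j => (d3_ev (l := l j) (h.gr_ev j)).mono fun _ k => k a b
  ⟨(h.gd_x a b).1.congr e, (h.gd_x a b).2.congr fun j =>
    (EventuallyEq.fderiv (𝕜 := ℝ) (e j)).mono fun _ k => congrArg (fun L => (l j)⁻¹ * L e0) k⟩

theorem gr_cd (j : J) (a b : Fin 4) :
    ContDiffAt ℝ ∞ (Gr (g j) (Fo (g j) (β j) (z j).2.1) a b) (z j) :=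
  have r := rp_tb (h.op j) (h.met j)
  (((r.at (h.mem j)).clm_apply (h.F_cd j a)).clm_apply (h.F_cd j b)).congr_of_eventuallyEq
    (mem_of_superset ((h.op j).mem_nhds (h.mem j)) fun x hx => r.eq x hx _ _)

theorem o_n1 (a : Fin 4) : Oj (n + 1) (0 : J → R4)
    (fun j ξ => n1 (g j) (β j) (z j).2.1 a (d3 (l j) (z j) ξ)) (mu z e w) :=
  ((h.o_i.mono le_rfl h.im).smull (Oj.cst _)).add ((Oj.cst (dl a)).smulr
    (Oj.sum _ h.m0 fun c _ => (h.o_nu c).smull (Oj.cst _)))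

theorem nu_cd (j : J) (c : Fin 4) : ContDiffAt ℝ ∞ (nu (g j) (β j) (z j).2.1 c) (z j) := by
  fin_cases c
  exacts [contDiffAt_const.mul (h.k_cd j), contDiffAt_const, ((h.hy j).be 0).1, ((h.hy j).be 1).1]

end Fq4

/-- The curvature on the frame Fo. -/
theorem Fq4.rm (h : Fq4 (n + 2) K g D β z l e w d) {c0 : ℝ} (p0 : 0 < c0) (hd : ∀ j,
    c0 ≤ |(Matrix.of fun a b => Gr (g j) (Fo (g j) (β j) (z j).2.1) a b (z j)).det|)
    (a b c o : Fin 4) : O3 n l z (fun j x => Rm (tb (g j)) x (Fo (g j) (β j) (z j).2.1 a x)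
      (Fo (g j) (β j) (z j).2.1 b x) (Fo (g j) (β j) (z j).2.1 c x) (Fo (g j) (β j) (z j).2.1 o x))
      (mw z w) := by
  have s : ∀ j a x, Al (l j) (z j).2.1 _ = Fo (g j) (β j) _ a x := fun j =>
    Al_n1 (h.pred j).2 (h.r0 j).ne'
  refine kos (x := 0) (Θ := fun j => d3 (l j) (z j)) (F := fun j => Fo (g j) (β j) (z j).2.1)
    (F' := fun a j ξ => n1 (g j) (β j) (z j).2.1 a (d3 (l j) (z j) ξ) - (dl a * (l j)⁻¹) • e0)
    (C := fun a b c j ξ =>
      dl b * fderiv ℝ (fun ξ => nu (g j) (β j) (z j).2.1 c (d3 (l j) (z j) ξ)) ξ (bb a) -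
      dl a * fderiv ℝ (fun ξ => nu (g j) (β j) (z j).2.1 c (d3 (l j) (z j) ξ)) ξ (bb b))
    h.op h.met (fun j => by rw [Pi.zero_apply, d3_zero]; exact h.mem j)
    (fun j => (d3_cd _ _).contDiffAt) (fun j a => by rw [Pi.zero_apply, d3_zero]; exact h.F_cd j a)
    (fun j a => .of_forall fun ξ => by rw [(d3_fd _ _ ξ).fderiv, s]) (fun j a b => ?_)
    (fun a => (h.one (h.o_n1 a)).pred.pred.sub ((o_sm _ h.o_l).smull (Oj.cst e0)))
    (fun a b => (h.gd_r a b).1.pred) p0 (fun j => by rw [Pi.zero_apply, d3_zero]; exact hd j)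
    (fun a b c => ?_) (fun a b c => ?_) h.m2 a b c o
  · filter_upwards [d3_ev (l := l j) (P354YI.ev_dif (h.k_cd j)), d3_ev (l := l j)
      (eventually_all.2 fun a => P354YI.ev_dif ((h.hy j).be a).1),
      eventually_all.2 fun c => fd_d3 (l := l j) (h.nu_cd j c)] with ξ h1 h2 h3
    simp only [br_eq h1 h2 (h.r0 j).ne', h3, Al_bb _ _ (h.r0 j).ne']
  · refine (((h.gd_r b c).1.fd.apr ((h.o_n1 a).pred.mono le_rfl h.mm)).sub
      (o_sm (dl a) (h.gd_r b c).2)).congr fun j => ?_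
    filter_upwards [fd_d3 (l := l j) (h.gr_cd j b c)] with ξ k
    rw [← s, ← k, map_sub, map_smul, smul_eq_mul, mul_assoc]
  · have := fun v => ((h.o_nu c).fd.apl (Oj.cst v)).mono le_rfl h.mm
    exact (o_sm _ (this _)).sub (o_sm _ (this _))

end Vale.Agent.P354XY
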