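import Vale.Agent.P354XY.Defs

/-!
The field lya of EndOK: the real inequality far out.
-/

noncomputable section

namespace Vale.Agent.P354XY

/-- FB: the energy E of the field P N + (2 - th - P) L, P = R / (2 r), th = (R / r) ^ k, controls w;
D, which is half the Lie derivative of g along this field on (w,w), is almost positive; on the shell
r ≤ R + 2 the energy E is compared with e - f B. -/
def FB : Prop :=
  ∃ K ≥ 1, ∀ C ≥ 1, ∀ k : ℝ, 0 < k → k ≤ 1 / 4 → ∃ η > 0,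
    ∀ R ε r S Wt c th A B ξ F b la mu ga pL pN m P al eN E D : ℝ,
      0 < R → C ≤ η * R → 0 ≤ ε → C * ε * R ≤ η → R ≤ r → R / r ≤ th → th ≤ 1 → 0 ≤ S → S ≤ c →
      c ≤ 1 → 0 ≤ Wt → Wt ≤ 2 → Wt / r ≤ 2 * th / r + c → 0 ≤ ξ →
      Fa C ε r S Wt A B ξ F b la mu ga pL pN →
      m = -(F * A ^ 2) - 2 * b * A * B + 2 * A * mu + 2 * B * la + ga → -2 ≤ m → m < 0 →
      P = R / (2 * r) → al = b * A - la → 0 ≤ al → eN = F * A + b * B - mu →
      E = P * eN + (2 - th - P) * al →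
      D = P * pN + (2 - th - P) * pL + P / r * B * (eN - al) - k * th / r * B * al →
      al + |A| + P * |B| + P * ξ ≤ K * E ∧ P ^ 2 * |F| ≤ 2 ∧
      (∀ γ, K * (C * ε * R) * c ≤ γ → γ ≤ η →
        k * (th * A ^ 2 + P * B ^ 2 + ξ ^ 2) / (K * r) - 1 - γ * A * E ≤ D) ∧
      ∀ e f, r ≤ R + 2 → 0 ≤ f → f ≤ 1 / 4 → |e - eN| ≤ C * ε * r * (|A| + |B| + ξ) →
        B * (E - (e - f * B)) ≤ K * (C / R + C * ε * R) ^ 2 * (|A| + |B| + ξ) ^ 2

end Vale.Agent.P354XY
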