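import Vale.Agent.P354XY.Cv

/-!
The energy of d/dt, corrected by a multiple of the derivative of r.
-/

open scoped ContDiff
open Set Filter Topology

noncomputable section

namespace Vale.Agent.P354XY

open Vale.Agent.P354n (R4)
open Vale.Agent.P354XE
open Vale.Agent.P354XA

variable {g : Tw} {z : ℝ → R4} {A s l R c : ℝ}

/-- The energy in the part r ≤ R + 2. -/
def E2 (g : Tw) (l R : ℝ) (z : ℝ → R4) (s : ℝ) : ℝ :=
  -(l * g (z s) eT (deriv z s)) - P354V.sq (rd (z s) - R) / 16 * dr (z s) (deriv z s)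

theorem Cv.rd (h : Cv g z A s) (r0 : rd (z s) ≠ 0) :
    HasDerivAt (fun t => rd (z t)) (dr (z s) (deriv z s)) s :=
  (((rd_cd (n := 1) r0).differentiableAt one_ne_zero).hasFDerivAt.comp_hasDerivAt s
    (h.cd.differentiableAt (by simp)).hasDerivAt).congr_deriv (rd_fd r0 _)

theorem Cv.fst (h : Cv g z A s) : HasDerivAt (fun t => (z t).1) (deriv z s).1 s :=
  (h.cd.differentiableAt (by simp)).hasDerivAt.fst

theorem e2_deriv (hM : MID) (h : Cv g z A s) (r0 : rd (z s) ≠ 0) (l R : ℝ) {w : R4}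
    (hw : w = deriv z s) : ∃ E, HasDerivAt (E2 g l R z)
      (-(l * (fderiv ℝ (fun x => g x w w) (z s) eT / 2 + E)) -
        (max (rd (z s) - R) 0 / 8 * dr (z s) w ^ 2 + P354V.sq (rd (z s) - R) / 16 *
          ((ip w w - dr (z s) w ^ 2) / rd (z s) + dr (z s) (deriv (deriv z) s)))) s ∧
      ∀ c d, 0 ≤ l → 0 ≤ c → l ^ 2 * g (z s) eT eT ≤ c ^ 2 → |l * g (z s) eT w| ≤ d →
        |l * E| ≤ A * (c + 2 * d) := by
  subst hw
  obtain ⟨E, d1, d2⟩ := h.field (V := fun _ => eT) (differentiableAt_const _)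
  refine ⟨E, ((d1.const_mul l).neg.sub ((((P354V.sq_deriv _).comp s
    ((h.rd r0).sub_const R)).div_const 16).mul (hM.1 z s h.cd r0))).congr_deriv ?_, d2 l⟩
  have := h.gd.bil.smul_left 0 0 (deriv z s)
  simp only [zero_smul, zero_mul] at this
  simp only [P354XE.pi, fderiv_fun_const, Pi.zero_apply, _root_.zero_apply, this,
    Function.comp]
  ring

/-- The part r ≤ R. -/
theorem e2_near (hM : MID) (h : Cv g z A s) (r0 : rd (z s) ≠ 0) {w : R4} (hw : w = deriv z s)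
    (hr : rd (z s) ≤ R) (l0 : 0 ≤ l) (l2 : l ≤ 2)
    (ht : |fderiv ℝ (fun x => g x w w) (z s) eT| ≤ c * (‖w‖ * ‖w‖)) :
    E2 g l R z s = -(l * g (z s) eT w) ∧ ∀ C B, 0 ≤ C → l ^ 2 * g (z s) eT eT ≤ C ^ 2 →
      |E2 g l R z s| ≤ B → |deriv (E2 g l R z) s| ≤ c * ‖w‖ ^ 2 + A * (C + 2 * B) := by
  obtain ⟨E, d1, d2⟩ := e2_deriv hM h r0 l R hw
  have e : max (rd (z s) - R) 0 = 0 := max_eq_right (by linarith)
  have e2 : E2 g l R z s = -(l * g (z s) eT w) := by simp [E2, P354V.sq, e, hw]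
  refine ⟨e2, fun C B C0 h1 h2 => ?_⟩
  rw [e2, abs_neg] at h2
  have k := abs_le.1 (d2 C B l0 C0 h1 h2)
  have k2 : |l * (fderiv ℝ (fun x => g x w w) (z s) eT / 2)| ≤ c * ‖w‖ ^ 2 := by
    rw [abs_mul, abs_div, abs_of_nonneg l0, abs_two]
    nlinarith [abs_nonneg (fderiv ℝ (fun x => g x w w) (z s) eT)]
  rw [d1.deriv, P354V.sq, e, abs_le] at *
  constructor <;> linarith [k.1, k.2, k2.1, k2.2]

theorem mid_alg {W t i B e m l x E : ℝ} (W0 : 0 ≤ W) (t0 : 0 ≤ t) (h1 : W ^ 2 ≤ t ^ 2 + i)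
    (h2 : t ^ 2 ≤ W ^ 2) (h3 : B ^ 2 ≤ i) (h4 : |m + t * t - i| ≤ 1 / 1000 * (W * W))
    (h5 : |e + t| ≤ 1 / 1000 * W) (m1 : -2 ≤ m) (m2 : m ≤ 0) (l1 : 9 / 10 ≤ l) (l2 : l ≤ 11 / 10)
    (x0 : 0 ≤ x) (x2 : x ≤ 2) (hE : E = -(l * e) - x ^ 2 / 16 * B) :
    W ≤ 2 * t ∧ W ≤ 4 * E ∧ E ≤ 2 * W ∧ |l * e| ≤ 2 * W ∧ W ^ 2 ≤ 5 / 2 * (i + 1) := by
  rw [abs_le] at h4 h5
  have a1 : W ≤ 3 / 2 * t := le_of_sq_le_sq (by nlinarith [h4.1]) (by positivity)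
  have a2 : t ≤ W := le_of_sq_le_sq h2 W0
  have a3 : |B| ≤ 11 / 10 * t :=
    abs_le.2 (abs_le_of_sq_le_sq' (by nlinarith [h4.1, mul_self_nonneg t]) (by positivity))
  have a4 : |x ^ 2 / 16 * B| ≤ 11 / 40 * t := by
    rw [abs_mul, abs_of_nonneg (by positivity)]
    nlinarith [abs_nonneg B, mul_le_mul_of_nonneg_right (show x ^ 2 / 16 ≤ 1 / 4 by nlinarith)
      (abs_nonneg B)]
  have a5 : 89 / 100 * t ≤ -(l * e) := by nlinarith [h5.2]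
  have a6 : -(l * e) ≤ 12 / 10 * t := by nlinarith [h5.1]
  rw [abs_le] at a4 ⊢
  exact ⟨by linarith, by linarith [a4.2], by linarith [a4.1], ⟨by linarith, by linarith⟩,
    by nlinarith [h4.2]⟩

/-- The shell R ≤ r ≤ R + 2. -/
theorem e2_mid (hM : MID) (h : Cv g z A s) {w : R4} (hw : w = deriv z s) (R1 : 1 ≤ R)
    (r1 : R ≤ rd (z s)) (r2 : rd (z s) ≤ R + 2) (l1 : 9 / 10 ≤ l) (l2 : l ≤ 11 / 10)
    (ht : |fderiv ℝ (fun x => g x w w) (z s) eT| ≤ c * (‖w‖ * ‖w‖))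
    (h1 : ∀ v w : R4, |g (z s) v w + v.1 * w.1 - ip v w| ≤ 1 / 1000 * (‖v‖ * ‖w‖))
    (h2 : |dr (z s) (deriv (deriv z) s)| ≤ 1 / 1000 / rd (z s) * ‖w‖ ^ 2 + 100 * A * (1 + ‖w‖))
    (m1 : -2 ≤ g (z s) w w) (m2 : g (z s) w w ≤ 0) (t0 : 0 ≤ w.1) :
    ‖w‖ ≤ 2 * w.1 ∧ ‖w‖ ≤ 4 * E2 g l R z s ∧ E2 g l R z s ≤ 2 * ‖w‖ ∧
      deriv (E2 g l R z) s ≤ c * ‖w‖ ^ 2 + 1 + 30 * A * (1 + ‖w‖) -
        (rd (z s) - R) ^ 2 / 16 * ‖w‖ ^ 2 / (3 * rd (z s)) := by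
  have r0 : 0 < rd (z s) := by linarith
  obtain ⟨E, d1, d2⟩ := e2_deriv hM h r0.ne' l R hw
  have e : max (rd (z s) - R) 0 = rd (z s) - R := max_eq_left (by linarith)
  have nT : ‖eT‖ = 1 := by simp [eT, Prod.norm_def]
  have iT : ∀ v, ip eT v = 0 := fun v => by simp [ip, eT]
  have k1 := h1 eT w
  have k2 := h1 eT eT
  rw [nT, iT, show eT.1 = 1 from rfl] at k1 k2
  simp only [one_mul, sub_zero] at k1 k2
  obtain ⟨a1, a2, a3, a4, a5⟩ := mid_alg (E := E2 g l R z s) (x := rd (z s) - R) (norm_nonneg w) t0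
    (norm_sq_le w) (ip_le w).1 (dr_le r0.ne' w).1 (h1 w w) k1 m1 m2 l1 l2 (by linarith)
    (by linarith) (by rw [E2, P354V.sq, e, hw])
  refine ⟨a1, a2, a3, ?_⟩
  have b1 := (abs_le.1 (d2 0 _ (by linarith) le_rfl
    (by nlinarith [(abs_le.1 k2).2, sq_nonneg l]) a4)).1
  have b2 : -(c * ‖w‖ ^ 2) ≤ l * (fderiv ℝ (fun x => g x w w) (z s) eT / 2) := by
    nlinarith [neg_abs_le (fderiv ℝ (fun x => g x w w) (z s) eT),
      abs_nonneg (fderiv ℝ (fun x => g x w w) (z s) eT)]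
  rw [d1.deriv, P354V.sq, e]
  have b3 := (abs_le.1 h2).1
  have A0 := h.A0
  have W0 := norm_nonneg w
  have i0 := (dr_le r0.ne' w).1
  generalize dr (z s) (deriv (deriv z) s) = u at *
  generalize dr (z s) w = B at *
  generalize ip w w = i at *
  generalize ‖w‖ = W at *
  obtain ⟨x, hx⟩ : ∃ x, x = rd (z s) - R := ⟨_, rfl⟩
  obtain ⟨ρ, hρ⟩ : ∃ ρ, ρ = (rd (z s))⁻¹ := ⟨_, rfl⟩
  have ρ0 : 0 ≤ ρ := by rw [hρ]; positivity
  have ρ1 : ρ ≤ 1 := by rw [hρ]; exact inv_le_one_of_one_le₀ (by linarith)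
  have x0 : 0 ≤ x := by linarith
  have f1 : x ^ 2 / 16 ≤ x / 8 := by nlinarith
  have f2 : x ^ 2 / 16 ≤ 1 / 4 := by nlinarith
  simp only [div_eq_mul_inv _ (rd (z s)), div_eq_mul_inv _ (3 * rd (z s)), mul_inv, ← hρ, ← hx] at *
  obtain ⟨f, hf⟩ : ∃ f, f = x ^ 2 / 16 := ⟨_, rfl⟩
  have f0 : 0 ≤ f := by rw [hf]; positivity
  rw [← hf] at f1 f2 ⊢
  have c1 : f * ρ * B ^ 2 ≤ x / 8 * B ^ 2 :=
    mul_le_mul_of_nonneg_right ((mul_le_of_le_one_right f0 ρ1).trans f1) (sq_nonneg B)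
  have c2 := mul_le_mul_of_nonneg_left b3 f0
  have c3 := mul_le_mul_of_nonneg_left a5 (mul_nonneg f0 ρ0)
  have c4 : f * (100 * A * (1 + W)) ≤ 1 / 4 * (100 * A * (1 + W)) :=
    mul_le_mul_of_nonneg_right f2 (by positivity)
  have c5 : f * ρ ≤ 1 := (mul_le_of_le_one_right f0 ρ1).trans (by linarith)
  have c6 : 0 ≤ f * ρ * W ^ 2 := by positivity
  have c7 : 0 ≤ A * W := by positivity
  linarith

end Vale.Agent.P354XY
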