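import Vale.Agent.P354XY.E2

/-!
The energy far out.
-/

open scoped ContDiff
open Set Filter Topology

noncomputable section

namespace Vale.Agent.P354XY

open Vale.Agent.P354n (R4)
open Vale.Agent.P354XE
open Vale.Agent.P354XA

variable {g : Tw} {y : ℝ → R4} {A s R : ℝ}

/-- The weights. -/
theorem wts {u r R s δ k σ : ℝ} (u1 : 1 ≤ u) (R1 : 1 ≤ R) (hr : R ≤ r) (k0 : 0 < k) (k1 : k ≤ 1)
    (kd : k ≤ δ) (s0 : 0 ≤ σ) (s1 : σ ≤ s) (s2 : σ ≤ 1 + k) :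
    R / r ≤ (R / r) ^ k ∧ (R / r) ^ k ≤ 1 ∧ 0 ≤ u ^ (-s) ∧ u ^ (-s) ≤ u ^ (-σ) ∧ u ^ (-σ) ≤ 1 ∧
      0 ≤ u ^ (-δ) + r ^ (-δ) ∧ u ^ (-δ) + r ^ (-δ) ≤ 2 ∧
      (u ^ (-δ) + r ^ (-δ)) / r ≤ 2 * (R / r) ^ k / r + u ^ (-σ) := by
  have r1 : 1 ≤ r := R1.trans hr
  have r0 : 0 < r := by linarith
  have u0 : 0 < u := by linarith
  have q1 : R / r ≤ 1 := div_le_one_of_le₀ hr r0.le
  have q0 : 0 < R / r := by positivity
  have a1 : r ^ (-k) ≤ (R / r) ^ k := by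
    rw [Real.rpow_neg r0.le, ← Real.inv_rpow r0.le]
    exact Real.rpow_le_rpow (by positivity) (by rw [inv_eq_one_div]; gcongr) k0.le
  have a2 : r ^ (-δ) ≤ r ^ (-k) := Real.rpow_le_rpow_of_exponent_le r1 (by linarith)
  have a3 : u ^ (-δ) ≤ u ^ (-k) := Real.rpow_le_rpow_of_exponent_le u1 (by linarith)
  have a4 : u ^ (-k) / r ≤ (R / r) ^ k / r + u ^ (-σ) := by
    rcases le_total r u with h | h
    · have := (Real.rpow_le_rpow_of_nonpos r0 h (neg_nonpos.2 k0.le)).trans a1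
      exact le_add_of_le_of_nonneg (by gcongr) (by positivity)
    · refine le_add_of_nonneg_of_le (by positivity) ?_
      calc u ^ (-k) / r ≤ u ^ (-k) / u := by gcongr
        _ = u ^ (-k - 1) := (Real.rpow_sub_one u0.ne' _).symm
        _ ≤ u ^ (-σ) := Real.rpow_le_rpow_of_exponent_le u1 (by linarith)
  have o : ∀ x e : ℝ, 1 ≤ x → 0 ≤ e → x ^ (-e) ≤ 1 := fun x e h1 h2 =>
    Real.rpow_le_one_of_one_le_of_nonpos h1 (neg_nonpos.2 h2)
  refine ⟨by simpa using Real.rpow_le_rpow_of_exponent_ge q0 q1 k1, Real.rpow_le_one q0.le q1 k0.le,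
    by positivity, Real.rpow_le_rpow_of_exponent_le u1 (by linarith), o _ _ u1 s0, by positivity,
    by linarith [o u δ u1 (by linarith), o r δ r1 (by linarith)], ?_⟩
  have a5 : u ^ (-δ) / r ≤ u ^ (-k) / r := by gcongr
  have a6 : r ^ (-δ) / r ≤ (R / r) ^ k / r := by gcongr; exact a2.trans a1
  rw [add_div, mul_div_assoc]
  linarith

/-- The energy in the part r ≥ R + 1. -/
def E3 (g : Tw) (β : Fin 3 → R4 → ℝ) (M a R k : ℝ) (y : ℝ → R4) (s : ℝ) : ℝ :=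
  R / (2 * rd (y s)) * -g (y s) (Nf β (y s)) (deriv y s) +
    (2 - (R / rd (y s)) ^ k - R / (2 * rd (y s))) * -g (y s) (Lo M a (y s)) (deriv y s)

theorem e3_deriv {β : Fin 3 → R4 → ℝ} {M a k : ℝ} (h : Cv g y A s) (R0 : 0 < R)
    (r0 : 0 < rd (y s)) (d1 : DifferentiableAt ℝ (Lo M a) (y s))
    (d2 : DifferentiableAt ℝ (Nf β) (y s)) {p w : R4} (hp : p = y s) (hw : w = deriv y s)
    {P Q : ℝ} (hP : P = R / (2 * rd p)) (hQ : Q = 2 - (R / rd p) ^ k - P) : ∃ E E',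
      HasDerivAt (E3 g β M a R k y) (-(P * P354XE.pi g (Nf β) p w + Q * P354XE.pi g (Lo M a) p w +
        P / rd p * dr p w * (-g p (Nf β p) w - -g p (Lo M a p) w) -
        k * (R / rd p) ^ k / rd p * dr p w * -g p (Lo M a p) w) - P * E - Q * E') s ∧
      (∀ c d, 0 ≤ c → P ^ 2 * g p (Nf β p) (Nf β p) ≤ c ^ 2 → |P * g p (Nf β p) w| ≤ d →
        |P * E| ≤ A * (c + 2 * d)) ∧
      ∀ c d, 0 ≤ Q → 0 ≤ c → Q ^ 2 * g p (Lo M a p) (Lo M a p) ≤ c ^ 2 →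
        |Q * g p (Lo M a p) w| ≤ d → |Q * E'| ≤ A * (c + 2 * d) := by
  subst hp hw
  obtain ⟨E, e1, e2⟩ := h.field d2
  obtain ⟨E', e3, e4⟩ := h.field d1
  have dr' := h.rd r0.ne'
  have dP := (hasDerivAt_const s R).div (dr'.const_mul 2) (by positivity)
  have dq := ((hasDerivAt_const s R).div dr' r0.ne').rpow_const (p := k)
    (Or.inl (div_pos R0 r0).ne')
  refine ⟨E, E', ((dP.mul e1.neg).add (((dq.const_sub 2).sub dP).mul e3.neg)).congr_deriv ?_,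
    fun c d => e2 P c d (by rw [hP]; positivity), e4 Q⟩
  simp only [Pi.div_apply, Pi.sub_apply, Pi.neg_apply]
  rw [hQ, hP, Real.rpow_sub_one (div_pos R0 r0).ne']
  field_simp
  ring

theorem e3_le {C ε r S Wt A B ξ F b la mu ga pL pN R P Q : ℝ}
    (h : Fa C ε r S Wt A B ξ F b la mu ga pL pN) (C1 : 1 ≤ C) (R0 : 0 < R) (e0 : 0 ≤ ε)
    (h1 : C ≤ 1 / 8 * R) (h2 : C * ε * R ≤ 1 / 8) (r1 : R ≤ r) (r2 : r ≤ R + 2) (S1 : S ≤ 1)
    (x0 : 0 ≤ ξ) (P1 : |P| ≤ 1) (Q1 : |Q| ≤ 2) :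
    P * (F * A + b * B - mu) + Q * (b * A - la) ≤ 10 * (|A| + |B| + ξ) := by
  have r0 : 0 < r := by linarith
  have a1 : C * (1 / r) ≤ 1 / 8 := by rw [mul_one_div, div_le_iff₀ r0]; linarith
  have a2 : C * ε ≤ 1 / 8 := by nlinarith [mul_nonneg (zero_le_one.trans C1) e0]
  have a3 : C * (ε * r * S) ≤ 1 / 2 := by
    have : 0 ≤ C * ε := by positivity
    nlinarith [mul_le_mul_of_nonneg_left S1 (mul_nonneg this r0.le)]
  have f : |F| ≤ 2 := by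
    have := abs_le.1 h.hF
    exact abs_le.2 ⟨by linarith [this.1], by linarith [this.2]⟩
  have b1 : |b| ≤ 2 := by
    have := abs_le.1 h.hb
    exact abs_le.2 ⟨by linarith [this.1], by linarith [this.2]⟩
  have l1 : |la| ≤ ξ := h.hl.trans (by
    rw [mul_comm, mul_div_assoc, ← mul_one_div C]; nlinarith)
  have m1 : |mu| ≤ ξ := h.hm.trans (by nlinarith)
  have k : ∀ x y c d : ℝ, |x| ≤ c → |y| ≤ d → |x * y| ≤ c * d := fun x y c d h1 h2 => by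
    rw [abs_mul]; exact mul_le_mul h1 h2 (abs_nonneg _) ((abs_nonneg _).trans h1)
  have c1 := abs_le.1 (k _ _ _ _ f (le_refl |A|))
  have c2 := abs_le.1 (k _ _ _ _ b1 (le_refl |B|))
  have c3 := abs_le.1 (k _ _ _ _ b1 (le_refl |A|))
  rw [abs_le] at l1 m1
  have c4 := k _ (F * A + b * B - mu) _ (2 * (|A| + |B| + ξ)) P1
    (abs_le.2 ⟨by linarith [c1.1, c2.1, m1.2], by linarith [c1.2, c2.2, m1.1]⟩)
  have c5 := k _ (b * A - la) _ (2 * (|A| + |B| + ξ)) Q1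
    (abs_le.2 ⟨by linarith [c3.1, l1.2, abs_nonneg B], by linarith [c3.2, l1.1, abs_nonneg B]⟩)
  linarith [(abs_le.1 c4).2, (abs_le.1 c5).2, abs_nonneg A, abs_nonneg B]

/-- The properties of the energy far out; A' and B are the derivatives of u and r, and n is the
size of w. -/
structure Out (K C k η R ε r c A A' B W e E d n : ℝ) : Prop where
  E0 : 0 ≤ E
  hA : |A'| ≤ K * E
  hB : |B| ≤ 2 * K * E * r
  der : ∀ γ, K * (C * ε * R) * c ≤ γ → γ ≤ η → d ≤ γ * A' * E + 1 + A * (2 + 10 * K * E)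
  sh : r ≤ R + 2 → |A'| ≤ n ∧ W ≤ 2 * C * n ∧ n ≤ 2 * C * W ∧ n ≤ 4 * K * E ∧ E ≤ 10 * n ∧
    (∀ γ, K * (C * ε * R) * c ≤ γ → γ ≤ η →
      d ≤ γ * A' * E + 1 + A * (2 + 10 * K * E) - k * n ^ 2 / (12 * K * r)) ∧
    ∀ f, 0 ≤ f → f ≤ 1 / 4 → B * (E - (e - f * B)) ≤ K * (C / R + C * ε * R) ^ 2 * n ^ 2

theorem bulk_le {k K r th P A B ξ : ℝ} (k0 : 0 < k) (K0 : 0 < K) (r0 : 0 < r) (P4 : 1 / 4 ≤ P)
    (t0 : P ≤ th) : k * (|A| + |B| + ξ) ^ 2 / (12 * K * r) ≤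
      k * (th * A ^ 2 + P * B ^ 2 + ξ ^ 2) / (K * r) := by
  rw [mul_assoc 12, mul_comm 12, ← div_div, div_le_iff₀ (by norm_num), div_mul_eq_mul_div,
    mul_assoc k]
  gcongr
  nlinarith [sq_abs A, sq_abs B, sq_nonneg (|A| - |B|), sq_nonneg (|A| - ξ), sq_nonneg (|B| - ξ),
    mul_le_mul_of_nonneg_right P4 (sq_nonneg B),
    mul_le_mul_of_nonneg_right (P4.trans t0) (sq_nonneg A), sq_nonneg ξ]

theorem out_alg {K C k η η' R ε r c A A' B ξ W e eN al E D x x' P th NN : ℝ} (K1 : 1 ≤ K)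
    (C1 : 1 ≤ C) (k0 : 0 < k) (h0 : η' ≤ η) (R8 : 8 ≤ R) (e0 : 0 ≤ ε) (e1 : ε * R ≤ 1 / 8)
    (hr : R ≤ r) (W0 : 0 ≤ W) (x0 : 0 ≤ ξ) (al0 : 0 ≤ al) (hP : P = R / (2 * r)) (w1 : R / r ≤ th)
    (w2 : th ≤ 1) (hE : E = P * eN + (2 - th - P) * al)
    (b1 : al + |A'| + P * |B| + P * ξ ≤ K * E) (b2 : P ^ 2 * |-NN| ≤ 2)
    (b3 : ∀ γ, K * (C * ε * R) * c ≤ γ → γ ≤ η →
      k * (th * A' ^ 2 + P * B ^ 2 + ξ ^ 2) / (K * r) - 1 - γ * A' * E ≤ D)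
    (b4 : ∀ f, r ≤ R + 2 → 0 ≤ f → f ≤ 1 / 4 →
      B * (E - (e - f * B)) ≤ K * (C / R + C * ε * R) ^ 2 * (|A'| + |B| + ξ) ^ 2)
    (d2 : ∀ c d, 0 ≤ c → P ^ 2 * NN ≤ c ^ 2 → |P * eN| ≤ d → |P * x| ≤ A * (c + 2 * d))
    (d3 : ∀ d, 0 ≤ 2 - th - P → |(2 - th - P) * al| ≤ d → |(2 - th - P) * x'| ≤ A * (0 + 2 * d))
    (n1 : W ≤ C * (1 + ε * r) * (|A'| + |B| + ξ)) (n2 : |A'| + |B| + ξ ≤ C * (1 + ε * r) * W)
    (n3 : r ≤ R + 2 → |P| ≤ 1 → |2 - th - P| ≤ 2 → E ≤ 10 * (|A'| + |B| + ξ)) :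
    Out K C k η' R ε r c A A' B W e E (-D - P * x - (2 - th - P) * x') (|A'| + |B| + ξ) := by
  have R0 : 0 < R := by linarith only [R8]
  have r0 : 0 < r := R0.trans_le hr
  have P0 : 0 < P := by rw [hP]; positivity
  have P1 : P * (2 * r) = R := by rw [hP]; field_simp
  have P2 : P ≤ 1 / 2 := by rw [hP, div_le_iff₀ (by positivity)]; linarith only [hr]
  have t0 : 2 * P ≤ th := by rw [hP]; exact le_trans (by field_simp; rfl) w1
  have p1 := mul_nonneg P0.le (abs_nonneg B)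
  have p2 := mul_nonneg P0.le x0
  have p3 := abs_nonneg A'
  have p4 := abs_nonneg B
  have K0 : 0 ≤ K * E := by linarith only [b1, p1, p2, p3, al0]
  have K3 : 0 < K := one_pos.trans_le K1
  have E0 : 0 ≤ E := nonneg_of_mul_nonneg_right K0 K3
  have K2 : E ≤ K * E := le_mul_of_one_le_left E0 K1
  have Q0 : 0 ≤ 2 - th - P := by linarith only [w2, P2]
  have Q2 : 2 - th - P ≤ 2 := by linarith only [t0, P0]
  have q1 : |(2 - th - P) * al| ≤ 2 * (K * E) := by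
    rw [abs_mul, abs_of_nonneg Q0, abs_of_nonneg al0]
    exact mul_le_mul Q2 (by linarith only [b1, p1, p2, p3]) al0 two_pos.le
  have q2 := (abs_le.1 (d3 _ Q0 q1)).1
  have q3 := (abs_le.1 (d2 2 (3 * (K * E)) two_pos.le (by
    linarith only [mul_le_mul_of_nonneg_left (neg_le_abs (-NN)) (sq_nonneg P), b2])
    (abs_le.2 ⟨by linarith only [(abs_le.1 q1).2, hE, E0, K0],
      by linarith only [(abs_le.1 q1).1, hE, K2]⟩))).1
  have bk : 0 ≤ k * (th * A' ^ 2 + P * B ^ 2 + ξ ^ 2) / (K * r) := by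
    have : 0 ≤ th := by linarith only [t0, P0]
    positivity
  have c1 : r ≤ R + 2 → C * (1 + ε * r) ≤ 2 * C := fun r2 => by
    have : ε * r ≤ 1 := by
      nlinarith only [mul_le_mul_of_nonneg_left r2 e0, e1, mul_le_mul_of_nonneg_left R8 e0]
    nlinarith only [this, C1]
  have c2 : r ≤ R + 2 → 1 / 4 ≤ P := fun r2 => by
    rw [hP, le_div_iff₀ (by positivity)]; linarith only [r2, R8]
  have c3 : |B| ≤ 2 * K * E * r := by
    have : P * |B| * r ≤ K * E * r :=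
      mul_le_mul_of_nonneg_right (by linarith only [b1, p2, p3, al0]) r0.le
    have e : P * |B| * r * 2 = |B| * R := by rw [← P1]; ring
    linarith only [this, e, mul_le_mul_of_nonneg_left R8 p4, p4]
  refine ⟨E0, by linarith only [b1, p1, p2, al0], c3, fun γ g1 g2 => by
    linarith only [b3 γ g1 (g2.trans h0), bk, q2, q3], fun r2 => ⟨by linarith only [p4, x0],
      n1.trans (mul_le_mul_of_nonneg_right (c1 r2) (by positivity)),
      n2.trans (mul_le_mul_of_nonneg_right (c1 r2) W0), ?_, n3 r2 (abs_le.2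
        ⟨by linarith only [P0], by linarith only [P2]⟩) (abs_le.2 ⟨by linarith only [Q0], Q2⟩),
      fun γ g1 g2 => ?_, fun f => b4 f r2⟩⟩
  · linarith only [mul_le_mul_of_nonneg_right (c2 r2) p4, mul_le_mul_of_nonneg_right (c2 r2) x0,
      b1, al0, p3]
  · have := bulk_le (A := A') (B := B) (ξ := ξ) (th := th) k0 K3 r0 (c2 r2)
      (by linarith only [t0, P0])
    linarith only [b3 γ g1 (g2.trans h0), this, q2, q3]

/-- **The far part.** -/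
theorem e3 (hA : FA) (hB : FB) (m : ℝ) {k : ℝ} (k0 : 0 < k) (k1 : k ≤ 1 / 4) : ∃ K ≥ 1, ∃ C ≥ 1,
    ∃ η > 0, ∀ (M a s' δ σ ε R : ℝ) (g : Tw) (β : Fin 3 → R4 → ℝ) (y : ℝ → R4) (A s : ℝ) (p w : R4),
      |a| < M → M ≤ m → k ≤ δ → 0 ≤ σ → σ ≤ s' → σ ≤ 1 + k → 0 ≤ ε → C ≤ η * R → C * ε * R ≤ η →
      p = y s → w = deriv y s → R ≤ rd p → Cv g y A s → Far M a s' δ ε 2 g β p → -2 ≤ g p w w →
      g p w w < 0 → g p (Lo M a p) w ≤ 0 → DifferentiableAt ℝ (E3 g β M a R k y) s ∧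
        ∃ n, Out K C k η R ε (rd p) (uw M a p ^ (-σ)) A (w.1 - lo1 M a (rd p) * dr p w) (dr p w)
          ‖w‖ (-g p eT w) (E3 g β M a R k y s) (deriv (E3 g β M a R k y) s) n := by
  obtain ⟨C, C1, hA⟩ := hA m
  obtain ⟨K, K1, hB⟩ := hB
  obtain ⟨η, η0, hB⟩ := hB C C1 k k0 k1
  refine ⟨K, K1, C, C1, min η (1 / 8), by positivity, ?_⟩
  intro M a s' δ σ ε R g β y A s p w ha hm kd s0 s1 s2 e0 h1 h2 hp hw hr h hF m1 m2 al0
  obtain ⟨h2, h2'⟩ := le_min_iff.1 h2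
  have R0 : 0 < R := by
    by_contra! k3
    nlinarith [mul_nonneg (le_of_lt (lt_min η0 (show (0 : ℝ) < 1 / 8 by norm_num))) (neg_nonneg.2 k3)]
  have h1' := h1.trans (mul_le_mul_of_nonneg_right (min_le_right _ _) R0.le)
  replace h1 := h1.trans (mul_le_mul_of_nonneg_right (min_le_left _ _) R0.le)
  have R8 : 8 ≤ R := by linarith
  have e1 : ε * R ≤ 1 / 8 := by nlinarith [mul_nonneg e0 R0.le]
  have gd : Gd g p := hp ▸ h.gd
  have r0 : 0 < rd p := by linarith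
  obtain ⟨dL, dN, W, ξ, x0, ew, fa, eN, n1, n2⟩ := hA M a s' δ ε g β p w _ _ ha hm (s0.trans s1)
    (k0.le.trans kd) e0 (by nlinarith) (by linarith) gd hF rfl rfl
  obtain ⟨E, E', d1, d2, d3⟩ := e3_deriv (k := k) h R0 (hp ▸ r0) (hp ▸ dL) (hp ▸ dN) hp hw rfl rfl
  obtain ⟨w1, w2, w3, w4, w5, w6, w7, w8⟩ := wts (u := uw M a p) (s := s')
    (Real.one_le_sqrt.2 (le_add_of_nonneg_right (sq_nonneg _))) (by linarith) hr k0 (by linarith)
    kd s0 s1 s2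
  have e3 : E3 g β M a R k y s = R / (2 * rd p) * -g p (Nf β p) w +
      (2 - (R / rd p) ^ k - R / (2 * rd p)) * -g p (Lo M a p) w := by rw [E3, ← hp, ← hw]
  have L0 := hF.gauge.self_of_nhds.1
  have bl := gd.bil
  generalize w.1 - lo1 M a (rd p) * dr p w = A' at *
  generalize dr p w = B at *
  have al : -g p (Lo M a p) w = -g p (Lo M a p) (Nf β p) * A' - g p (Lo M a p) W := by
    rw [ew]; simp only [bl.add_right, bl.smul_right, L0]; ring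
  have en : -g p (Nf β p) w = -g p (Nf β p) (Nf β p) * A' + -g p (Lo M a p) (Nf β p) * B -
      g p (Nf β p) W := by
    rw [ew]; simp only [bl.add_right, bl.smul_right, gd.symm (Nf β p) (Lo M a p)]; ring
  obtain ⟨b1, b2, b3, b4⟩ := hB R ε _ _ _ _ _ _ _ _ _ _ _ _ _ _ _ (g p w w) _ _ _ _ _ R0 h1 e0 h2 hr
    w1 w2 w3 w4 w5 w6 w7 w8 x0 fa (by
      rw [ew]
      simp only [bl.add_right, bl.smul_right, bl.add_left, bl.smul_left, L0,
        gd.symm (Nf β p) (Lo M a p), gd.symm W (Lo M a p), gd.symm W (Nf β p)]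
      ring) m1 m2 rfl al (by linarith) en e3 rfl
  refine ⟨d1.differentiableAt, |A'| + |B| + ξ, ?_⟩
  rw [d1.deriv]
  exact out_alg K1 C1 k0 (min_le_left _ _) R8 e0 e1 hr (norm_nonneg w) x0 (neg_nonneg.2 al0) rfl w1
    w2 e3 b1 b2 b3 (fun f r2 f0 f1 => b4 _ f r2 f0 f1 (by
      rw [← abs_neg]; exact le_of_eq_of_le (congrArg _ (by ring)) eN))
    (fun c d c0 k1 k2 => d2 c d c0 k1 (by rwa [mul_neg, abs_neg] at k2))
    (fun d k1 k2 => d3 0 d k1 le_rfl (by rw [L0]; simp) (by rwa [mul_neg, abs_neg] at k2)) n1 n2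
    fun r2 k1 k2 => by
      rw [e3, al, en]
      exact e3_le fa C1 R0 e0 h1' h2' hr r2 (w4.trans w5) x0 k1 k2

end Vale.Agent.P354XY
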