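import Vale.Agent.P354XY.Hul1

/-!
The function v on the whole initial slice.
-/

open scoped ContDiff InnerProductSpace
open Set Filter Topology Function

noncomputable section

namespace Vale.Agent.P354XY

open Vale.Agent.P354H (X3)
open Vale.Agent.P354I (X)
open Vale.Agent.P354E (sg)
open Vale.Agent.P354PU (JG)
open Vale.Agent.P354XB (Win)
open Vale.Agent.P354XP (Cht Hull dir)
open Vale.Agent.P354YV (Sp)
open Vale.Agent.P354KX

theorem hul : HUL := by
  intro n R w c c0 G ρ j w0 c00 H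
  have hG := fun σ => (H σ).1
  have hρ := fun σ => (H σ).2.1
  have hC := fun σ => (H σ).2.2.1
  have hM := fun σ => (H σ).2.2.2.1
  have cov : ∀ σ, ∀ z ∈ Win R w 6, 1 / 2 ≤ ‖z.2‖ →
      ∃ z' ∈ Win R w 6, z'.1 = z.1 ∧ ‖z'.2‖ ≤ 2 ∧ j (!σ) z' = j σ z := fun σ z hz k => by
    obtain ⟨z', a, b, e⟩ := ((H σ).2.2.2.2 z hz).2 k
    exact ⟨z', ⟨a ▸ hz.1, by linarith⟩, a, b, e⟩
  have sm0 : ∀ z ∈ Win R w 6, ∀ z' ∈ Win R w 6, j true z = j false z' → z.1 = z'.1 := by
    intro z hz z' hz' e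
    rcases le_total (1 / 2) ‖z.2‖ with k | k
    · obtain ⟨u, hu, a, -, b⟩ := cov true z hz k
      rw [← a, (hC false).inj hu hz' (b.trans e)]
    rcases le_total (1 / 2) ‖z'.2‖ with k' | k'
    · obtain ⟨u, hu, a, -, b⟩ := cov false z' hz' k'
      rw [← a, (hC true).inj hu hz (b.trans e.symm)]
    have a := ((H true).2.2.2.2 z hz).1 k
    have b := ((H false).2.2.2.2 z' hz').1 k'
    simp only [sg, cond_true, cond_false, e] at a b
    linarith
  have sam : ∀ σ σ', ∀ z ∈ Win R w 6, ∀ z' ∈ Win R w 6, j σ z = j σ' z' → z.1 = z'.1 := by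
    intro σ σ' z hz z' hz' e
    cases σ <;> cases σ'
    exacts [congrArg _ ((hC _).inj hz hz' e), (sm0 z' hz' z hz e.symm).symm, sm0 z hz z' hz' e,
      congrArg _ ((hC _).inj hz hz' e)]
  set v0 := R - 11 / 4 * w with hv0
  set v1 := R + 15 / 4 * w with hv1
  have d0 : 0 < v1 - v0 := by linarith
  have nz : Nz R w ⊆ Win R w 6 := fun z hz =>
    ⟨⟨by linarith [hz.1.1], by linarith [hz.1.2]⟩, by linarith [hz.2]⟩
  have clm : ∀ x, cl R w x ∈ Icc v0 v1 := fun x =>
    ⟨le_max_left _ _, max_le (by linarith) (min_le_right _ _)⟩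
  -- the function modulo the integers
  classical
  set φ : X → ℝ := fun y => if h : ∃ z ∈ Win R w 6, ∃ σ, j σ z = y then
    (cl R w h.choose.1 - v0) / (v1 - v0) else 0 with hφ
  have φj : ∀ σ, ∀ z ∈ Win R w 6, φ (j σ z) = (cl R w z.1 - v0) / (v1 - v0) := fun σ z hz => by
    have h : ∃ z' ∈ Win R w 6, ∃ σ', j σ' z' = j σ z := ⟨z, hz, σ, rfl⟩
    obtain ⟨a, σ', b⟩ := h.choose_spec
    simp only [hφ, dif_pos h, sam σ' σ _ a z hz b]
  set K : Set X := ⋃ σ, j σ '' Nz R w with hK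
  have cK : IsClosed K := isClosed_iUnion_of_finite fun σ =>
    ((cpt_box _ _ _).image_of_continuousOn ((hC σ).sm.continuousOn.mono nz)).isClosed
  have inK : ∀ σ, ∀ z ∈ Win R w 6, z.1 ∈ Icc v0 v1 → j σ z ∈ K := fun σ z hz k => by
    rcases le_total ‖z.2‖ 2 with a | a
    · exact mem_iUnion.2 ⟨σ, z, ⟨k, a⟩, rfl⟩
    · obtain ⟨u, -, b, d, e⟩ := cov σ z hz (by linarith)
      exact mem_iUnion.2 ⟨!σ, u, ⟨b ▸ k, d⟩, e⟩
  have off : ∀ y ∉ K, ∃ m : ℤ, φ y = m := fun y hy => by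
    by_cases h : ∃ z ∈ Win R w 6, ∃ σ, j σ z = y
    · obtain ⟨z, hz, σ, rfl⟩ := h
      rw [φj σ z hz]
      rcases le_total z.1 v0 with a | a
      · exact ⟨0, by rw [cl, max_eq_left ((min_le_left _ _).trans a)]; simp [hv0]⟩
      rcases le_total z.1 v1 with b | b
      · exact absurd (inK σ z hz ⟨a, b⟩) hy
      · exact ⟨1, by rw [cl, min_eq_right b, max_eq_right (by linarith), div_self d0.ne']; simp⟩
    · exact ⟨0, by simp only [hφ, dif_neg h, Int.cast_zero]⟩
  have cφ : ∀ σ, ContinuousOn φ (j σ '' Win R w 6) := fun σ => by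
    have k := (cht_inv (hC σ) (hG σ)).2.continuousOn
    have cc : Continuous fun x : X3 => (cl R w x.1 - v0) / (v1 - v0) := by unfold cl; fun_prop
    refine (cc.comp_continuousOn k).congr ?_
    rintro _ ⟨z, hz, rfl⟩
    simp only [Function.comp, φj σ z hz, (hC σ).inj.leftInvOn_invFunOn hz]
  obtain ⟨F, cF, F0, hF⟩ := lift φ fun y => by
    by_cases hy : y ∈ K
    · obtain ⟨σ, z, hz, rfl⟩ := mem_iUnion.1 hy
      exact ⟨φ, (cφ σ).continuousAt ((cht_inv (hC σ) (hG σ)).1.mem_nhds ⟨z, nz hz, rfl⟩),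
        .of_forall fun x => ⟨0, by simp⟩⟩
    · exact ⟨0, continuousAt_const, mem_of_superset (cK.isOpen_compl.mem_nhds hy) fun x hx => by
        simpa using off x hx⟩
  have j0 : ∀ σ, ∀ z ∈ Win R w 6, j σ z ≠ 0 := fun σ z hz =>
    norm_pos_iff.1 ((hρ σ).trans_le ((hC σ).loc z hz).1)
  have F00 : F 0 = 0 := by
    rw [F0]
    exact dif_neg fun ⟨z, hz, σ, e⟩ => j0 σ z hz e
  have Fo : ∀ y ∉ K, ∃ m : ℤ, F y = m := fun y hy => by
    obtain ⟨a, e⟩ := off y hy
    obtain ⟨b, e'⟩ := hF y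
    exact ⟨a + b, by rw [e', e, Int.cast_add]⟩
  -- one constant on both charts
  set zz : X3 := (v0, 1, 1) with hzz
  have z1 : ‖zz.2‖ = 1 := by simp [hzz]
  have zW : zz ∈ Win R w 6 := ⟨⟨by linarith, by linarith⟩, by rw [z1]; norm_num⟩
  obtain ⟨k, hk⟩ := hF (j true zz)
  have cs : ∀ σ, ∀ z ∈ Win R w 6, ∀ z' ∈ Win R w 6,
      F (j σ z) - φ (j σ z) = F (j σ z') - φ (j σ z') := fun σ z hz z' hz' =>
    cst (f := fun y => F y - φ y) ((win_cvx R w 6).isPreconnected.image _ (hC σ).sm.continuousOn)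
      (cF.continuousOn.sub (cφ σ)) (fun y _ => (hF y).imp fun m e => by rw [e]; ring)
      ⟨z, hz, rfl⟩ ⟨z', hz', rfl⟩
  obtain ⟨zu, uW, -, -, ue⟩ := cov true zz zW (by rw [z1]; norm_num)
  have Fk : ∀ σ, ∀ z ∈ Win R w 6, F (j σ z) = (cl R w z.1 - v0) / (v1 - v0) + k := fun σ z hz => by
    rw [← φj σ z hz]
    cases σ
    · have := cs false z hz zu uW
      rw [show j false zu = j true zz from ue] at this
      linarith
    · linarith [cs true z hz zz zW]
  have rr : ∀ σ σ', ρ σ' ≤ 2 * ρ σ := by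
    have a := (hC true).loc zz zW
    have b := (hC false).loc zu uW
    rw [show j false zu = j true zz from ue] at b
    intro σ σ'
    cases σ <;> cases σ' <;> linarith [a.1, a.2.1, b.1, b.2.1, hρ true, hρ false]
  -- monotonicity
  have mono : ∀ σ x y γ, Pth (2 * c0 * ρ σ) x y γ → ∀ s ∈ Icc (0 : ℝ) 1, ∀ᶠ t in 𝓝[>] s,
      F (γ s) ≤ F (γ t) := fun σ x y γ p s hs => by
    by_cases hy : γ s ∈ K
    · obtain ⟨σ', z, hz, e⟩ := mem_iUnion.1 hy
      filter_upwards [lab_up (hC σ') (hG σ') (hρ σ') (hM σ')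
        (by nlinarith [rr σ σ'] : c0 * ρ σ' ≤ 2 * c0 * ρ σ) p hs (nz hz) e] with t ⟨z', a, b, d⟩
      rw [← e, ← b, Fk σ' z (nz hz), Fk σ' z' a]
      gcongr
      exact cl_mono R w d
    · have cc := (cF.comp p.df.continuous).continuousAt (x := s)
      filter_upwards [nhdsWithin_le_nhds (p.df.continuous.continuousAt
        (cK.isOpen_compl.mem_nhds hy)), nhdsWithin_le_nhds (cc.eventually
          (lt_mem_nhds (sub_one_lt _)))] with t a b
      obtain ⟨m, e⟩ := Fo _ hy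
      obtain ⟨m', e'⟩ := Fo _ a
      simp only [Function.comp, e, e'] at b ⊢
      have : m - 1 < m' := by exact_mod_cast b
      exact_mod_cast (by omega : m ≤ m')
  have mn : ∀ σ x y γ, Pth (2 * c0 * ρ σ) x y γ → ∀ s ∈ Icc (0 : ℝ) 1,
      F x ≤ F (γ s) ∧ F (γ s) ≤ F y := fun σ x y γ p s hs => by
    have cc := cF.comp p.df.continuous
    refine ⟨ind01 (P := fun s => F x ≤ F (γ s)) ((isClosed_le continuous_const cc).inter
      isClosed_Icc) (by rw [p.z]) (fun s hs a => (mono σ x y γ p s (Ico_subset_Icc_self hs)).mono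
        fun t b _ => a.trans b) s hs, ?_⟩
    rw [← p.o]
    exact ((isClosed_le continuous_const cc).inter isClosed_Icc).Icc_subset_of_forall_mem_nhdsWithin
      (le_refl (F (γ s))) (fun u hu => (mono σ x y γ p u ⟨hs.1.trans hu.2.1, hu.2.2.le⟩).mono
        fun t b => le_trans hu.1 b) (right_mem_Icc.2 hs.2)
  have l0 : ∀ σ, 0 ≤ 2 * c0 * ρ σ := fun σ => by have := hρ σ; positivity
  have iv : ∀ y (m : ℤ), (m : ℝ) + 1 / 2 ∈ uIcc 0 (F y) → m = k := fun y m hm => by
    obtain ⟨x, e⟩ : ∃ x, F x = m + 1 / 2 := by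
      rw [← F00] at hm
      rcases le_total (F 0) (F y) with q | q
      · exact intermediate_value_univ 0 y cF (uIcc_of_le q ▸ hm)
      · exact intermediate_value_univ y 0 cF (uIcc_of_ge q ▸ hm)
    by_cases hx : x ∈ K
    · obtain ⟨σ, z, hz, rfl⟩ := mem_iUnion.1 hx
      rw [Fk σ z (nz hz)] at e
      have a := div_nonneg (sub_nonneg.2 (clm z.1).1) d0.le
      have b := (div_le_one d0).2 (sub_le_sub_right (clm z.1).2 v0)
      have a' : (k : ℝ) < m + 1 := by linarith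
      have b' : (m : ℝ) < k + 1 := by linarith
      have a'' : k < m + 1 := by exact_mod_cast a'
      have b'' : m < k + 1 := by exact_mod_cast b'
      omega
    · obtain ⟨i, e'⟩ := Fo x hx
      have : (2 * i : ℝ) = 2 * m + 1 := by linarith
      have : 2 * i = 2 * m + 1 := by exact_mod_cast this
      omega
  have Fz : F (j true zz) = k := by
    rw [Fk true zz zW, cl, max_eq_left (min_le_left _ _)]; simp [hv0]
  have k0 : k = 0 := by
    have y0 := norm_pos_iff.2 (j0 true zz zW)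
    have a : F 0 ≤ F (j true zz) := by
      have t1 : Tendsto (fun ε : ℝ => F (ε • j true zz)) (𝓝[>] 0) (𝓝 (F 0)) :=
        ((cF.comp (continuous_id.smul continuous_const)).tendsto' 0 _ (by simp)).mono_left
          nhdsWithin_le_nhds
      refine le_of_tendsto t1 (mem_of_superset (Ioo_mem_nhdsGT one_pos) fun ε hε => ?_)
      have e : ‖ε • j true zz‖ = ε * ‖j true zz‖ := by rw [norm_smul, Real.norm_of_nonneg hε.1.le]
      have lt : ‖ε • j true zz‖ < ‖j true zz‖ := by rw [e]; exact mul_lt_of_lt_one_left y0 hε.2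
      obtain ⟨γ, p⟩ := ex_pth (l0 true) (smul_ne_zero hε.1.ne' (j0 true zz zW)) lt (by
        have : dir (ε • j true zz) = dir (j true zz) := by
          rw [dir, e, smul_smul, mul_inv, mul_right_comm, inv_mul_cancel₀ hε.1.ne', one_mul, dir]
        rw [this, sub_self, norm_zero, mul_zero, add_zero]
        exact lt.le)
      simpa [p.o] using (mn true _ _ γ p 1 (right_mem_Icc.2 zero_le_one)).1
    rw [F00, Fz] at a
    have a' : 0 ≤ k := by exact_mod_cast a
    by_contra ne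
    have b : (1 : ℝ) ≤ k := by exact_mod_cast (by omega : 1 ≤ k)
    exact ne (iv (j true zz) 0 (by rw [Fz]; exact mem_uIcc_of_le (by norm_num) (by
      simp; linarith))).symm
  subst k0
  have fj : ∀ σ, ∀ z ∈ Win R w 6, v0 + (v1 - v0) * F (j σ z) = cl R w z.1 := fun σ z hz => by
    rw [Fk σ z hz, Int.cast_zero, add_zero, mul_div_cancel₀ _ d0.ne']; ring
  refine ⟨fun y => v0 + (v1 - v0) * F y, by fun_prop, fj, fun y _ hy => ?_, fun y _ hy => ?_,
    fun σ y ⟨x, ⟨z0, hz0, ex⟩, hx⟩ hy => ?_⟩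
  · obtain ⟨m, e⟩ := Fo y fun a => let ⟨σ, b⟩ := mem_iUnion.1 a; hy σ b
    have a : 0 ≤ m := by
      by_contra b
      have b' : (m : ℝ) ≤ -1 := by exact_mod_cast (by omega : m ≤ -1)
      exact absurd (iv y (-1) (by rw [e]; exact mem_uIcc_of_ge (by simp; linarith) (by norm_num)))
        (by norm_num)
    have b : m ≤ 1 := by
      by_contra b
      have b' : (2 : ℝ) ≤ m := by exact_mod_cast (by omega : 2 ≤ m)
      exact absurd (iv y 1 (by rw [e]; exact mem_uIcc_of_le (by norm_num) (by simp; linarith)))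
        (by norm_num)
    obtain rfl | rfl : m = 0 ∨ m = 1 := by omega
    · left; simp [e]
    · right; simp [e]
  · have := cst (S := ⋂ σ, Metric.ball 0 (ρ σ)) (convex_iInter fun σ => convex_ball _ _).isPreconnected
      cF.continuousOn (fun x hx => Fo x fun a => by
        obtain ⟨σ, z, hz, rfl⟩ := mem_iUnion.1 a
        exact absurd ((hC σ).loc z (nz hz)).1 (not_le.2 (mem_ball_zero_iff.1 (mem_iInter.1 hx σ))))
      (mem_iInter.2 fun σ => mem_ball_zero_iff.2 (hy σ))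
      (mem_iInter.2 fun σ => Metric.mem_ball_self (hρ σ))
    simp [this, F00]
  have sW : z0 ∈ Win R w 6 := ⟨⟨by linarith [hz0.1.1], by linarith [hz0.1.2]⟩, by linarith [hz0.2]⟩
  have x0 : x ≠ 0 := ex ▸ j0 σ z0 sW
  by_cases xy : y = x
  · exact ⟨z0, ⟨by linarith [hz0.1.1], by linarith [hz0.1.2]⟩, by linarith [hz0.2], xy.trans ex.symm⟩
  have l1 : 0 < 4 * c0 * ρ σ := by have := hρ σ; positivity
  have lt : ‖x‖ < ‖y‖ := by
    refine lt_of_le_of_ne (le_trans (le_add_of_nonneg_right (by positivity)) hx) fun e => xy ?_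
    have a : ‖dir y - dir x‖ ≤ 0 := by nlinarith [norm_nonneg (dir y - dir x)]
    have b := sub_eq_zero.1 (norm_le_zero_iff.1 a)
    rw [dir, dir, e] at b
    exact smul_right_injective _ (inv_ne_zero (e ▸ norm_ne_zero_iff.2 x0)) b
  obtain ⟨γ, p⟩ := ex_pth (l0 σ) x0 lt (by linarith)
  have fx : R - w / 4 ≤ v0 + (v1 - v0) * F x := by
    rw [← ex, fj σ z0 sW]
    exact le_max_of_le_right (le_min hz0.1.1 (by linarith))
  have key : ∀ s ∈ Icc (0 : ℝ) 1, ∀ z ∈ Win R w 6, j σ z = γ s →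
      z.1 ∈ Icc (R - w / 4) (R + 5 / 2 * w) ∧ ‖z.2‖ < 2 := fun s hs z hz e => by
    obtain ⟨a, b⟩ := mn σ x y γ p s hs
    have a' := mul_le_mul_of_nonneg_left a d0.le
    have b' := mul_le_mul_of_nonneg_left b d0.le
    have e' := fj σ z hz
    rw [e, cl] at e'
    refine ⟨⟨?_, ?_⟩, lt_of_not_ge fun k => (hM σ).far z hz k ⟨x, ⟨z0, hz0, ex⟩, ?_⟩⟩
    · rcases max_choice v0 (min z.1 v1) with q | q
      · linarith
      · linarith [min_le_left z.1 v1]
    · rcases min_choice z.1 v1 with q | q <;> linarith [le_max_right v0 (min z.1 v1)]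
    · have := p.hull s hs
      rw [e]
      nlinarith [norm_nonneg (dir (γ s) - dir x), mul_pos c00 (hρ σ)]
  have bW : {z : X3 | z.1 ∈ Icc (R - w / 4) (R + 5 / 2 * w) ∧ ‖z.2‖ ≤ 2} ⊆ Win R w 6 := fun z hz =>
    ⟨⟨by linarith [hz.1.1], by linarith [hz.1.2]⟩, by linarith [hz.2]⟩
  obtain ⟨z, hz, e⟩ := ind01 (P := fun s => γ s ∈ j σ ''
    {z : X3 | z.1 ∈ Icc (R - w / 4) (R + 5 / 2 * w) ∧ ‖z.2‖ ≤ 2})
    (((((cpt_box _ _ _).image_of_continuousOn ((hC σ).sm.continuousOn.mono bW)).isClosed).preimage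
      p.df.continuous).inter isClosed_Icc)
    ⟨z0, ⟨⟨hz0.1.1, by linarith [hz0.1.2]⟩, by linarith [hz0.2]⟩, ex.trans p.z.symm⟩
    (fun s _ a => by
      filter_upwards [nhdsWithin_le_nhds (p.df.continuous.continuousAt
        ((cht_inv (hC σ) (hG σ)).1.mem_nhds (image_mono bW a)))] with t ⟨z, hz, e⟩ ht
      exact ⟨z, ⟨(key t ht z hz e).1, (key t ht z hz e).2.le⟩, e⟩)
    1 (right_mem_Icc.2 zero_le_one)
  exact ⟨z, ⟨by linarith [hz.1.1], hz.1.2⟩, (key 1 (right_mem_Icc.2 zero_le_one) z (bW hz) e).2,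
    (e.trans p.o).symm⟩

end Vale.Agent.P354XY
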