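import Mathlib

/-!
Real lifts of functions which are continuous modulo the integers, and arcs of great circles.
-/

open Set Filter Topology
open scoped InnerProductSpace

noncomputable section

namespace Vale.Agent.P354XY

/-- A function which is continuous modulo the integers has a continuous lift. -/
theorem lift {E : Type} [NormedAddCommGroup E] [NormedSpace ℝ E] (φ : E → ℝ)
    (h : ∀ y, ∃ ψ : E → ℝ, ContinuousAt ψ y ∧ ∀ᶠ x in 𝓝 y, ∃ n : ℤ, φ x = ψ x + n) :
    ∃ f : E → ℝ, Continuous f ∧ f 0 = φ 0 ∧ ∀ y, ∃ n : ℤ, f y = φ y + n := by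
  have c : Continuous fun y => ((φ y : ℝ) : AddCircle (1 : ℝ)) :=
    continuous_iff_continuousAt.2 fun y => by
      obtain ⟨ψ, a, b⟩ := h y
      refine ((AddCircle.continuous_mk' (1 : ℝ)).continuousAt.comp a).congr ?_
      filter_upwards [b] with x ⟨n, e⟩
      have : ((n : ℝ) : AddCircle (1 : ℝ)) = 0 :=
        (AddCircle.coe_eq_zero_iff (1 : ℝ)).2 ⟨n, by simp⟩
      simp only [Function.comp, e]
      rw [AddCircle.coe_add, this, add_zero]
      rfl
  obtain ⟨F, ⟨a, b⟩, -⟩ := (AddCircle.isCoveringMap_coe (1 : ℝ)).existsUnique_continuousMap_lifts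
    (⟨_, c⟩ : C(E, AddCircle (1 : ℝ))) 0 (φ 0) rfl
  refine ⟨F, F.continuous, a, fun y => ?_⟩
  have e : ((F y : ℝ) : AddCircle (1 : ℝ)) = (φ y : ℝ) := congrFun b y
  rw [← sub_eq_zero, ← AddCircle.coe_sub, AddCircle.coe_eq_zero_iff] at e
  obtain ⟨n, e⟩ := e
  exact ⟨n, by rw [zsmul_eq_mul, mul_one] at e; linarith⟩

/-- Integer valued continuous functions are constant on connected sets. -/
theorem cst {E : Type} [TopologicalSpace E] {S : Set E} (hS : IsPreconnected S) {f : E → ℝ}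
    (c : ContinuousOn f S) (h : ∀ y ∈ S, ∃ n : ℤ, f y = n) {x y : E} (hx : x ∈ S) (hy : y ∈ S) :
    f x = f y := by
  wlog k : f x ≤ f y generalizing x y
  · exact (this hy hx (le_of_not_ge k)).symm
  obtain ⟨n, a⟩ := h x hx
  obtain ⟨m, b⟩ := h y hy
  by_contra ne
  have nm : n + 1 ≤ m := by
    have : (n : ℝ) < m := by rw [← a, ← b]; exact lt_of_le_of_ne k ne
    exact_mod_cast this
  have nm' : (n : ℝ) + 1 ≤ m := by exact_mod_cast nm
  obtain ⟨z, hz, e⟩ := hS.intermediate_value hx hy c (show (n : ℝ) + 1 / 2 ∈ Icc (f x) (f y) from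
    ⟨by linarith, by linarith⟩)
  obtain ⟨j, d⟩ := h z hz
  have : (2 * j : ℝ) = 2 * n + 1 := by linarith
  have : 2 * j = 2 * n + 1 := by exact_mod_cast this
  omega

/-- Two unit vectors in a space of dimension at least two lie on a great circle. -/
theorem arc {E : Type} [NormedAddCommGroup E] [InnerProductSpace ℝ E] [FiniteDimensional ℝ E]
    (hE : 2 ≤ Module.finrank ℝ E) {u v : E} (hu : ‖u‖ = 1) (hv : ‖v‖ = 1) :
    ∃ (e : E) (θ : ℝ), ‖e‖ = 1 ∧ ⟪u, e⟫_ℝ = 0 ∧ 0 ≤ θ ∧ θ ≤ 2 * ‖v - u‖ ∧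
      v = Real.cos θ • u + Real.sin θ • e := by
  have uu : ⟪u, u⟫_ℝ = 1 := by rw [real_inner_self_eq_norm_sq, hu]; norm_num
  set c := ⟪u, v⟫_ℝ with hc
  have c1 : |c| ≤ 1 := by simpa [hu, hv] using abs_real_inner_le_norm u v
  have nw : ‖v - c • u‖ ^ 2 = 1 - c ^ 2 := by
    rw [norm_sub_sq_real, norm_smul, real_inner_smul_right, real_inner_comm, ← hc, hu, hv]
    simp
    ring
  have ow : ⟪u, v - c • u⟫_ℝ = 0 := by rw [inner_sub_right, real_inner_smul_right, uu]; ring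
  obtain ⟨e, e1, e0, ee⟩ : ∃ e : E, ‖e‖ = 1 ∧ ⟪u, e⟫_ℝ = 0 ∧ v - c • u = ‖v - c • u‖ • e := by
    by_cases z : v - c • u = 0
    · have u0 : u ≠ 0 := by rintro rfl; simp at hu
      have : 0 < Module.finrank ℝ (ℝ ∙ u)ᗮ := by
        have := Submodule.finrank_add_finrank_orthogonal (ℝ ∙ u)
        rw [finrank_span_singleton u0] at this
        omega
      obtain ⟨x, x0⟩ := Module.finrank_pos_iff_exists_ne_zero.1 this
      have x1 : (x : E) ≠ 0 := fun k => x0 (Subtype.ext k)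
      refine ⟨‖(x : E)‖⁻¹ • (x : E), norm_smul_inv_norm x1, ?_, by simp [z]⟩
      rw [real_inner_smul_right, Submodule.mem_orthogonal_singleton_iff_inner_right.1 x.2, mul_zero]
    · refine ⟨‖v - c • u‖⁻¹ • (v - c • u), norm_smul_inv_norm z, ?_, ?_⟩
      · rw [real_inner_smul_right, ow, mul_zero]
      · rw [smul_inv_smul₀ (norm_ne_zero_iff.2 z)]
  have cc := Real.cos_arccos (abs_le.1 c1).1 (abs_le.1 c1).2
  refine ⟨e, Real.arccos c, e1, e0, Real.arccos_nonneg c, ?_, ?_⟩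
  · have n2 : ‖v - u‖ ^ 2 = 2 - 2 * c := by
      rw [norm_sub_sq_real, real_inner_comm, ← hc, hu, hv]; ring
    have j := Real.cos_le_one_sub_mul_cos_sq (x := Real.arccos c)
      (by rw [abs_of_nonneg (Real.arccos_nonneg c)]; exact Real.arccos_le_pi c)
    rw [cc] at j
    have p4 : Real.pi ^ 2 ≤ 16 := by nlinarith [Real.pi_le_four, Real.pi_pos]
    have p0 : 0 < Real.pi ^ 2 := by positivity
    have q : 1 / 8 ≤ 2 / Real.pi ^ 2 := by rw [div_le_div_iff₀ (by norm_num) p0]; linarith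
    refine abs_le_of_sq_le_sq' ?_ (by positivity) |>.2
    nlinarith [sq_nonneg (Real.arccos c)]
  · rw [cc, Real.sin_arccos, ← nw, Real.sqrt_sq (norm_nonneg _), ← ee]
    abel

end Vale.Agent.P354XY
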