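import Vale.Agent.P354KX.Defs
import Vale.Agent.P354CH.Chart
import Vale.Agent.P354CH.Hull
import Vale.Agent.P354XY.Hul0

/-!
Outward paths on the initial slice.
-/

open scoped ContDiff InnerProductSpace
open Set Filter Topology Function

noncomputable section

namespace Vale.Agent.P354XY

open Vale.Agent.P354H (X3)
open Vale.Agent.P354I (X)
open Vale.Agent.P354E (sg)
open Vale.Agent.P354PU (JG)
open Vale.Agent.P354XB (Win)
open Vale.Agent.P354XP (Cht Hull dir)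
open Vale.Agent.P354YV (Sp)
open Vale.Agent.P354KX

/-- A path which goes outwards with the slope l. -/
structure Pth (l : ℝ) (x y : X) (γ : ℝ → X) : Prop where
  z : γ 0 = x
  o : γ 1 = y
  df : Differentiable ℝ γ
  cone : ∀ s ∈ Icc (0 : ℝ) 1, ∃ a > 0, ∃ η, HasDerivAt (fun t => ‖γ t‖) a s ∧
    HasDerivAt (fun t => dir (γ t)) η s ∧ l * ‖η‖ ≤ a
  hull : ∀ s ∈ Icc (0 : ℝ) 1, ‖x‖ + l * ‖dir (γ s) - dir x‖ ≤ ‖γ s‖

theorem nm_cs {u e : X} (hu : ‖u‖ = 1) (he : ‖e‖ = 1) (o : ⟪u, e⟫_ℝ = 0) (a b : ℝ) :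
    ‖a • u + b • e‖ ^ 2 = a ^ 2 + b ^ 2 := by
  rw [norm_add_sq_real, real_inner_smul_left, real_inner_smul_right, o, norm_smul, norm_smul, hu,
    he]
  simp

theorem dir_smul {r : ℝ} (hr : 0 < r) {u : X} (hu : ‖u‖ = 1) : ‖r • u‖ = r ∧ dir (r • u) = u := by
  have : ‖r • u‖ = r := by rw [norm_smul, hu, mul_one, Real.norm_of_nonneg hr.le]
  exact ⟨this, by rw [dir, this, inv_smul_smul₀ hr.ne']⟩

theorem ex_pth {l : ℝ} {x y : X} (hl : 0 ≤ l) (x0 : x ≠ 0) (lt : ‖x‖ < ‖y‖)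
    (h : ‖x‖ + 2 * l * ‖dir y - dir x‖ ≤ ‖y‖) : ∃ γ, Pth l x y γ := by
  have r0 : 0 < ‖x‖ := norm_pos_iff.2 x0
  have y0 : y ≠ 0 := norm_pos_iff.1 (r0.trans lt)
  have hu : ‖dir x‖ = 1 := norm_smul_inv_norm x0
  have hv : ‖dir y‖ = 1 := norm_smul_inv_norm y0
  obtain ⟨e, θ, he, o, θ0, θ1, ey⟩ := arc (E := X) (by simp) hu hv
  set u := dir x
  set d := ‖y‖ - ‖x‖ with hd
  have d0 : 0 < d := sub_pos.2 lt
  have ld : l * θ ≤ d := by nlinarith [mul_le_mul_of_nonneg_left θ1 hl]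
  set om : ℝ → X := fun s => Real.cos (θ * s) • u + Real.sin (θ * s) • e with hom
  have n1 : ∀ s, ‖om s‖ = 1 := fun s => by
    have := nm_cs hu he o (Real.cos (θ * s)) (Real.sin (θ * s))
    rw [Real.cos_sq_add_sin_sq] at this
    exact (pow_eq_one_iff_of_nonneg (norm_nonneg _) two_ne_zero).1 this
  have dom : ∀ s, HasDerivAt om ((-Real.sin (θ * s) * θ) • u + (Real.cos (θ * s) * θ) • e) s :=
    fun s => by
      have k : HasDerivAt (fun t : ℝ => θ * t) θ s := by simpa using (hasDerivAt_id s).const_mul θ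
      exact (k.cos.smul_const u).add (k.sin.smul_const e)
  have rp : ∀ s ∈ Icc (0 : ℝ) 1, 0 < ‖x‖ + s * d := fun s hs => by nlinarith [hs.1]
  refine ⟨fun s => (‖x‖ + s * d) • om s, ?_, ?_, ?_, fun s hs => ?_, fun s hs => ?_⟩
  · simp [hom, u, dir, smul_inv_smul₀ r0.ne']
  · simp only [hom, mul_one, one_mul, hd, add_sub_cancel, ← ey, dir]
    exact smul_inv_smul₀ (norm_ne_zero_iff.2 y0) y
  · exact fun s => DifferentiableAt.smul (c := fun t : ℝ => ‖x‖ + t * d) (by fun_prop)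
      (dom s).differentiableAt
  · have ev : ∀ᶠ t in 𝓝 s, 0 < ‖x‖ + t * d :=
      continuousAt_const.eventually_lt (by fun_prop) (rp s hs)
    refine ⟨d, d0, _, ?_, (dom s).congr_of_eventuallyEq (ev.mono fun t k => (dir_smul k (n1 t)).2),
      ?_⟩
    · refine HasDerivAt.congr_of_eventuallyEq ?_ (ev.mono fun t k => (dir_smul k (n1 t)).1)
      simpa using ((hasDerivAt_id s).mul_const d).const_add ‖x‖
    · refine le_trans (mul_le_mul_of_nonneg_left (abs_le_of_sq_le_sq' ?_ θ0).2 hl) ld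
      rw [nm_cs hu he o]
      nlinarith [Real.cos_sq_add_sin_sq (θ * s)]
  · rw [(dir_smul (rp s hs) (n1 s)).1, (dir_smul (rp s hs) (n1 s)).2]
    have e1 : om s - u = (Real.cos (θ * s) - 1) • u + Real.sin (θ * s) • e := by
      simp only [hom, sub_smul, one_smul]; abel
    have e2 : ‖om s - u‖ ≤ θ * s := by
      refine (abs_le_of_sq_le_sq' ?_ (mul_nonneg θ0 hs.1)).2
      rw [e1, nm_cs hu he o]
      nlinarith [Real.cos_sq_add_sin_sq (θ * s), Real.one_sub_sq_div_two_le_cos (x := θ * s)]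
    nlinarith [mul_le_mul_of_nonneg_left e2 hl, mul_le_mul_of_nonneg_left ld hs.1]

theorem win_open (R w r : ℝ) : IsOpen (Win R w r) :=
  (isOpen_Ioo.preimage continuous_fst).inter (isOpen_lt continuous_snd.norm continuous_const)

theorem win_cvx (R w r : ℝ) : Convex ℝ (Win R w r) := by
  have : Win R w r = Ioo (R - 3 * w) (R + 4 * w) ×ˢ Metric.ball 0 r := by
    ext z; simp [Win]
  rw [this]
  exact (convex_Ioo _ _).prod (convex_ball _ _)

theorem cpt_box (a b r : ℝ) : IsCompact {z : X3 | z.1 ∈ Icc a b ∧ ‖z.2‖ ≤ r} := by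
  have : {z : X3 | z.1 ∈ Icc a b ∧ ‖z.2‖ ≤ r} = Icc a b ×ˢ Metric.closedBall 0 r := by
    ext z; simp
  rw [this]
  exact isCompact_Icc.prod (isCompact_closedBall _ _)

theorem cl_mono (R w : ℝ) : Monotone (cl R w) := fun _ _ h =>
  max_le_max le_rfl (min_le_min h le_rfl)

variable {n : ℕ} {R w G ρ c l : ℝ} {σ : Bool} {j : X3 → X}

theorem cht_inv (h : Cht n R w G ρ c σ j) (hG : 0 < G) : IsOpen (j '' Win R w 6) ∧
    ContDiffOn ℝ ∞ (invFunOn j (Win R w 6)) (j '' Win R w 6) := by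
  have := P354CH.ift (A := JG j) (M := fun z => (JG j z)⁻¹) (win_open R w 6) h.sm h.inj
    fun z hz => ⟨P354CH.fd_j ((h.sm.contDiffAt ((win_open R w 6).mem_nhds hz)).differentiableAt
      (by simp)), Matrix.mul_nonsing_inv _ (isUnit_iff_ne_zero.2
        (abs_pos.1 ((inv_pos.2 hG).trans_le (h.bd z hz).1)))⟩
  exact ⟨this.1, this.2.1⟩

/-- The label increases along outward paths. -/
theorem lab_up (h : Cht n R w G ρ c σ j) (hG : 0 < G) (hρ : 0 < ρ) {l' : ℝ} (m : Mn R w l' j)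
    (hl : l' ≤ l) {x y : X} {γ : ℝ → X} (p : Pth l x y γ) {s : ℝ} (hs : s ∈ Icc (0 : ℝ) 1)
    {z : X3} (hz : z ∈ Win R w 6) (e : j z = γ s) :
    ∀ᶠ t in 𝓝[>] s, ∃ z' ∈ Win R w 6, j z' = γ t ∧ z.1 ≤ z'.1 := by
  obtain ⟨o, i⟩ := cht_inv h hG
  have hm : γ s ∈ j '' Win R w 6 := ⟨z, hz, e⟩
  have ev : ∀ᶠ t in 𝓝 s, γ t ∈ j '' Win R w 6 := p.df.continuous.continuousAt (o.mem_nhds hm)
  set ζ : ℝ → X3 := fun t => invFunOn j (Win R w 6) (γ t)
  have ζs : ζ s = z := by simp only [ζ, ← e]; exact h.inj.leftInvOn_invFunOn hz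
  have e2 : ∀ᶠ t in 𝓝 s, ζ t ∈ Win R w 6 ∧ j (ζ t) = γ t := ev.mono fun t k => invFunOn_pos k
  have dζ : HasDerivAt ζ (deriv ζ s) s := (((i.contDiffAt (o.mem_nhds hm)).differentiableAt
    (by simp)).comp s (p.df s)).hasDerivAt
  have dj : DifferentiableAt ℝ j z :=
    (h.sm.contDiffAt ((win_open R w 6).mem_nhds hz)).differentiableAt (by simp)
  have j0 : j z ≠ 0 := norm_pos_iff.1 (hρ.trans_le (h.loc z hz).1)
  have dn : DifferentiableAt ℝ (fun x => ‖j x‖) z := dj.norm ℝ j0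
  have dd : DifferentiableAt ℝ (fun x => dir (j x)) z :=
    (dn.inv (norm_ne_zero_iff.2 j0)).smul dj
  obtain ⟨a, a0, η, ha, hη, le⟩ := p.cone s hs
  have e3 : fderiv ℝ (fun x => ‖j x‖) z (deriv ζ s) = a :=
    (dn.hasFDerivAt.comp_hasDerivAt_of_eq s dζ ζs.symm).unique
      (ha.congr_of_eventuallyEq (e2.mono fun t k => congrArg norm k.2))
  have e4 : fderiv ℝ (fun x => dir (j x)) z (deriv ζ s) = η :=
    (dd.hasFDerivAt.comp_hasDerivAt_of_eq s dζ ζs.symm).unique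
      (hη.congr_of_eventuallyEq (e2.mono fun t k => congrArg dir k.2))
  have ps := m.mono z hz (deriv ζ s) (fun k => by rw [k, map_zero] at e3; exact a0.ne e3)
    (by rw [e3, e4]; exact (mul_le_mul_of_nonneg_right hl (norm_nonneg _)).trans le)
  have d1 : HasDerivAt (fun t => (ζ t).1) (deriv ζ s).1 s :=
    (ContinuousLinearMap.fst ℝ ℝ (ℝ × ℝ)).hasFDerivAt.comp_hasDerivAt s dζ
  filter_upwards [((hasDerivAt_iff_tendsto_slope.1 d1).mono_left (nhdsGT_le_nhdsNE s)).eventually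
    (lt_mem_nhds ps), nhdsWithin_le_nhds e2, self_mem_nhdsWithin] with t k k2 k3
  refine ⟨ζ t, k2.1, k2.2, ?_⟩
  rw [slope_def_field, ζs] at k
  exact (sub_pos.1 ((div_pos_iff_of_pos_right (sub_pos.2 k3)).1 k)).le

/-- Induction along the interval. -/
theorem ind01 {P : ℝ → Prop} (c : IsClosed ({s | P s} ∩ Icc 0 1)) (h0 : P 0)
    (h : ∀ s ∈ Ico (0 : ℝ) 1, P s → ∀ᶠ t in 𝓝[>] s, t ∈ Icc (0 : ℝ) 1 → P t) :
    ∀ s ∈ Icc (0 : ℝ) 1, P s :=
  c.Icc_subset_of_forall_mem_nhdsWithin h0 fun s hs => by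
    filter_upwards [h s hs.2 hs.1, Ioo_mem_nhdsGT hs.2.2] with t k k2
    exact k ⟨hs.2.1.trans k2.1.le, k2.2.le⟩

end Vale.Agent.P354XY
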