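import Vale.Agent.P354XY.Out

/-!
The barrier inequalities in the part r ≤ R.
-/

open scoped ContDiff
open Set Filter Topology Matrix

noncomputable section

namespace Vale.Agent.P354XY

open Vale.Agent.P354n (R4)
open Vale.Agent.P354I (rm rp)
open Vale.Agent.P354XE
open Vale.Agent.P354XA

theorem late {s σ C c η : ℝ} (s0 : 0 < s) (s1 : 0 ≤ σ) (s2 : σ ≤ s) (C0 : 0 ≤ C) (c0 : 0 < c)
    (e0 : 0 < η) : ∃ C1 ≥ 1, ∀ᶠ t in atTop, 0 ≤ t ∧ ∀ x y : ℝ, t / 2 ≤ x → 0 ≤ y → y ≤ 2 * t →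
      (1 + |x|) ^ (-s) ≤ η ∧ C * (1 + |x|) ^ (-s) ≤ min c (C1 * √(1 + y ^ 2) ^ (-σ)) := by
  have T : Tendsto (fun t : ℝ => (1 + t / 2) ^ (-s)) atTop (𝓝 0) :=
    (tendsto_rpow_neg_atTop s0).comp (tendsto_atTop_add_const_left _ _
      (tendsto_id.atTop_div_const two_pos))
  have T2 := T.const_mul C
  rw [mul_zero] at T2
  refine ⟨C * 4 ^ σ + 1, le_add_of_nonneg_left (by positivity), ?_⟩
  filter_upwards [eventually_ge_atTop 0, T.eventually (ge_mem_nhds e0),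
    T2.eventually (ge_mem_nhds c0)] with t t0 t1 t2
  refine ⟨t0, fun x y hx y0 y1 => ?_⟩
  have x1 := le_abs_self x
  have a1 : (1 + |x|) ^ (-s) ≤ (1 + t / 2) ^ (-s) :=
    Real.rpow_le_rpow_of_nonpos (by positivity) (by linarith) (by linarith)
  have a2 : (4 * (1 + |x|)) ^ (-σ) ≤ √(1 + y ^ 2) ^ (-σ) :=
    Real.rpow_le_rpow_of_nonpos (by positivity)
      (Real.sqrt_le_iff.2 ⟨by positivity, by nlinarith⟩) (by linarith)
  have a3 : (1 + |x|) ^ (-s) ≤ (1 + |x|) ^ (-σ) :=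
    Real.rpow_le_rpow_of_exponent_le (by linarith [abs_nonneg x]) (by linarith)
  rw [Real.mul_rpow (by norm_num) (by positivity), Real.rpow_neg (by norm_num : (0 : ℝ) ≤ 4),
    inv_mul_le_iff₀ (by positivity)] at a2
  refine ⟨a1.trans t1, le_min ((mul_le_mul_of_nonneg_left a1 C0).trans t2) ?_⟩
  linarith [mul_le_mul_of_nonneg_left (a3.trans a2) C0,
    Real.rpow_nonneg (Real.sqrt_nonneg (1 + y ^ 2)) (-σ)]

/-- The energy of a field in the chart q. -/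
def Eg (g : Tw) (q : Par) (U : R4 → R4) (z : ℝ → R4) (s : ℝ) : ℝ :=
  pb q.lin g (cq q z s) (U (cq q z s)) (deriv (cq q z) s)

theorem near_alg {C K W W' t t' u l l' e T j ν B : ℝ} (C0 : 0 < C) (K0 : 0 < K) (W0 : 0 ≤ W')
    (w1 : W ≤ 3 * W') (l1 : 9 / 10 ≤ l) (l2 : l ≤ 11 / 10) (l3 : 9 / 10 ≤ l') (l4 : l' ≤ 11 / 10)
    (h1 : l * u = t) (h2 : l' * t' = t) (t0 : 0 ≤ t) (B1 : 1 ≤ B) (h3 : |-(l * e)| ≤ B)
    (h4 : |j| ≤ (3 * K + 1) * B) (h5 : ν ≤ (K * (3 * K + 4) + 1) * B) (a1 : W' ≤ C * t')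
    (a2 : W' ≤ C * (1 + |l' * e| + |j| + max 0 ν)) (a3 : l' * (l' * T) ≤ C) (W1 : 0 ≤ W) :
    0 ≤ u ∧ W ≤ 3 * (C * (3 * K ^ 2 + 7 * K + 5)) * B ∧
      W' ^ 2 ≤ 2 * C * (C * (3 * K ^ 2 + 7 * K + 5)) * (B * u) ∧
      W ^ 2 ≤ 18 * C * (C * (3 * K ^ 2 + 7 * K + 5)) * (B * u) ∧ l ^ 2 * T ≤ (C + 1) ^ 2 ∧
      K * (1 + |l' * e|) ≤ (3 * K + 1) * B ∧
      K * (1 + |l' * e| + |j|) ≤ (K * (3 * K + 4) + 1) * B := by
  have u0 : 0 ≤ u := nonneg_of_mul_nonneg_right (h1 ▸ t0) (by linarith only [l1])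
  have b1 : t' ≤ 2 * u := by
    have : 0 ≤ t' := nonneg_of_mul_nonneg_right (h2 ▸ t0) (by linarith only [l3])
    nlinarith only [h1, h2, l2, l3, u0, this]
  have b2 : |l' * e| ≤ 2 * B := by
    rw [abs_neg, abs_mul, abs_of_nonneg (by linarith only [l1])] at h3
    rw [abs_mul, abs_of_nonneg (by linarith only [l3])]
    nlinarith only [h3, l1, l4, abs_nonneg e]
  have b3 : max 0 ν ≤ (K * (3 * K + 4) + 1) * B := max_le (by positivity) h5
  have b4 : W' ≤ C * (3 * K ^ 2 + 7 * K + 5) * B := a2.trans (by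
    rw [mul_assoc C]
    exact mul_le_mul_of_nonneg_left (by linarith only [b2, b3, h4, B1]) C0.le)
  have b5 : W' ^ 2 ≤ 2 * C * (C * (3 * K ^ 2 + 7 * K + 5)) * (B * u) := by
    linarith only [mul_le_mul b4 (a1.trans (mul_le_mul_of_nonneg_left b1 C0.le)) W0 (W0.trans b4)]
  refine ⟨u0, by linarith only [w1, b4], b5, by linarith only [b5, pow_le_pow_left₀ W1 w1 2], ?_,
    by linarith only [B1, mul_le_mul_of_nonneg_left (add_le_add B1 b2) K0.le], by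
      linarith only [B1, mul_le_mul_of_nonneg_left (add_le_add (add_le_add B1 b2) h4) K0.le]⟩
  rcases le_total T 0 with k | k
  · exact (mul_nonpos_of_nonneg_of_nonpos (sq_nonneg l) k).trans (sq_nonneg _)
  · have : l ^ 2 ≤ 2 * (l' * l') := by nlinarith only [l1, l2, l3]
    nlinarith only [mul_le_mul_of_nonneg_right this k, a3, sq_nonneg C]

/-- **The part r ≤ R.** -/
theorem near (hM : MID) (hN : NK) (q : Par) {r0 : ℝ} (R : ℝ) (ha : |q.a| < q.M)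
    (h0 : rm q.M q.a < r0) (hq : q.Rᵀ * q.R = 1) (l3 : 9 / 10 ≤ q.l) (l4 : q.l ≤ 11 / 10) :
    ∃ (U V : R4 → R4) (K1 K2 η0 Cs C3 : ℝ), 0 < K1 ∧ 0 < K2 ∧ 0 < η0 ∧ 0 ≤ Cs ∧ 0 ≤ C3 ∧
      ∀ (g : Tw) (z : ℝ → R4) (A s : ℝ), Cv g z A s → r0 ≤ rd (z s) →
        DifferentiableAt ℝ (Eg g q U z) s ∧ DifferentiableAt ℝ (Eg g q V z) s ∧
        (5 * q.M ≤ rd (z s) → Eg g q U z s = 0 ∧ Eg g q V z s = 0) ∧
        ∀ (w : R4) (l u c η γ B : ℝ), w = deriv z s → rd (z s) ≤ R → 9 / 10 ≤ l → l ≤ 11 / 10 →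
          l * u = w.1 → 0 ≤ w.1 → -2 ≤ g (z s) w w → g (z s) w w ≤ 0 →
          |fderiv ℝ (fun x => g x w w) (z s) eT| ≤ c * (‖w‖ * ‖w‖) → 0 ≤ η → η ≤ η0 →
          Bd 1 (pb q.lin g - gin q.M q.a) (cq q z s) η → 0 ≤ c → Cs * c ≤ γ → Cs * η ≤ γ → 1 ≤ B →
          |E2 g l R z s| ≤ B → |Eg g q U z s| ≤ K1 * B → -Eg g q V z s ≤ K2 * B →
          dr (z s) w ≤ C3 * B * rd (z s) ∧ w.1 ≤ C3 * B * rd (z s) ∧
          |deriv (E2 g l R z) s| ≤ B * (γ * u + C3 * A) ∧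
          (|Eg g q U z s| = K1 * B → |deriv (Eg g q U z) s| ≤ K1 * (B * (γ * u + C3 * A))) ∧
          (-Eg g q V z s = K2 * B → -deriv (Eg g q V z) s ≤ K2 * (B * (γ * u + C3 * A))) := by
  obtain ⟨U, V, K, C, η0, K0, C0, e0, dU, zU, H⟩ := hN q.M q.a r0 R ha h0
  have r00 : 0 < r0 := (hor ha).2.1.trans_lt h0
  obtain ⟨C', hC'⟩ : ∃ C', C' = C * (3 * K ^ 2 + 7 * K + 5) := ⟨_, rfl⟩
  have C'0 : 0 < C' := by rw [hC']; positivity
  refine ⟨U, V, 3 * K + 1, K * (3 * K + 4) + 1, η0, 18 * C * C' + 2 * C ^ 2 * C',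
    6 * C' / r0 + (C + 3), by positivity, by positivity, e0, by positivity, by positivity,
    fun g z A s h r1 => ?_⟩
  have l0 : q.l ≠ 0 := by linarith
  obtain ⟨y1, -, y3, y4, -, y6⟩ := cq_spec h hq l0
  have r2 : rd (z s) ≠ 0 := (r00.trans_le r1).ne'
  obtain ⟨E, d1, d2⟩ := y1.field (dU _ (y4 ▸ r2)).1
  obtain ⟨E', d3, d4⟩ := y1.field (dU _ (y4 ▸ r2)).2
  have z0 := y1.gd.bil.smul_left 0 0 (deriv (cq q z) s)
  rw [zero_smul, zero_mul] at z0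
  refine ⟨d1.differentiableAt, d3.differentiableAt, fun k => by
    rw [Eg, Eg, (zU _ (y4 ▸ k)).1, (zU _ (y4 ▸ k)).2, z0, and_self], ?_⟩
  intro w l u c η γ B hw r3 l1 l2 hu t0 m1 m2 ht η1 η2 hb c0 c1 c2 B1 b1 b2 b3
  have t1 : q.l * (deriv (cq q z) s).1 = w.1 := by rw [hw, ← y3, lin_fst]
  obtain ⟨a1, a2, a3, a4, a5, a6, a7⟩ := H _ _ (deriv (cq q z) s) η (y4 ▸ r1) (y4 ▸ r3) y1.gd η1 η2
    hb (by rwa [y6, y3, ← hw]) (by rwa [y6, y3, ← hw])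
    (nonneg_of_mul_nonneg_right (t1 ▸ t0) (by linarith))
  obtain ⟨i1, i2⟩ := e2_near (l := l) hM h r2 hw r3 (by linarith) (by linarith) ht
  have bl := h.gd.bil
  rw [y6 eT, lin_T, bl.smul_left, ← hw] at a2 a6 a7
  rw [pb_lin, (cq_spec h hq l0).2.1, lin_T, bl.smul_left, bl.smul_right] at a3
  obtain ⟨u0, k1, k2, k3, k4, k5, k6⟩ := near_alg C0 K0 (norm_nonneg _)
    (hw ▸ y3 ▸ (norm_lin hq (by linarith) (by linarith) (deriv (cq q z) s)).1) l1 l2 l3 l4 hu t1 t0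
    B1 (i1 ▸ b1) b2 b3 a1 a2 a3 (norm_nonneg w)
  rw [← hC'] at k1 k2 k3
  have A0 := h.A0
  have B0 : 0 ≤ B := zero_le_one.trans B1
  have Bu := mul_nonneg B0 u0
  have g0 : 0 ≤ γ := le_trans (by positivity) c1
  have o1 : 2 * ‖w‖ ≤ (6 * C' / r0 + (C + 3)) * B * rd (z s) := by
    have : 6 * C' * B ≤ 6 * C' / r0 * B * rd (z s) := by
      rw [div_mul_eq_mul_div, div_mul_eq_mul_div, le_div_iff₀ r00]
      gcongr
    linarith only [this, k1, mul_nonneg (mul_nonneg (show 0 ≤ C + 3 by positivity) B0) (rd_nonneg (z s))]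
  have o2 : ∀ K' ≥ 1, A * (C + 1 + 2 * (K' * B)) ≤ K' * (B * ((6 * C' / r0 + (C + 3)) * A)) := by
    intro K' k
    have k' := one_le_mul_of_one_le_of_one_le k B1
    linarith only [mul_le_mul_of_nonneg_left k' (mul_nonneg A0 (show 0 ≤ C + 1 by positivity)),
      mul_nonneg (mul_nonneg (zero_le_one.trans k') A0) (show 0 ≤ 6 * C' / r0 by positivity)]
  have sq : ∀ x, x ≤ C → 1 ^ 2 * x ≤ (C + 1) ^ 2 := fun x hx => by nlinarith only [hx, C0]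
  refine ⟨((le_abs_self _).trans (dr_le r2 w).2).trans o1, by
    linarith only [o1, norm_nonneg w, (le_abs_self _).trans (norm_fst_le w)], ?_, fun e => ?_,
    fun e => ?_⟩
  · have := i2 (C + 1) B (by positivity) k4 b1
    linarith only [this, o2 1 le_rfl, mul_le_mul_of_nonneg_left k3 c0,
      mul_le_mul_of_nonneg_right c1 Bu, mul_nonneg (show 0 ≤ C ^ 2 * C' * c by positivity) Bu]
  · have e1 := a6 (k5.trans e.ge)
    have e2 := d2 1 (C + 1) ((3 * K + 1) * B) zero_le_one (by positivity) (sq _ a4)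
      (by rw [one_mul]; exact b2)
    rw [one_mul] at e2
    rw [show deriv (Eg g q U z) s = _ from d1.deriv]
    refine (abs_add_le _ _).trans ?_
    linarith only [e1, e2, o2 (3 * K + 1) (by linarith only [K0]),
      mul_le_mul_of_nonneg_left k2 (mul_nonneg C0.le η1), mul_le_mul_of_nonneg_right c2 Bu,
      mul_nonneg (show 0 ≤ C * C' * η by positivity) Bu, mul_nonneg (mul_nonneg K0.le g0) Bu]
  · have e1 := a7 (k6.trans e.ge)
    have e2 := d4 1 (C + 1) ((K * (3 * K + 4) + 1) * B) zero_le_one (by positivity) (sq _ a5) (by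
      rw [one_mul, ← abs_neg]
      exact ((congrArg _ e).trans (abs_of_nonneg (by positivity))).le)
    rw [one_mul] at e2
    rw [show deriv (Eg g q V z) s = _ from d3.deriv]
    linarith only [e1, (abs_le.1 e2).1, o2 (K * (3 * K + 4) + 1)
      (le_add_of_nonneg_left (by positivity)),
      mul_nonneg (mul_nonneg (show 0 ≤ K * (3 * K + 4) + 1 by positivity) g0) Bu]

end Vale.Agent.P354XY
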