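import Vale.Agent.P354XY.E3

/-!
The glued energy in the part r ≥ R + 1.
-/

open scoped ContDiff
open Set Filter Topology Matrix

noncomputable section

namespace Vale.Agent.P354XY

open Vale.Agent.P354n (R4)
open Vale.Agent.P354I (rm rp)
open Vale.Agent.P354XE
open Vale.Agent.P354XA

theorem sh_alg {K C k η R ε r c A A' B W W' e E2 E3 d2 d3 n x x' γ u c0 U c' : ℝ}
    (h : Out K C k η R ε r c A A' B W' e E3 d3 n) (K1 : 1 ≤ K) (C1 : 1 ≤ C) (k0 : 0 < k)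
    (k1 : k ≤ 1) (R1 : 1 ≤ R) (e0 : 0 ≤ ε) (A0 : 0 ≤ A) (c1 : c ≤ 1) (r1 : R + 1 ≤ r)
    (r2 : r ≤ R + 2) (W0 : 0 ≤ W) (w1 : W ≤ 3 * W') (w2 : W' ≤ 3 * W)
    (hE : E2 = e - (r - R) ^ 2 / 16 * B) (a1 : W ≤ 4 * E2) (a2 : E2 ≤ 2 * W) (a3 : c' ≤ ε)
    (a4 : d2 ≤ c' * W ^ 2 + 1 + 30 * A * (1 + W) - (r - R) ^ 2 / 16 * W ^ 2 / (3 * r))
    (x0 : 0 ≤ x) (x1 : x ≤ 1) (x2 : 0 ≤ x') (x3 : x' ≤ 2) (g0 : 0 ≤ γ) (g1 : γ ≤ c0)
    (hu : |u| ≤ U * W) (s1 : K * (C * ε * R) ≤ η)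
    (s2 : ε + 360 * (K * (C * ε * R)) * C ^ 2 + 72 * K * (C / R + C * ε * R) ^ 2 * C ^ 2 +
      60 * C * (c0 * U) ≤ k / (432 * K * C ^ 2 * (R + 2))) {E : ℝ} (e1 : E = (1 - x) * E2 + x * E3) :
    W ≤ 24 * K * C * E ∧ (1 ≤ E → (1 - x) * d2 + x * d3 + x' * (B * (E3 - E2)) ≤
      E * (γ * u + 15000 * K ^ 2 * C ^ 2 * A + 15000 * K ^ 2 * C ^ 2)) := by
  obtain ⟨n1, n2, n3, n4, n5, n6, n7⟩ := h.sh r2
  have C0 : 0 < C := one_pos.trans_le C1
  have K0 : 0 < K := one_pos.trans_le K1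
  have KC : 1 ≤ K * C := one_le_mul_of_one_le_of_one_le K1 C1
  have r0 : 0 < r := by linarith only [R1, r1]
  have n0 : 0 ≤ n := (abs_nonneg _).trans n1
  have y0 : 0 ≤ 1 - x := sub_nonneg.2 x1
  have b1 : W ≤ 6 * C * n := by linarith only [w1, n2]
  have b2 : n ≤ 6 * C * W := by linarith only [n3, mul_le_mul_of_nonneg_left w2 C0.le]
  have b3 : W ≤ 24 * K * C * E := by
    have t1 : W ≤ 24 * K * C * E2 := by
      nlinarith only [a1, W0, mul_le_mul_of_nonneg_right KC (show 0 ≤ E2 by linarith only [a1, W0])]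
    have t2 : W ≤ 24 * K * C * E3 := by linarith only [b1, mul_le_mul_of_nonneg_left n4 C0.le]
    rw [e1]
    linarith only [mul_le_mul_of_nonneg_left t1 y0, mul_le_mul_of_nonneg_left t2 x0]
  refine ⟨b3, fun E1 => ?_⟩
  have t3 : E3 ≤ 60 * C * W := by linarith only [n5, b2]
  have b4 : E ≤ 60 * C * W := by
    have t1 : E2 ≤ 60 * C * W := by linarith only [a2, W0, mul_le_mul_of_nonneg_right C1 W0]
    rw [e1]
    linarith only [mul_le_mul_of_nonneg_left t1 y0, mul_le_mul_of_nonneg_left t3 x0]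
  have b5 : n ^ 2 ≤ 36 * C ^ 2 * W ^ 2 := by linarith only [pow_le_pow_left₀ n0 b2 2]
  have b6 : W ^ 2 ≤ 36 * C ^ 2 * n ^ 2 := by linarith only [pow_le_pow_left₀ W0 b1 2]
  obtain ⟨b, hb⟩ : ∃ b, b = k / (432 * K * C ^ 2 * (R + 2)) := ⟨_, rfl⟩
  have hb1 : b * W ^ 2 ≤ k * n ^ 2 / (12 * K * r) := by
    rw [hb, div_mul_eq_mul_div, div_le_div_iff₀ (by positivity) (by positivity)]
    calc k * W ^ 2 * (12 * K * r) ≤ k * (36 * C ^ 2 * n ^ 2) * (12 * K * (R + 2)) := by gcongr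
      _ = _ := by ring
  have f1 : 1 / 16 ≤ (r - R) ^ 2 / 16 := by nlinarith only [r1]
  have f2 : (r - R) ^ 2 / 16 ≤ 1 / 4 := by nlinarith only [r1, r2]
  have hb2 : b * W ^ 2 ≤ (r - R) ^ 2 / 16 * W ^ 2 / (3 * r) := by
    have : 1 ≤ K * C ^ 2 := one_le_mul_of_one_le_of_one_le K1 (one_le_pow₀ C1)
    rw [mul_div_right_comm]
    refine mul_le_mul_of_nonneg_right ?_ (sq_nonneg W)
    rw [hb, div_le_div_iff₀ (by positivity) (by positivity)]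
    calc k * (3 * r) ≤ 1 * (3 * (R + 2)) := by gcongr
      _ ≤ 1 / 16 * (432 * 1 * (R + 2)) := by linarith only [R1]
      _ ≤ (r - R) ^ 2 / 16 * (432 * (K * C ^ 2) * (R + 2)) := by gcongr
      _ = _ := by ring
  rw [← hb] at s2
  obtain ⟨γF, hγ⟩ : ∃ γF, γF = K * (C * ε * R) := ⟨_, rfl⟩
  have gF : 0 ≤ γF := by rw [hγ]; positivity
  rw [← hγ] at s1 s2 n6
  have d3' := n6 γF (mul_le_of_le_one_right gF c1) s1
  have t4 : γF * A' * E3 ≤ 360 * γF * C ^ 2 * W ^ 2 := by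
    have := mul_le_mul ((le_abs_self A').trans n1) n5 h.E0 n0
    linarith only [mul_le_mul_of_nonneg_left this gF, mul_le_mul_of_nonneg_left b5 gF]
  have t5 : x' * (B * (E3 - E2)) ≤ 72 * K * (C / R + C * ε * R) ^ 2 * C ^ 2 * W ^ 2 := by
    have z : 0 ≤ K * (C / R + C * ε * R) ^ 2 := by positivity
    rw [hE]
    linarith only [mul_le_mul_of_nonneg_left (n7 _ (by positivity) f2) x2,
      mul_le_mul_of_nonneg_right x3 (mul_nonneg z (sq_nonneg n)), mul_le_mul_of_nonneg_left b5 z]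
  have t6 : -(60 * C * (c0 * U) * W ^ 2) ≤ E * (γ * u) := by
    have : |γ * u| ≤ c0 * (U * W) := by
      rw [abs_mul, abs_of_nonneg g0]; exact mul_le_mul g1 hu (abs_nonneg _) (g0.trans g1)
    linarith only [mul_le_mul_of_nonneg_left (abs_le.1 this).1 (zero_le_one.trans E1),
      mul_le_mul_of_nonneg_right b4 ((abs_nonneg _).trans this)]
  have AW := mul_nonneg A0 W0
  have t7 : 30 * A + 600 * (K * C) * (A * W) ≤ E * (15000 * K ^ 2 * C ^ 2 * A) := by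
    have : 1 ≤ (K * C) ^ 2 * E := one_le_mul_of_one_le_of_one_le (one_le_pow₀ KC) E1
    linarith only [mul_le_mul_of_nonneg_left this A0, A0,
      mul_le_mul_of_nonneg_left b3 (mul_nonneg (zero_le_one.trans KC) A0)]
  have t8 : 1 ≤ (K * C) ^ 2 * E := one_le_mul_of_one_le_of_one_le (one_le_pow₀ KC) E1
  have p1 := mul_nonneg e0 (sq_nonneg W)
  have p2 : 0 ≤ γF * C ^ 2 * W ^ 2 := by positivity
  have u2 : d2 ≤ (ε + 360 * γF * C ^ 2 - b) * W ^ 2 + 1 + (30 * A + 600 * (K * C) * (A * W)) := by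
    linarith only [a4, hb2, mul_le_mul_of_nonneg_right a3 (sq_nonneg W), p2, AW,
      mul_le_mul_of_nonneg_right KC AW]
  have u3 : d3 ≤ (ε + 360 * γF * C ^ 2 - b) * W ^ 2 + 1 + (30 * A + 600 * (K * C) * (A * W)) := by
    linarith only [d3', hb1, t4, p1, A0, mul_le_mul_of_nonneg_left t3 (mul_nonneg K0.le A0)]
  linarith only [mul_le_mul_of_nonneg_left u2 y0, mul_le_mul_of_nonneg_left u3 x0, t5, t6, t7, t8,
    mul_le_mul_of_nonneg_right s2 (sq_nonneg W)]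

theorem psi_le {M a r : ℝ} (h : |a| < M) (hr : 2 * M + 1 ≤ r) :
    |psi M a r| ≤ r * (1 + (ka M a)⁻¹) := by
  obtain ⟨h0, h1, h2, h3, h4, -⟩ := hor h
  have a1 := Real.log_nonneg (show 1 ≤ r - rp M a by linarith)
  have a2 := Real.log_nonneg (show 1 ≤ r - rm M a by linarith)
  have a3 := Real.log_le_self (show 0 ≤ r - rp M a by linarith)
  have a4 := Real.log_le_self (show 0 ≤ r - rm M a by linarith)
  have a5 : 0 ≤ rm M a / rp M a := div_nonneg h1 (by linarith)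
  have a6 : rm M a / rp M a ≤ 1 := div_le_one_of_le₀ h2.le (by linarith)
  have a7 : |Real.log (r - rp M a) - rm M a / rp M a * Real.log (r - rm M a)| ≤ r := abs_le.2
    ⟨by linarith [mul_le_of_le_one_left a2 a6], by linarith [mul_nonneg a5 a2]⟩
  refine (abs_add_le _ _).trans ?_
  rw [abs_div, abs_of_pos h4, abs_of_nonneg (by linarith : 0 ≤ r), div_eq_mul_inv]
  linarith [mul_le_mul_of_nonneg_right a7 (inv_pos.2 h4).le]

/-- The curve in the chart q, the glued energy and the glued time. -/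
def cq (q : Par) (z : ℝ → R4) (t : ℝ) : R4 := (iv q).lin (z t)
def E0 (g : Tw) (q : Par) (β : Fin 3 → R4 → ℝ) (R k : ℝ) (χ : ℝ → ℝ) (z : ℝ → R4) (s : ℝ) : ℝ :=
  (1 - χ (rd (z s) - (R + 1))) * E2 g q.l R z s +
    χ (rd (z s) - (R + 1)) * E3 (pb q.lin g) β q.M q.a R k (cq q z) s
def uh (q : Par) (R : ℝ) (χ : ℝ → ℝ) (z : ℝ → R4) (s : ℝ) : ℝ :=
  (cq q z s).1 - χ (rd (z s) - (R + 1)) * psi q.M q.a (rd (z s))

/-- The properties of the cut off function. -/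
def Cf (χ χ' : ℝ → ℝ) : Prop := ∀ x, HasDerivAt χ (χ' x) x ∧ 0 ≤ χ x ∧ χ x ≤ 1 ∧ 0 ≤ χ' x ∧
  χ' x ≤ 2 ∧ (x ≤ 0 → χ x = 0 ∧ χ' x = 0) ∧ (1 ≤ x → χ x = 1 ∧ χ' x = 0)

variable {g : Tw} {z : ℝ → R4} {A s R k : ℝ} {q : Par} {χ χ' : ℝ → ℝ} {β : Fin 3 → R4 → ℝ}

theorem cq_spec (h : Cv g z A s) (hq : q.Rᵀ * q.R = 1) (hl : q.l ≠ 0) :
    Cv (pb q.lin g) (cq q z) A s ∧ q.lin (cq q z s) = z s ∧ q.lin (deriv (cq q z) s) = deriv z s ∧
      rd (cq q z s) = rd (z s) ∧ dr (cq q z s) (deriv (cq q z) s) = dr (z s) (deriv z s) ∧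
      ∀ v, pb q.lin g (cq q z s) v (deriv (cq q z) s) = g (z s) (q.lin v) (deriv z s) := by
  obtain ⟨a1, a2⟩ := h.lin hq hl (y := cq q z) rfl
  have a3 : q.lin (cq q z s) = z s := lin_iv hq hl _
  exact ⟨a1, a3, a2, by rw [← rd_lin hq, a3], by rw [← dr_lin hq, a3, a2],
    fun v => by rw [pb_lin, a3, a2]⟩

theorem glue (hM : MID) (h : Cv g z A s) (hq : q.Rᵀ * q.R = 1) (hl : q.l ≠ 0) (hχ : Cf χ χ')
    (ha : |q.a| < q.M) (hr : rp q.M q.a < rd (z s))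
    (d3 : DifferentiableAt ℝ (E3 (pb q.lin g) β q.M q.a R k (cq q z)) s) {x B : ℝ}
    (hx : x = rd (z s) - (R + 1)) (hB : B = dr (z s) (deriv z s)) :
    HasDerivAt (E0 g q β R k χ z) ((1 - χ x) * deriv (E2 g q.l R z) s +
      χ x * deriv (E3 (pb q.lin g) β q.M q.a R k (cq q z)) s +
      χ' x * (B * (E3 (pb q.lin g) β q.M q.a R k (cq q z) s - E2 g q.l R z s))) s ∧
    HasDerivAt (uh q R χ z) ((deriv (cq q z) s).1 - (χ' x * B * psi q.M q.a (rd (z s)) +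
      χ x * (lo1 q.M q.a (rd (z s)) * B))) s := by
  subst hx hB
  obtain ⟨-, h1, h2, -⟩ := hor ha
  have r0 : rd (z s) ≠ 0 := (h1.trans_lt (h2.trans hr)).ne'
  obtain ⟨E, d2, -⟩ := e2_deriv hM h r0 q.l R rfl
  have dχ := (hχ _).1.comp s ((h.rd r0).sub_const (R + 1))
  have dψ := (psi_deriv ha hr).comp s (h.rd r0)
  refine ⟨(((dχ.const_sub 1).mul d2.differentiableAt.hasDerivAt).add
    (dχ.mul d3.hasDerivAt)).congr_deriv ?_, (cq_spec h hq hl).1.fst.sub (dχ.mul dψ)⟩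
  simp only [Function.comp]
  ring

end Vale.Agent.P354XY
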